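import Vale.Agent.P231.WF.Deg

/-!
# P231, block S2-F (0): spreads

`Pi u` is the orthogonal projection onto an `m`-plane `P u` containing `u`; the planes `P u`
partition the space off the origin.
-/

open Module
open scoped ContDiff

namespace Vale.Agent.P231.FE

open Vale.Agent.P231.Fm

variable {E : Type*} [NormedAddCommGroup E] [InnerProductSpace ℝ E] [FiniteDimensional ℝ E]

/-- a smooth spread of `m`-planes off the origin -/
structure Spread (m : ℕ) (Pi : E → E →L[ℝ] E) : Prop where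
  smooth : ∀ u, u ≠ 0 → ContDiffAt ℝ ∞ Pi u
  idem : ∀ u, u ≠ 0 → ∀ x, Pi u (Pi u x) = Pi u x
  symm : ∀ u, u ≠ 0 → ∀ x y, inner ℝ (Pi u x) y = inner ℝ x (Pi u y)
  rank : ∀ u, u ≠ 0 → finrank ℝ (LinearMap.range (Pi u : E →ₗ[ℝ] E)) = m
  self : ∀ u, u ≠ 0 → Pi u u = u
  rel : ∀ u w, u ≠ 0 → w ≠ 0 → Pi u w = w → Pi w = Pi u

/-- the covector of degree `m` of a family of `m` vectors -/
noncomputable def wdg {m : ℕ} (e : Fin m → E) : Lam E :=
  (List.ofFn fun a => dx (innerSL ℝ (e a))).prod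

/-- an orientation of a spread: a smooth choice of unit `m`-covectors, constant on the planes -/
structure Orient (m : ℕ) (Pi : E → E →L[ℝ] E) (o : E → Lam E) : Prop where
  smooth : ∀ u, u ≠ 0 → ContDiffAt ℝ ∞ o u
  frame : ∀ u, u ≠ 0 → ∃ e : Fin m → E, Orthonormal ℝ e ∧ (∀ a, Pi u (e a) = e a) ∧ o u = wdg e
  rel : ∀ u w, u ≠ 0 → w ≠ 0 → Pi u w = w → o w = o u

namespace Spread

variable {m : ℕ} {Pi : E → E →L[ℝ] E} (h : Spread m Pi)
include h

theorem hom {u : E} (hu : u ≠ 0) {t : ℝ} (ht : t ≠ 0) : Pi (t • u) = Pi u :=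
  h.rel u (t • u) hu (smul_ne_zero ht hu) (by rw [map_smul, h.self u hu])

end Spread

theorem Orient.hom {m : ℕ} {Pi : E → E →L[ℝ] E} {o : E → Lam E} (h : Spread m Pi)
    (ho : Orient m Pi o) {u : E} (hu : u ≠ 0) {t : ℝ} (ht : t ≠ 0) : o (t • u) = o u :=
  ho.rel u (t • u) hu (smul_ne_zero ht hu) (by rw [map_smul, h.self u hu])

end Vale.Agent.P231.FE
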