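import Vale.Agent.P231.FE.Psi

/-!
# P231, block S2-F (7): the closed form `d (ρ psi)`
-/

set_option linter.unusedSectionVars false

open Module Filter Topology
open scoped ContDiff

namespace Vale.Agent.P231.FE

open Vale.Agent.P231.Fm Vale.Agent.P231.WF

variable {E : Type*} [NormedAddCommGroup E] [InnerProductSpace ℝ E] [FiniteDimensional ℝ E]
  {n : ℕ} {a : ℝ} {Pi : E → E →L[ℝ] E} {o : E → Lam E} {ρ : E → ℝ}

/-- the closed form `d (ρ psi)` -/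
noncomputable def GG (w : E → Lam E) (ρ : E → ℝ) : E → Lam E := extd (fun v => ρ v • w v)

theorem GG_eq_of_one {w : E → Lam E} {v : E} (h1 : ρ =ᶠ[𝓝 v] 1) : GG w ρ v = extd w v := by
  refine extd_congr ?_
  filter_upwards [h1] with y hy
  rw [hy, Pi.one_apply, one_smul]

namespace OS

variable (h : OS n Pi o)
include h

theorem cut_contDiff (a : ℝ) (hρ : ContDiff ℝ ∞ ρ) (h0 : ∀ᶠ v in 𝓝 0, ρ v = 0) :
    ContDiff ℝ ∞ (fun v => ρ v • psi n a Pi o v) := by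
  refine contDiff_iff_contDiffAt.2 fun v => ?_
  rcases eq_or_ne v 0 with rfl | hv
  · refine contDiffAt_const.congr_of_eventuallyEq (f := fun _ => (0 : Lam E)) ?_
    filter_upwards [h0] with w hw
    rw [hw, zero_smul]
  · exact sm_smul hρ.contDiffAt (h.psi_smooth a hv)

theorem GG_contDiff (a : ℝ) (hρ : ContDiff ℝ ∞ ρ) (h0 : ∀ᶠ v in 𝓝 0, ρ v = 0) :
    ContDiff ℝ ∞ (GG (psi n a Pi o) ρ) :=
  contDiff_iff_contDiffAt.2 fun v =>
    contDiffAt_extd (m := ∞) (n := ∞) (h.cut_contDiff a hρ h0).contDiffAt (by simp)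

theorem GG_closed (a : ℝ) (hρ : ContDiff ℝ ∞ ρ) (h0 : ∀ᶠ v in 𝓝 0, ρ v = 0) (v : E) :
    extd (GG (psi n a Pi o) ρ) v = 0 :=
  extd_extd ((h.cut_contDiff a hρ h0).contDiffAt.of_le two_le_infty)

theorem GG_mem (a : ℝ) (hρ : ContDiff ℝ ∞ ρ) (h0 : ∀ᶠ v in 𝓝 0, ρ v = 0) (v : E) :
    GG (psi n a Pi o) ρ v ∈ hom E (2 * n + 2) := by
  refine extd_mem_hom ((h.cut_contDiff a hρ h0).contDiffAt.differentiableAt (by simp)) ?_
  rcases eq_or_ne v 0 with rfl | hv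
  · filter_upwards [h0] with w hw
    rw [hw, zero_smul]
    exact zero_mem _
  · filter_upwards [isOpen_ne.mem_nhds hv] with w hw
    exact Submodule.smul_mem _ _ (h.psi_mem a hw)

theorem inv_GG (a : ℝ) (hρ : ContDiff ℝ ∞ ρ) (h0 : ∀ᶠ v in 𝓝 0, ρ v = 0) (v : E) :
    inv (GG (psi n a Pi o) ρ v) = GG (psi n a Pi o) ρ v := by
  rw [inv_of_mem_hom (h.GG_mem a hρ h0 v), Even.neg_one_pow ⟨n + 1, by ring⟩, one_smul]

end OS

end Vale.Agent.P231.FE
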