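import Vale.Agent.P231.WE.F
import Vale.Agent.P231.FE.GG

/-!
# P231, block S2-F (8): the closed form `F` of degree `2 n + 2` on `M`

`F` is `d (ρ psi)` in polar coordinates at `p` (general multiplicity; adapted from `WE.F`).
-/

set_option maxSynthPendingDepth 3
set_option linter.unusedSectionVars false

open Bundle Manifold Set Filter Module
open scoped ContDiff Manifold Topology

namespace Vale.Agent.P231.FE

open Vale.Agent.P234 Vale.Agent.P231 Vale.Agent.P231.H775 Vale.Agent.P231.WE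

noncomputable section

variable {E : Type*} [NormedAddCommGroup E] [NormedSpace ℝ E] [FiniteDimensional ℝ E]
  {M : Type*} [MetricSpace M] [ChartedSpace E M] [IsManifold 𝓘(ℝ, E) ∞ M]
  [RiemannianBundle (fun x : M => TangentSpace 𝓘(ℝ, E) x)]
  [IsContMDiffRiemannianBundle 𝓘(ℝ, E) ∞ E (fun x : M => TangentSpace 𝓘(ℝ, E) x)]
  {e : ∀ x : M, TangentSpace 𝓘(ℝ, E) x → M}

/-- `Pi` is the field of the projections onto the planes of the directions at `p` with the same
cut point, `o` is an orientation of these planes -/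
structure LineP (e : ∀ x : M, TangentSpace 𝓘(ℝ, E) x → M) (D : ℝ) (p : M) (n : ℕ)
    (Pi : TangentSpace 𝓘(ℝ, E) p → TangentSpace 𝓘(ℝ, E) p →L[ℝ] TangentSpace 𝓘(ℝ, E) p)
    (o : TangentSpace 𝓘(ℝ, E) p → Fm.Lam (TangentSpace 𝓘(ℝ, E) p)) : Prop where
  os : OS n Pi o
  cut : ∀ u w : TangentSpace 𝓘(ℝ, E) p, ‖u‖ = 1 → ‖w‖ = 1 →
    (e p (D • u) = e p (D • w) ↔ Pi u w = w)

open Classical in
/-- the value of the form `F` on plots -/
def Fval (e : ∀ x : M, TangentSpace 𝓘(ℝ, E) x → M) (D : ℝ) (p : M)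
    (ψ : TangentSpace 𝓘(ℝ, E) p → Fm.Lam (TangentSpace 𝓘(ℝ, E) p))
    (ρ : TangentSpace 𝓘(ℝ, E) p → ℝ)
    {V : Type*} [NormedAddCommGroup V] [NormedSpace ℝ V] [FiniteDimensional ℝ V]
    (u : V → M) (x : V) : Fm.Lam V :=
  if dist p (u x) < D then Fm.pb (fun y => logMap e p (u y)) (GG ψ ρ) x
  else if h : ∃ f, Good e D p u f x then Fm.pb h.choose (Fm.extd ψ) x else 0

variable {D : ℝ} {p : M} {n : ℕ}
  {Pi : TangentSpace 𝓘(ℝ, E) p → TangentSpace 𝓘(ℝ, E) p →L[ℝ] TangentSpace 𝓘(ℝ, E) p}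
  {o : TangentSpace 𝓘(ℝ, E) p → Fm.Lam (TangentSpace 𝓘(ℝ, E) p)}
  {ρ : TangentSpace 𝓘(ℝ, E) p → ℝ} {r₀ : ℝ}

theorem Fval_lt {V : Type*} [NormedAddCommGroup V] [NormedSpace ℝ V] [FiniteDimensional ℝ V]
    {ψ : TangentSpace 𝓘(ℝ, E) p → Fm.Lam (TangentSpace 𝓘(ℝ, E) p)}
    {u : V → M} {x : V} (h : dist p (u x) < D) :
    Fval e D p ψ ρ u x = Fm.pb (fun y => logMap e p (u y)) (GG ψ ρ) x := by
  unfold Fval
  rw [if_pos h]

variable [CompactSpace M] [ConnectedSpace M] [IsRiemannianManifold 𝓘(ℝ, E) M]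

section Unique

variable {V : Type*} [NormedAddCommGroup V] [NormedSpace ℝ V] [FiniteDimensional ℝ V]

theorem ne_zero_of_unit {T : Type*} [NormedAddCommGroup T] {v : T} (h : ‖v‖ = 1) : v ≠ 0 := by
  rintro rfl
  rw [norm_zero] at h
  exact zero_ne_one h

omit [CompactSpace M] [ConnectedSpace M] [IsRiemannianManifold 𝓘(ℝ, E) M] in
/-- all good lifts give the same value -/
theorem good_unique (hJ : LineP e D p n Pi o) (a : ℝ)
    {u : V → M} {f g : V → TangentSpace 𝓘(ℝ, E) p} {x : V} (hf : Good e D p u f x)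
    (hg : Good e D p u g x) :
    Fm.pb f (Fm.extd (psi n a Pi o)) x = Fm.pb g (Fm.extd (psi n a Pi o)) x := by
  refine hJ.os.pb_extd_rel a (hf.self_of_nhds.1.differentiableAt (by simp))
    (hg.self_of_nhds.1.differentiableAt (by simp)) (ne_zero_of_unit hf.self_of_nhds.2.1)
    (ne_zero_of_unit hg.self_of_nhds.2.1) ?_
  filter_upwards [hf, hg] with y h1 h2
  exact (hJ.cut _ _ h1.2.1 h2.2.1).1 (h1.2.2.trans h2.2.2.symm)

/-- a good lift computes `F` outside the small ball -/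
theorem Fval_good (F : Facts e) (hD : 0 < D) (hB : InjGE e D)
    (hdiam : ∀ p q : M, dist p q ≤ D)
    (hl : ∀ x y : M, dist x y = D → finrank ℝ (Pl e D x y) = 2 * n + 2)
    (hJ : LineP e D p n Pi o) (a : ℝ)
    (hρ : Rho e D p ρ r₀) {u : V → M} {x : V}
    (hu : ∀ᶠ y in 𝓝 x, ContMDiffAt 𝓘(ℝ, V) 𝓘(ℝ, E) ∞ u y) (hr : r₀ < dist p (u x))
    {f : V → TangentSpace 𝓘(ℝ, E) p} (hf : Good e D p u f x) :
    Fval e D p (psi n a Pi o) ρ u x = Fm.pb f (Fm.extd (psi n a Pi o)) x := by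
  have hp : u x ≠ p := by
    rintro h
    rw [h, dist_self] at hr
    exact absurd hρ.pos (not_le.2 hr)
  unfold Fval
  split_ifs with h h'
  · -- inside the ball
    have hc : ContinuousAt u x := hu.self_of_nhds.continuousAt
    have h1 : ∀ᶠ y in 𝓝 x, dist p (u y) < D :=
      (continuousAt_const.dist hc).eventually (gt_mem_nhds h)
    have h2 : ∀ᶠ y in 𝓝 x, u y ≠ p := hc.eventually (isOpen_ne.mem_nhds hp)
    have h3 : Fm.pb (fun y => logMap e p (u y)) (GG (psi n a Pi o) ρ) x =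
        Fm.pb (fun y => logMap e p (u y)) (Fm.extd (psi n a Pi o)) x := by
      unfold Fm.pb
      rw [GG_eq_of_one (hρ.eq_one (by rw [(exp_logMap F hB h).2]; exact hr))]
    have h4 : (fun y => logMap e p (u y)) =ᶠ[𝓝 x]
        fun y => dist p (u y) • dirAt e p (u y) := by
      filter_upwards [h1, h2] with y hy1 hy2
      exact (smul_dirAt F hB hy1 hy2).symm
    have hg := good_dirAt F hB hu h hp
    have h5 : DifferentiableAt ℝ (fun y => dist p (u y)) x :=
      (((contMDiffAt_dist F hB h hp).comp x hu.self_of_nhds).contDiffAt).differentiableAt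
        (by simp)
    rw [h3, Fm.pb_congr _ h4, hJ.os.pb_extd_smul a (f := fun y => dirAt e p (u y))
      (r := fun y => dist p (u y)) (hg.self_of_nhds.1.differentiableAt (by simp)) h5
      (ne_zero_of_unit hg.self_of_nhds.2.1) (dist_pos.2 hp.symm)]
    exact good_unique hJ a hg hf
  · exact good_unique hJ a h'.choose_spec hf
  · exact absurd (exists_good F hD hB hdiam (l := 2 * n + 1) hl hu hp) h'

end Unique

/-- the closed form `F` -/
def FF (F : Facts e) (hD : 0 < D) (hB : InjGE e D)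
    (hdiam : ∀ p q : M, dist p q ≤ D)
    (hl : ∀ x y : M, dist x y = D → finrank ℝ (Pl e D x y) = 2 * n + 2)
    (hJ : LineP e D p n Pi o) (hρ : Rho e D p ρ r₀) (a : ℝ) : Fm.Form (W.dM E M) :=
  Fm.Form.mk' (fun {V} _ _ _ u x => Fval e D p (psi n a Pi o) ρ u x)
    (by
      intro V _ _ _ u x h
      have hu : ∀ᶠ y in 𝓝 x, ContMDiffAt 𝓘(ℝ, V) 𝓘(ℝ, E) ∞ u y := h
      have hc : ContinuousAt u x := hu.self_of_nhds.continuousAt
      rcases lt_or_eq_of_le (hdiam p (u x)) with hlt | heq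
      · have h1 : ∀ᶠ y in 𝓝 x, dist p (u y) < D :=
          (continuousAt_const.dist hc).eventually (gt_mem_nhds hlt)
        have h2 : (Fval e D p (psi n a Pi o) ρ u) =ᶠ[𝓝 x]
            Fm.pb (fun y => logMap e p (u y)) (GG (psi n a Pi o) ρ) := by
          filter_upwards [h1] with y hy using Fval_lt hy
        refine ContDiffAt.congr_of_eventuallyEq ?_ h2
        refine Fm.contDiffAt_pb (n := ∞) ?_
          (hJ.os.GG_contDiff a hρ.smooth hρ.zero).contDiffAt (by simp)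
        exact ((contMDiffAt_logMap_of_dist F hB hlt).comp x hu.self_of_nhds).contDiffAt
      · have hr : r₀ < dist p (u x) := by rw [heq]; exact hρ.lt
        have hp : u x ≠ p := by
          rintro h
          rw [h, dist_self] at hr
          exact absurd hρ.pos (not_le.2 hr)
        obtain ⟨f, hf⟩ := exists_good F hD hB hdiam (l := 2 * n + 1) hl hu hp
        have h1 : ∀ᶠ y in 𝓝 x, r₀ < dist p (u y) :=
          (continuousAt_const.dist hc).eventually (lt_mem_nhds hr)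
        have h2 : (Fval e D p (psi n a Pi o) ρ u) =ᶠ[𝓝 x]
            Fm.pb f (Fm.extd (psi n a Pi o)) := by
          filter_upwards [h1, hf.eventually, eventually_eventually_nhds.2 hu] with y hy1 hy2 hy3
          exact Fval_good F hD hB hdiam hl hJ a hρ hy3 hy1 hy2
        refine ContDiffAt.congr_of_eventuallyEq ?_ h2
        have h0 : f x ≠ 0 := ne_zero_of_unit hf.self_of_nhds.2.1
        refine Fm.contDiffAt_pb (n := ∞) hf.self_of_nhds.1
          (Fm.contDiffAt_extd (hJ.os.psi_smooth a h0) (m := ∞) (by simp)) (by simp))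
    (by
      intro V V' _ _ _ _ _ _ u g x h hg
      have hu : ∀ᶠ y in 𝓝 (g x), ContMDiffAt 𝓘(ℝ, V') 𝓘(ℝ, E) ∞ u y := h
      rcases lt_or_eq_of_le (hdiam p (u (g x))) with hlt | heq
      · rw [Fval_lt hlt, Fval_lt (u := u ∘ g) hlt]
        exact Fm.pb_comp (f := g) (g := fun y => logMap e p (u y)) (GG (psi n a Pi o) ρ)
          ((((contMDiffAt_logMap_of_dist F hB hlt).comp (g x)
            hu.self_of_nhds).contDiffAt).differentiableAt (by simp)) hg.differentiableAt
      · have hr : r₀ < dist p (u (g x)) := by rw [heq]; exact hρ.lt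
        have hp : u (g x) ≠ p := by
          rintro h
          rw [h, dist_self] at hr
          exact absurd hρ.pos (not_le.2 hr)
        obtain ⟨f, hf⟩ := exists_good F hD hB hdiam (l := 2 * n + 1) hl hu hp
        have hug : ∀ᶠ y in 𝓝 x, ContMDiffAt 𝓘(ℝ, V) 𝓘(ℝ, E) ∞ (u ∘ g) y := by
          filter_upwards [hg, hg.continuousAt.eventually hu] with y hy1 hy2
          exact hy2.comp y hy1.contMDiffAt
        rw [Fval_good F hD hB hdiam hl hJ a hρ hu hr hf,
          Fval_good F hD hB hdiam hl hJ a hρ hug hr (hf.comp hg)]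
        exact Fm.pb_comp (f := g) (g := f) (Fm.extd (psi n a Pi o))
          (hf.self_of_nhds.1.differentiableAt (by simp)) hg.differentiableAt)
    (by
      intro V _ _ _ u v x h huv
      have hu : ∀ᶠ y in 𝓝 x, ContMDiffAt 𝓘(ℝ, V) 𝓘(ℝ, E) ∞ u y := h
      have hx : u x = v x := huv.self_of_nhds
      have hv : ∀ᶠ y in 𝓝 x, ContMDiffAt 𝓘(ℝ, V) 𝓘(ℝ, E) ∞ v y := by
        filter_upwards [hu, eventually_eventually_nhds.2 huv] with y hy1 hy2
        exact hy1.congr_of_eventuallyEq (Filter.EventuallyEq.symm hy2)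
      rcases lt_or_eq_of_le (hdiam p (u x)) with hlt | heq
      · rw [Fval_lt hlt, Fval_lt (u := v) (by rw [← hx]; exact hlt)]
        refine Fm.pb_congr _ ?_
        filter_upwards [huv] with y hy
        rw [hy]
      · have hr : r₀ < dist p (u x) := by rw [heq]; exact hρ.lt
        have hp : u x ≠ p := by
          rintro h
          rw [h, dist_self] at hr
          exact absurd hρ.pos (not_le.2 hr)
        obtain ⟨f, hf⟩ := exists_good F hD hB hdiam (l := 2 * n + 1) hl hu hp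
        rw [Fval_good F hD hB hdiam hl hJ a hρ hu hr hf,
          Fval_good F hD hB hdiam hl hJ a hρ hv (by rw [← hx]; exact hr) (hf.congr huv)])

section Facts2

variable {V : Type} [NormedAddCommGroup V] [NormedSpace ℝ V] [FiniteDimensional ℝ V]

variable (F : Facts e) (hD : 0 < D) (hB : InjGE e D)
    (hdiam : ∀ p q : M, dist p q ≤ D)
    (hl : ∀ x y : M, dist x y = D → finrank ℝ (Pl e D x y) = 2 * n + 2)
    (hJ : LineP e D p n Pi o) (hρ : Rho e D p ρ r₀) (a : ℝ)

include F hD hB hdiam hl hJ hρ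

theorem FF_val {u : V → M} {x : V} (h : (W.dM E M).At u x) :
    (FF F hD hB hdiam hl hJ hρ a).val u x = Fval e D p (psi n a Pi o) ρ u x :=
  Fm.Form.mk'_val (D := W.dM E M) h

/-- `F` in the logarithmic chart -/
theorem FF_lt {u : V → M} {x : V} (h : (W.dM E M).At u x) (hlt : dist p (u x) < D) :
    (FF F hD hB hdiam hl hJ hρ a).val u x =
      Fm.pb (fun y => logMap e p (u y)) (GG (psi n a Pi o) ρ) x := by
  rw [FF_val F hD hB hdiam hl hJ hρ a h, Fval_lt hlt]

/-- `F` from a lift to the unit sphere -/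
theorem FF_good {u : V → M} {x : V} (h : (W.dM E M).At u x) (hr : r₀ < dist p (u x))
    {f : V → TangentSpace 𝓘(ℝ, E) p} (hf : Good e D p u f x) :
    (FF F hD hB hdiam hl hJ hρ a).val u x = Fm.pb f (Fm.extd (psi n a Pi o)) x := by
  rw [FF_val F hD hB hdiam hl hJ hρ a h]
  exact Fval_good F hD hB hdiam hl hJ a hρ h hr hf

/-- `F` pulled back by `exp_p` to the ball of radius `D` -/
theorem FF_exp {w : V → TangentSpace 𝓘(ℝ, E) p} {x : V}
    (hws : Fm.Sm w x) (hw : ‖w x‖ < D) :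
    (FF F hD hB hdiam hl hJ hρ a).val (fun y => e p (w y)) x =
      Fm.pb w (GG (psi n a Pi o) ρ) x := by
  have h1 : dist p (e p (w x)) = ‖w x‖ := hB p (w x) hw.le
  rw [FF_lt F hD hB hdiam hl hJ hρ a (at_exp F hws) (by rw [h1]; exact hw)]
  refine Fm.pb_congr _ ?_
  have h2 : ∀ᶠ y in 𝓝 x, ‖w y‖ < D := hws.continuousAt.norm.eventually (gt_mem_nhds hw)
  filter_upwards [h2] with y hy
  exact logMap_exp F hB hy

/-- `F` pulled back by `exp_p` to the annulus `r₀ < |w| < 2 D - r₀` -/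
theorem FF_exp' {w : V → TangentSpace 𝓘(ℝ, E) p} {x : V}
    (hws : Fm.Sm w x) (hw : r₀ < ‖w x‖) (hw2 : ‖w x‖ < 2 * D - r₀) :
    (FF F hD hB hdiam hl hJ hρ a).val (fun y => e p (w y)) x =
      Fm.pb w (Fm.extd (psi n a Pi o)) x := by
  have hpos : 0 < ‖w x‖ := lt_of_le_of_lt hρ.pos hw
  have hw0 : w x ≠ 0 := norm_pos_iff.1 hpos
  have hw3 : ‖w x‖ < 2 * D := by linarith only [hw2, hρ.pos]
  have hg := good_exp F hD hB hdiam hws hw0 hw3
  have hdist : r₀ < dist p (e p (w x)) := by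
    rcases le_or_gt ‖w x‖ D with h | h
    · rw [hB p (w x) h]
      exact hw
    · have h1 := (hB p (D • (‖w x‖⁻¹ • w x)) (by
        rw [norm_smul, norm_smul, norm_inv, norm_norm, inv_mul_cancel₀ hpos.ne', mul_one,
          Real.norm_of_nonneg hD.le]))
      rw [norm_smul, norm_smul, norm_inv, norm_norm, inv_mul_cancel₀ hpos.ne', mul_one,
          Real.norm_of_nonneg hD.le] at h1
      have h2 : dist (e p (D • (‖w x‖⁻¹ • w x))) (e p (w x)) ≤ ‖w x‖ - D := by
        have hun : ‖‖w x‖⁻¹ • w x‖ = 1 := by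
          rw [norm_smul, norm_inv, norm_norm, inv_mul_cancel₀ hpos.ne']
        obtain ⟨b, hb, hbu⟩ := link_reverse F (⟨hun, rfl⟩ :
          ‖w x‖⁻¹ • w x ∈ Lk e D (e p (D • (‖w x‖⁻¹ • w x))) p)
        have h3 := hbu (D - ‖w x‖)
        rw [sub_sub_cancel, smul_inv_smul₀ hpos.ne'] at h3
        rw [← h3, hB _ _ (by
          rw [norm_smul, hb, mul_one, Real.norm_of_nonpos (by linarith only [h]), neg_sub]
          linarith only [hw3]), norm_smul, hb, mul_one,
          Real.norm_of_nonpos (by linarith only [h]), neg_sub]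
      have h3 := dist_triangle p (e p (w x)) (e p (D • (‖w x‖⁻¹ • w x)))
      rw [dist_comm (e p (w x))] at h3
      linarith only [h1, h2, h3, hw2]
  rw [FF_good F hD hB hdiam hl hJ hρ a (at_exp F hws) hdist hg]
  refine hJ.os.pb_extd_smul a (f := w) (r := fun y => ‖w y‖⁻¹)
    (hws.self_of_nhds.differentiableAt (by simp)) ?_ hw0 (inv_pos.2 hpos)
  exact ((hws.self_of_nhds.norm ℝ hw0).inv (norm_pos_iff.2 hw0).ne').differentiableAt (by simp)

end Facts2

section Closed

variable (F : Facts e) (hD : 0 < D) (hB : InjGE e D)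
    (hdiam : ∀ p q : M, dist p q ≤ D)
    (hl : ∀ x y : M, dist x y = D → finrank ℝ (Pl e D x y) = 2 * n + 2)
    (hJ : LineP e D p n Pi o) (hρ : Rho e D p ρ r₀) (a : ℝ)

include F hD hB hdiam hl hJ hρ

/-- near every plot, `F` is the pull-back of a form on the tangent space -/
theorem FF_local {V : Type} [NormedAddCommGroup V] [NormedSpace ℝ V] [FiniteDimensional ℝ V]
    {u : V → M} {x : V} (h : (W.dM E M).At u x) :
    (∃ f : V → TangentSpace 𝓘(ℝ, E) p, ContDiffAt ℝ ∞ f x ∧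
      (FF F hD hB hdiam hl hJ hρ a).val u =ᶠ[𝓝 x] Fm.pb f (GG (psi n a Pi o) ρ)) ∨
    (∃ f : V → TangentSpace 𝓘(ℝ, E) p, ContDiffAt ℝ ∞ f x ∧ f x ≠ 0 ∧
      (FF F hD hB hdiam hl hJ hρ a).val u =ᶠ[𝓝 x] Fm.pb f (Fm.extd (psi n a Pi o))) := by
  have hu : ∀ᶠ y in 𝓝 x, ContMDiffAt 𝓘(ℝ, V) 𝓘(ℝ, E) ∞ u y := h
  have hc : ContinuousAt u x := hu.self_of_nhds.continuousAt
  have ho : ∀ᶠ y in 𝓝 x, (W.dM E M).At u y := (W.dM E M).open' h
  rcases lt_or_eq_of_le (hdiam p (u x)) with hlt | heq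
  · left
    refine ⟨fun y => logMap e p (u y),
      ((contMDiffAt_logMap_of_dist F hB hlt).comp x hu.self_of_nhds).contDiffAt, ?_⟩
    have h1 : ∀ᶠ y in 𝓝 x, dist p (u y) < D :=
      (continuousAt_const.dist hc).eventually (gt_mem_nhds hlt)
    filter_upwards [h1, ho] with y hy hy2
    exact FF_lt F hD hB hdiam hl hJ hρ a hy2 hy
  · right
    have hr : r₀ < dist p (u x) := by rw [heq]; exact hρ.lt
    have hp : u x ≠ p := by
      rintro h
      rw [h, dist_self] at hr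
      exact absurd hρ.pos (not_le.2 hr)
    obtain ⟨f, hf⟩ := exists_good F hD hB hdiam (l := 2 * n + 1) hl hu hp
    have h1 : ∀ᶠ y in 𝓝 x, r₀ < dist p (u y) :=
      (continuousAt_const.dist hc).eventually (lt_mem_nhds hr)
    refine ⟨f, hf.self_of_nhds.1, ne_zero_of_unit hf.self_of_nhds.2.1, ?_⟩
    filter_upwards [h1, hf.eventually, ho] with y hy1 hy2 hy3
    exact FF_good F hD hB hdiam hl hJ hρ a hy3 hy1 hy2

/-- `F` is closed -/
theorem FF_d : (FF F hD hB hdiam hl hJ hρ a).d = 0 := by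
  refine Fm.Form.ext_val fun V _ _ _ u x h => ?_
  rw [Fm.Form.d_val _ h, Fm.Form.zero_val]
  rcases FF_local F hD hB hdiam hl hJ hρ a h with ⟨f, hf, h1⟩ | ⟨f, hf, hf0, h1⟩
  · rw [Fm.extd_congr h1, Fm.extd_pb (hf.of_le Fm.two_le_infty)
      ((hJ.os.GG_contDiff a hρ.smooth hρ.zero).differentiable (by simp) _)]
    unfold Fm.pb
    rw [hJ.os.GG_closed a hρ.smooth hρ.zero, map_zero]
  · have h2 := hJ.os.psi_smooth a hf0
    rw [Fm.extd_congr h1, Fm.extd_pb (hf.of_le Fm.two_le_infty)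
      ((Fm.contDiffAt_extd h2 (m := ∞) (by simp)).differentiableAt (by simp))]
    unfold Fm.pb
    rw [Fm.extd_extd (h2.of_le Fm.two_le_infty), map_zero]

/-- `F` is even -/
theorem FF_sg : (FF F hD hB hdiam hl hJ hρ a).sg = FF F hD hB hdiam hl hJ hρ a := by
  refine Fm.Form.ext_val fun V _ _ _ u x h => ?_
  rw [Fm.Form.sg_val]
  rcases FF_local F hD hB hdiam hl hJ hρ a h with ⟨f, hf, h1⟩ | ⟨f, hf, hf0, h1⟩
  · rw [h1.self_of_nhds]
    unfold Fm.pb
    rw [← Fm.pull_inv, hJ.os.inv_GG a hρ.smooth hρ.zero]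
  · rw [h1.self_of_nhds]
    unfold Fm.pb
    rw [← Fm.pull_inv, hJ.os.inv_extd a hf0]

/-- `F` has degree `2 n + 2` -/
theorem FF_deg : WF.IsDeg (FF F hD hB hdiam hl hJ hρ a) (2 * n + 2) := by
  intro V _ _ _ u x h
  rcases FF_local F hD hB hdiam hl hJ hρ a h with ⟨f, hf, h1⟩ | ⟨f, hf, hf0, h1⟩
  · rw [h1.self_of_nhds]
    exact WF.pull_mem_hom _ (hJ.os.GG_mem a hρ.smooth hρ.zero _)
  · rw [h1.self_of_nhds]
    exact WF.pull_mem_hom _ (hJ.os.extd_mem a hf0)

end Closed

end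

end Vale.Agent.P231.FE
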