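import Vale.Agent.P231.FE.GG

/-!
# P231, block S2-F (9): the angular form on the planes of the spread

On a plane of the spread the angular form is `a (m - 1)!` times the solid angle form of the plane.
-/

set_option linter.unusedSectionVars false

open Module Filter Topology
open scoped ContDiff

namespace Vale.Agent.P231.FE

open Vale.Agent.P231.Fm Vale.Agent.P231.WF

variable {V : Type*} [NormedAddCommGroup V] [NormedSpace ℝ V] [FiniteDimensional ℝ V]
variable {E : Type*} [NormedAddCommGroup E] [InnerProductSpace ℝ E] [FiniteDimensional ℝ E]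

/-- the tautological element of `Lam (E × E)` -/
noncomputable def Th1 (E : Type*) [NormedAddCommGroup E] [InnerProductSpace ℝ E]
    [FiniteDimensional ℝ E] : Lam (E × E) := ThE (ContinuousLinearMap.id ℝ E)

theorem dx_eq_sum (w : E) : dx (innerSL ℝ w) =
    ∑ i, (inner ℝ (stdOrthonormalBasis ℝ E i) w : ℝ) • dx (bc E i) := by
  have h := comp_eq_sum (V := E) w (ContinuousLinearMap.id ℝ E)
  rw [ContinuousLinearMap.comp_id] at h
  rw [h, map_sum]
  refine Finset.sum_congr rfl fun i _ => ?_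
  rw [map_smul, ContinuousLinearMap.comp_id]

theorem inv_ThE (L : V →L[ℝ] E) : inv (ThE L) = ThE L := by
  rw [ThE, map_sum]
  refine Finset.sum_congr rfl fun i _ => ?_
  rw [map_mul, inv_hz, inv_dx, inv_vt, map_neg, neg_mul_neg]

theorem iv_Th1 (w : E) : iv w (Th1 E) = -hz (dx (innerSL ℝ w)) := by
  rw [Th1, ThE, map_sum, dx_eq_sum, map_sum, ← Finset.sum_neg_distrib]
  refine Finset.sum_congr rfl fun i _ => ?_
  rw [iv_hz_mul, iv_vt, ContinuousLinearMap.comp_id, inv_dx, map_neg, neg_mul, map_smul,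
    ← Algebra.commutes, ← Algebra.smul_def]
  rfl

theorem ih_Th1 (w : E) : ih w (Th1 E) = XE w := by
  rw [Th1, ThE, map_sum, XE]
  have h : ∀ i, ih w (hz (dx ((bc E i).comp (ContinuousLinearMap.id ℝ E))) * vt (bc E i)) =
      (inner ℝ (stdOrthonormalBasis ℝ E i) w : ℝ) • (vt (bc E i) : Lam (E × E)) := by
    intro i
    rw [ih_mul, ih_hz, ih_vt, mul_zero, add_zero, ContinuousLinearMap.comp_id, iprod_dx,
      AlgHom.commutes, ← Algebra.smul_def]
    rfl
  rw [Finset.sum_congr rfl fun i _ => h i, ← vt_sum]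
  congr 1
  have h2 := comp_eq_sum (V := E) w (ContinuousLinearMap.id ℝ E)
  rw [ContinuousLinearMap.comp_id] at h2
  rw [h2]
  exact Finset.sum_congr rfl fun i _ => by rw [ContinuousLinearMap.comp_id]

theorem inv_Th1 : inv (Th1 E) = Th1 E := inv_ThE _

/-- total contraction of a power of the tautological element -/
theorem TTl_Th1 (l : List E) (j : ℕ) : TTl l (Th1 E ^ (j + l.length)) =
    ((-1 : ℝ) ^ l.length * ((j + 1).ascFactorial l.length : ℝ)) •
      (hz ((l.map fun w => dx (innerSL ℝ w)).prod) * Th1 E ^ j) := by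
  induction l generalizing j with
  | nil => simp [TTl_nil]
  | cons w l ih' =>
    have e1 : j + (w :: l).length = (j + 1) + l.length := by
      rw [List.length_cons]; ring
    rw [TTl_cons, e1, ih', map_smul, iv_hz_mul, iv_pow inv_Th1, iv_Th1, List.map_cons,
      List.prod_cons, List.length_cons, map_mul]
    have e2 : hz (inv ((l.map fun w => dx (innerSL ℝ w)).prod)) *
        (((j : ℝ) + 1) • (-hz (dx (innerSL ℝ w)) * Th1 E ^ j)) =
        -(((j : ℝ) + 1) • (hz (dx (innerSL ℝ w)) *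
          hz ((l.map fun w => dx (innerSL ℝ w)).prod) * Th1 E ^ j)) := by
      rw [← map_mul hz, dx_mul, map_mul hz]
      simp only [mul_smul_comm, neg_mul, mul_neg, smul_neg, mul_assoc]
    rw [e2, smul_neg, smul_smul, ← neg_smul]
    congr 1
    have e3 : (j + 1).ascFactorial (l.length + 1) =
        (j + 1) * (j + 1 + 1).ascFactorial l.length := by
      rw [Nat.ascFactorial_succ, ← Nat.succ_ascFactorial]
    rw [pow_succ, e3]
    push_cast
    ring

/-- the total contraction of the top power -/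
theorem ct_Th1 {m : ℕ} (e : Fin m → E) :
    ct (wdg e) (Th1 E ^ m) = ((-1 : ℝ) ^ m * (m.factorial : ℝ)) • hz (wdg e) := by
  have h := TTl_Th1 (List.ofFn e) 0
  rw [List.length_ofFn, zero_add, zero_add, Nat.one_ascFactorial, pow_zero, mul_one] at h
  rw [ct_wdg, h, wdg, List.map_ofFn]
  rfl

theorem ih_pow (w : V) {η : Lam (V × E)} (h : inv η = η) (k : ℕ) :
    ih w (η ^ (k + 1)) = ((k : ℝ) + 1) • (ih w η * η ^ k) := by
  induction k with
  | zero => simp
  | succ k ih' =>
    have h2 : inv (η ^ (k + 1)) = η ^ (k + 1) := by rw [map_pow, h]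
    rw [pow_succ η (k + 1), ih_mul, ih', h2, mul_comm_of_even h2, smul_mul_assoc, mul_assoc,
      ← pow_succ]
    push_cast
    module

theorem ih_TTl (w : V) (l : List E) (η : Lam (V × E)) :
    ih w (TTl l η) = (-1 : ℝ) ^ l.length • TTl l (ih w η) := by
  induction l with
  | nil => simp [TTl_nil]
  | cons v l ih' =>
    rw [TTl_cons, ih_iv, ih', map_smul, TTl_cons, List.length_cons, pow_succ, mul_smul,
      neg_one_smul, smul_neg]

/-- the solid angle form as a total contraction -/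
theorem res_ct_Th1 {m : ℕ} (e : Fin (m + 1) → E) (w : E) :
    res (ct (wdg e) (XE w * Th1 E ^ m)) = (m.factorial : ℝ) • iprod w (wdg e) := by
  have h1 : ih w (Th1 E ^ (m + 1)) = ((m : ℝ) + 1) • (XE w * Th1 E ^ m) := by
    rw [ih_pow w inv_Th1, ih_Th1]
  have h2 : ((m : ℝ) + 1) • res (ct (wdg e) (XE w * Th1 E ^ m)) =
      ((m : ℝ) + 1) • ((m.factorial : ℝ) • iprod w (wdg e)) := by
    have h3 : TTl (List.ofFn e) (ih w (Th1 E ^ (m + 1))) =
        (-1 : ℝ) ^ (m + 1) • ih w (TTl (List.ofFn e) (Th1 E ^ (m + 1))) := by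
      rw [ih_TTl, List.length_ofFn, smul_smul, ← mul_pow]
      simp
    rw [← map_smul res, ← map_smul (ct (wdg e)), ← h1, ct_wdg, h3, ← ct_wdg, ct_Th1, map_smul,
      map_smul, map_smul, smul_smul, ih_hz, res_hz, smul_smul]
    congr 1
    rw [Nat.factorial_succ, ← mul_assoc, ← mul_pow]
    push_cast
    simp
  have h4 : ((m : ℝ) + 1) ≠ 0 := by positivity
  have h5 := congrArg (fun z => ((m : ℝ) + 1)⁻¹ • z) h2
  simpa only [smul_smul, ← mul_assoc, inv_mul_cancel₀ h4, one_mul, one_smul] using h5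

theorem WE_zero : WE (0 : V →L[ℝ] (E →L[ℝ] E)) = 0 := by
  have h : ∀ b : E, ap (0 : V →L[ℝ] (E →L[ℝ] E)) b = 0 := fun b => by
    rw [ap, ContinuousLinearMap.comp_zero]
  have h2 : wd (0 : V →L[ℝ] E) 0 = 0 := by
    simp [wd]
  rw [WE]
  simp only [h, h2, map_zero, zero_mul, Finset.sum_const_zero, smul_zero]

theorem PsE_zero (n : ℕ) (a : ℝ) (w : E) (L : V →L[ℝ] E) :
    PsE n a w L 0 = a • (XE w * ThE L ^ (2 * n + 1)) := by
  rw [PsE, Finset.sum_eq_single 0]
  · rw [pow_zero, mul_one, Nat.sub_zero]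
    rfl
  · intro k _ hk
    rw [WE_zero, zero_pow hk, mul_zero, smul_zero]
  · intro h
    exact absurd (Finset.mem_range.2 (Nat.succ_pos n)) h

theorem XE_sq (w : E) : (XE w : Lam (V × E)) * XE w = 0 := dx_mul_self _

theorem inv_XE (w : E) : inv (XE w : Lam (V × E)) = -XE w := inv_vt _

/-- the part of `Θ` in the direction of `w` does not contribute -/
theorem XE_mul_pow (w : E) (φ : V →L[ℝ] ℝ) {η : Lam (V × E)} (k : ℕ) :
    XE w * (η + hz (dx φ) * XE w) ^ k = XE w * η ^ k := by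
  induction k with
  | zero => rw [pow_zero, pow_zero]
  | succ k ih' =>
    have h1 : inv (hz (dx φ) * XE w : Lam (V × E)) = hz (dx φ) * XE w := by
      rw [map_mul, inv_hz, inv_dx, inv_XE, map_neg, neg_mul_neg]
    have h2 : (XE w : Lam (V × E)) * (hz (dx φ) * XE w) = 0 := by
      rw [← mul_comm_of_even h1, mul_assoc, XE_sq, mul_zero]
    rw [pow_succ, ← mul_assoc, ih', mul_add, pow_succ, ← mul_assoc]
    have h3 : XE w * η ^ k * hz (dx φ) * XE w = 0 := by
      rw [mul_assoc (XE w * η ^ k), ← mul_comm_of_even h1, ← mul_assoc, mul_comm_of_even h1, h2,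
        zero_mul]
    rw [h3, add_zero, mul_assoc]

theorem ThE_add (L L' : V →L[ℝ] E) : ThE (L + L') = ThE L + ThE L' := by
  simp only [ThE, ContinuousLinearMap.comp_add, map_add, add_mul, Finset.sum_add_distrib]

theorem ThE_smul (c : ℝ) (L : V →L[ℝ] E) : ThE (c • L) = c • ThE L := by
  simp only [ThE, ContinuousLinearMap.comp_smul, map_smul, smul_mul_assoc, Finset.smul_sum]

theorem ThE_smulRight (φ : V →L[ℝ] ℝ) (w : E) :
    ThE (φ.smulRight w) = hz (dx φ) * XE w := by
  have h1 : ∀ i, (bc E i).comp (φ.smulRight w) =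
      (inner ℝ (stdOrthonormalBasis ℝ E i) w : ℝ) • φ := by
    intro i
    refine ContinuousLinearMap.ext fun z => ?_
    change (inner ℝ (stdOrthonormalBasis ℝ E i) (φ z • w) : ℝ) = _ * φ z
    rw [inner_smul_right, mul_comm]
  have h2 : (XE w : Lam (V × E)) =
      ∑ i, (inner ℝ (stdOrthonormalBasis ℝ E i) w : ℝ) • vt (bc E i) := by
    rw [XE, ← vt_sum]
    congr 1
    have h2 := comp_eq_sum (V := E) w (ContinuousLinearMap.id ℝ E)
    rw [ContinuousLinearMap.comp_id] at h2
    rw [h2]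
    exact Finset.sum_congr rfl fun i _ => by rw [ContinuousLinearMap.comp_id]
  rw [ThE, h2, Finset.mul_sum]
  refine Finset.sum_congr rfl fun i _ => ?_
  rw [h1, map_smul, map_smul, smul_mul_assoc, mul_smul_comm]

theorem XE_smul (c : ℝ) (w : E) : (XE (c • w) : Lam (V × E)) = c • XE w := by
  have h : innerSL ℝ (c • w) = c • innerSL ℝ w := by
    refine ContinuousLinearMap.ext fun z => ?_
    change (inner ℝ (c • w) z : ℝ) = c * inner ℝ w z
    rw [real_inner_smul_left]
  rw [XE, h, vt, ContinuousLinearMap.smul_comp, map_smul]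
  rfl

namespace OS

variable {n : ℕ} {Pi : E → E →L[ℝ] E} {o : E → Lam E} (h : OS n Pi o)
include h

/-- **the angular form on a plane of the spread** -/
theorem psi_fibre (a : ℝ) {f : V → E} {x : V} (hf : DifferentiableAt ℝ f x) (hx : f x ≠ 0)
    (hP : ∀ᶠ y in 𝓝 x, Pi (f x) (f y) = f y) :
    pb f (psi n a Pi o) x = (a * ((2 * n + 1).factorial : ℝ) * (‖f x‖ ^ (2 * n + 2))⁻¹) •
      pull (fderiv ℝ f x) (iprod (f x) (o (f x))) := by
  have h1 : ∀ᶠ y in 𝓝 x, f y ≠ 0 := hf.continuousAt.eventually (isOpen_ne.mem_nhds hx)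
  have h2 : (fun y => Pi (f y)) =ᶠ[𝓝 x] fun _ => Pi (f x) := by
    filter_upwards [h1, hP] with y hy1 hy2 using h.sp.rel _ _ hx hy1 hy2
  have h3 : fderiv ℝ (fun y => Pi (f y)) x = 0 := by
    rw [h2.fderiv_eq, fderiv_const_apply]
  have hn : DifferentiableAt ℝ (fun y => ‖f y‖⁻¹) x :=
    (hf.norm ℝ hx).inv (norm_ne_zero_iff.2 hx)
  have h4 : fderiv ℝ (fun y => rad (f y)) x = ‖f x‖⁻¹ • fderiv ℝ f x +
      (fderiv ℝ (fun y => ‖f y‖⁻¹) x).smulRight (f x) :=
    (hn.hasFDerivAt.smul hf.hasFDerivAt).fderiv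
  obtain ⟨e, -, -, he⟩ := h.or.frame _ hx
  rw [h.pb_psi a hf hx, h3, psD, PsE_zero, h4, ThE_add, ThE_smul, ThE_smulRight, rad, XE_smul,
    smul_mul_assoc, XE_mul_pow, smul_pow, mul_smul_comm]
  have h5 : (XE (f x) : Lam (V × E)) * ThE (fderiv ℝ f x) ^ (2 * n + 1) =
      ph (fderiv ℝ f x) (XE (f x) * Th1 E ^ (2 * n + 1)) := by
    rw [map_mul, map_pow, ph_XE, Th1, ph_ThE, ContinuousLinearMap.id_comp]
  rw [h5, map_smul, map_smul, map_smul, map_smul, map_smul, map_smul, ct_ph, res_ph, he,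
    res_ct_Th1, map_smul, smul_smul, smul_smul, smul_smul]
  congr 1
  have h6 : (‖f x‖ ^ (2 * n + 2))⁻¹ = ‖f x‖⁻¹ * ‖f x‖⁻¹ ^ (2 * n + 1) := by
    rw [← pow_succ', inv_pow]
  rw [h6]
  ring

end OS

end Vale.Agent.P231.FE
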