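import Vale.Agent.P231.WR.Two
import Vale.Agent.P231.FE.F
import Vale.Agent.P231.FE.Fibre

/-!
# P231, block S2-F (11): the primitive `B₀` on the unit sphere of `T_p M` is the angular form

General multiplicity (adapted from `WR.Two`).
-/

set_option maxSynthPendingDepth 3
set_option linter.unusedSectionVars false
set_option linter.unusedVariables false

open Bundle Manifold Set Filter Module Topology
open scoped ContDiff Manifold Topology

namespace Vale.Agent.P231.FE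

noncomputable section

open Vale.Agent.P234 Vale.Agent.P231 Vale.Agent.P231.Fm Vale.Agent.P231.W Vale.Agent.P231.WE

/-! ### polar coordinates in a vector space -/

namespace OS

variable {V : Type*} [NormedAddCommGroup V] [InnerProductSpace ℝ V] [FiniteDimensional ℝ V]
  {n : ℕ} {a : ℝ} {Pi : V → V →L[ℝ] V} {o : V → Lam V}
  {X : Type} [NormedAddCommGroup X] [NormedSpace ℝ X] [FiniteDimensional ℝ X]

/-- the angular form in polar coordinates does not see the radius -/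
theorem pb_psi_polar (h : OS n Pi o) (a : ℝ) {u : X → V} {x : X} {r : ℝ}
    (hu : DifferentiableAt ℝ u x) (hr : 0 < r) (hn : u x ≠ 0) :
    Fm.pb (fun q : X × ℝ => q.2 • u q.1) (psi n a Pi o) (x, r) =
      Fm.pull (ContinuousLinearMap.fst ℝ X ℝ) (Fm.pb u (psi n a Pi o) x) := by
  have h1 : HasFDerivAt (fun q : X × ℝ => u q.1)
      ((fderiv ℝ u x).comp (ContinuousLinearMap.fst ℝ X ℝ)) (x, r) :=
    HasFDerivAt.comp (x, r) (g := u) hu.hasFDerivAt hasFDerivAt_fst
  rw [h.pb_smul a (f := fun q : X × ℝ => u q.1) (r := fun q : X × ℝ => q.2)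
    h1.differentiableAt differentiableAt_snd hn hr]
  unfold Fm.pb
  rw [h1.fderiv, pull_comp_apply]

/-- the cut-off curvature in polar coordinates, contracted with the radial direction -/
theorem at1_GG (h : OS n Pi o) (a : ℝ) {ρ : V → ℝ} (hρ : ContDiff ℝ ∞ ρ)
    (h0 : ∀ᶠ v in 𝓝 0, ρ v = 0)
    {u : X → V} {x : X} {r : ℝ} (hu : Sm u x) (hr : 0 < r) (hux : u x ≠ 0) :
    at1 (Fm.pb (fun q : X × ℝ => q.2 • u q.1) (GG (psi n a Pi o) ρ) (x, r)) =
      (deriv (fun t : ℝ => ρ (t • u x)) r) • Fm.pb u (psi n a Pi o) x := by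
  have hw : Sm (fun q : X × ℝ => q.2 • u q.1) (x, r) := by
    have h1 : Sm (fun q : X × ℝ => u q.1) (x, r) :=
      Sm.comp (f := u) (g := Prod.fst) (x := ((x, r) : X × ℝ)) hu (Sm.of_contDiff contDiff_fst _)
    filter_upwards [h1] with q hq
    exact contDiff_snd.contDiffAt.smul hq
  have hn : ∀ᶠ y in 𝓝 x, u y ≠ 0 :=
    hu.contDiffAt.continuousAt.eventually (isOpen_ne.mem_nhds hux)
  have hc := h.cut_contDiff a hρ h0
  have h1 : Fm.pb (fun q : X × ℝ => q.2 • u q.1) (GG (psi n a Pi o) ρ) (x, r) =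
      extd (Fm.pb (fun q : X × ℝ => q.2 • u q.1) (fun v => ρ v • psi n a Pi o v)) (x, r) :=
    (extd_pb (hw.contDiffAt.of_le Fm.two_le_infty) ((hc.differentiable (by simp)) _)).symm
  have hev1 : ∀ᶠ q in 𝓝 ((x, r) : X × ℝ), u q.1 ≠ 0 ∧ Sm u q.1 ∧ 0 < q.2 := by
    have k1 : ∀ᶠ q in 𝓝 ((x, r) : X × ℝ), u q.1 ≠ 0 :=
      (continuous_fst.tendsto ((x, r) : X × ℝ)).eventually hn
    have k2 : ∀ᶠ q in 𝓝 ((x, r) : X × ℝ), Sm u q.1 :=
      (continuous_fst.tendsto _).eventually hu.eventually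
    have k3 : ∀ᶠ q in 𝓝 ((x, r) : X × ℝ), 0 < q.2 :=
      (continuous_snd.tendsto ((x, r) : X × ℝ)).eventually (lt_mem_nhds hr)
    filter_upwards [k1, k2, k3] with q a b c using ⟨a, b, c⟩
  have h2 : (Fm.pb (fun q : X × ℝ => q.2 • u q.1) (fun v => ρ v • psi n a Pi o v)) =ᶠ[𝓝 (x, r)]
      fun q => (fun q : X × ℝ => ρ (q.2 • u q.1)) q •
        Fm.pb (Prod.fst : X × ℝ → X) (Fm.pb u (psi n a Pi o)) q := by
    filter_upwards [hev1] with q hq
    obtain ⟨a', b, c⟩ := hq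
    have h3 := h.pb_psi_polar a (x := q.1) (r := q.2) b.differentiableAt c a'
    unfold Fm.pb at h3 ⊢
    rw [map_smul, fderiv_fst]
    simp only [Prod.mk.eta] at h3
    rw [h3]
  have hf : DifferentiableAt ℝ (fun q : X × ℝ => ρ (q.2 • u q.1)) (x, r) :=
    (hρ.differentiable (by simp)).differentiableAt.comp _ hw.differentiableAt
  have hps : ContDiffAt ℝ ∞ (Fm.pb u (psi n a Pi o)) x :=
    contDiffAt_pb (n := ∞) hu.contDiffAt (h.psi_smooth a hux) (by simp)
  have hg : DifferentiableAt ℝ (Fm.pb (Prod.fst : X × ℝ → X) (Fm.pb u (psi n a Pi o))) (x, r) :=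
    (contDiffAt_pb (m := ∞) (n := ∞) (f := (Prod.fst : X × ℝ → X)) (x := (x, r))
      contDiff_fst.contDiffAt hps (by simp)).differentiableAt (by simp)
  have h5 : extd (Fm.pb (Prod.fst : X × ℝ → X) (Fm.pb u (psi n a Pi o))) (x, r) =
      Fm.pull (ContinuousLinearMap.fst ℝ X ℝ) (extd (Fm.pb u (psi n a Pi o)) x) := by
    rw [extd_pb (f := (Prod.fst : X × ℝ → X)) (x := (x, r)) contDiff_fst.contDiffAt
      (hps.differentiableAt (by simp))]
    unfold Fm.pb
    rw [fderiv_fst]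
  have h6 : at1 (Fm.pull (ContinuousLinearMap.fst ℝ X ℝ) (extd (Fm.pb u (psi n a Pi o)) x)) =
      0 := by
    have h1 := Form.at1_fst_mul (extd (Fm.pb u (psi n a Pi o)) x) (1 : Lam (X × ℝ))
    rw [mul_one] at h1
    rw [h1, at1_apply, iprod_one, map_zero, mul_zero]
  have h7 : Fm.pb (Prod.fst : X × ℝ → X) (Fm.pb u (psi n a Pi o)) (x, r) =
      Fm.pull (ContinuousLinearMap.fst ℝ X ℝ) (Fm.pb u (psi n a Pi o) x) := by
    change Fm.pull (fderiv ℝ (Prod.fst : X × ℝ → X) (x, r)) _ = _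
    rw [fderiv_fst]
  rw [h1, extd_congr h2, extd_smul hf hg, map_add, h5, map_smul, h6, smul_zero, add_zero, h7,
    WR.at1_dx_mul_fst]
  congr 1
  have h8 : HasDerivAt (fun t : ℝ => ((x, t) : X × ℝ)) (0, 1) r :=
    (hasDerivAt_const r x).prodMk (hasDerivAt_id r)
  have h9 := hf.hasFDerivAt.comp_hasDerivAt r h8
  exact h9.deriv.symm

end OS

/-! ### the primitive on the unit sphere -/

variable {E : Type*} [NormedAddCommGroup E] [NormedSpace ℝ E]
  {M : Type*} [MetricSpace M] [ChartedSpace E M]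
  [RiemannianBundle (fun x : M => TangentSpace 𝓘(ℝ, E) x)]
  {e : ∀ x : M, TangentSpace 𝓘(ℝ, E) x → M}
  [FiniteDimensional ℝ E] [IsManifold 𝓘(ℝ, E) ∞ M]
  [IsContMDiffRiemannianBundle 𝓘(ℝ, E) ∞ E (fun x : M => TangentSpace 𝓘(ℝ, E) x)]
  [CompactSpace M] [ConnectedSpace M] [IsRiemannianManifold 𝓘(ℝ, E) M]

variable {D : ℝ} {p : M} {n : ℕ}
  {Pi : TangentSpace 𝓘(ℝ, E) p → TangentSpace 𝓘(ℝ, E) p →L[ℝ] TangentSpace 𝓘(ℝ, E) p}
  {o : TangentSpace 𝓘(ℝ, E) p → Fm.Lam (TangentSpace 𝓘(ℝ, E) p)}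
  {ρ : TangentSpace 𝓘(ℝ, E) p → ℝ} {r₀ : ℝ}

/-- **The primitive on the unit sphere of `T_p M` is the angular form.** -/
theorem B0_sphere (F : Facts e) (hD : 0 < D) (hB : InjGE e D)
    (hdiam : ∀ p q : M, dist p q ≤ D)
    (hl : ∀ x y : M, dist x y = D → finrank ℝ (H775.Pl e D x y) = 2 * n + 2)
    (hJ : LineP e D p n Pi o) (hρ : Rho e D p ρ r₀) (a : ℝ)
    {X : Type} [NormedAddCommGroup X] [NormedSpace ℝ X]
    [FiniteDimensional ℝ X] {u : X → TangentSpace 𝓘(ℝ, E) p} {U : X → UT E M} {x : X}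
    (hu : Sm u x) (hU : ∀ᶠ y in 𝓝 x, foot (U y) = p ∧ (vec' (U y) : E) = u y) :
    (KT D (Form.pull (gm e) (map_gm F) (FF F hD hB hdiam hl hJ hρ a))).val U x =
      Fm.pb u (psi n a Pi o) x := by
  have hUx : (dUT E M).At U x := WR.at_sphere hu hU
  have hn : ∀ᶠ y in 𝓝 x, ‖u y‖ = 1 := by
    filter_upwards [hU] with y hy
    have h1 := nm_vec' (U y)
    rw [hy.1, hy.2] at h1
    exact h1
  rw [H584.KT_val _ _ hUx]
  have hux : ‖u x‖ = 1 := hn.self_of_nhds
  have hux0 : u x ≠ 0 := ne_zero_of_unit hux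
  set g : ℝ → ℝ := fun t => ρ (t • u x) with hg
  have hgd : ContDiff ℝ ∞ g := hρ.smooth.comp (contDiff_id.smul contDiff_const)
  have key : ∀ r ∈ Set.Ioo (0 : ℝ) D, H584.co (Form.pull (gm e) (map_gm F)
      (FF F hD hB hdiam hl hJ hρ a)) U x r = (deriv g r) • Fm.pb u (psi n a Pi o) x := by
    intro r hr
    rw [H584.co, Form.pull_val (map_gm F) _ (Form.cyl_at hUx r)]
    have hw : Sm (fun q : X × ℝ => q.2 • u q.1) (x, r) := by
      have h1 : Sm (fun q : X × ℝ => u q.1) (x, r) :=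
        Sm.comp (f := u) (g := Prod.fst) (x := ((x, r) : X × ℝ)) hu
          (Sm.of_contDiff contDiff_fst _)
      filter_upwards [h1] with q hq
      exact contDiff_snd.contDiffAt.smul hq
    have h2 : (gm e ∘ Form.cyl U) =ᶠ[𝓝 (x, r)] fun q : X × ℝ => e p (q.2 • u q.1) := by
      have h3 : ∀ᶠ q in 𝓝 ((x, r) : X × ℝ), foot (U q.1) = p ∧ (vec' (U q.1) : E) = u q.1 :=
        (continuous_fst.tendsto ((x, r) : X × ℝ)).eventually hU
      filter_upwards [h3] with q hq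
      change e (foot (U q.1)) (q.2 • vec' (U q.1) : E) = _
      have key : ∀ (y : M) (a : E), y = p → a = u q.1 →
          e y (q.2 • a : E) = e p (q.2 • u q.1) := by
        rintro y a rfl rfl
        rfl
      exact key _ _ hq.1 hq.2
    have h4 : (dM E M).At (gm e ∘ Form.cyl U) (x, r) := map_gm F (Form.cyl_at hUx r)
    rw [Form.congr _ h4 h2, FF_exp F hD hB hdiam hl hJ hρ a hw (by
      rw [norm_smul, hux, mul_one, Real.norm_of_nonneg hr.1.le]
      exact hr.2)]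
    exact hJ.os.at1_GG a hρ.smooth hρ.zero hu hr.1 hux0
  have h5 : ∫ r in (0 : ℝ)..D, H584.co (Form.pull (gm e) (map_gm F)
      (FF F hD hB hdiam hl hJ hρ a)) U x r =
      ∫ r in (0 : ℝ)..D, (deriv g r) • Fm.pb u (psi n a Pi o) x := by
    refine intervalIntegral.integral_congr_ae ?_
    have h6 : ∀ᵐ r : ℝ ∂MeasureTheory.volume, r ≠ D := by
      simp [MeasureTheory.ae_iff, MeasureTheory.measure_singleton]
    filter_upwards [h6] with r hr1 hr2
    rw [uIoc_of_le hD.le] at hr2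
    exact key r ⟨hr2.1, lt_of_le_of_ne hr2.2 hr1⟩
  rw [h5, intervalIntegral.integral_smul_const, intervalIntegral.integral_deriv_eq_sub
    (fun r _ => (hgd.differentiable (by simp)) r)
    ((hgd.continuous_deriv (by simp)).intervalIntegrable _ _)]
  have h7 : g D = 1 := by
    refine hρ.one _ ?_
    rw [norm_smul, hux, mul_one, Real.norm_of_nonneg hD.le]
    exact hρ.lt
  have h8 : g 0 = 0 := by
    change ρ ((0 : ℝ) • u x) = 0
    rw [zero_smul]
    exact hρ.zero.self_of_nhds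
  rw [h7, h8, sub_zero, one_smul]

/-- **The primitive on plots of unit vectors in one plane is the solid angle form.** -/
theorem B0_fibre (F : Facts e) (hD : 0 < D) (hB : InjGE e D)
    (hdiam : ∀ p q : M, dist p q ≤ D)
    (hl : ∀ x y : M, dist x y = D → finrank ℝ (H775.Pl e D x y) = 2 * n + 2)
    (hJ : LineP e D p n Pi o) (hρ : Rho e D p ρ r₀) (a : ℝ)
    {X : Type} [NormedAddCommGroup X] [NormedSpace ℝ X]
    [FiniteDimensional ℝ X] {u : X → TangentSpace 𝓘(ℝ, E) p} {U : X → UT E M} {x : X}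
    (hu : Sm u x) (hU : ∀ᶠ y in 𝓝 x, foot (U y) = p ∧ (vec' (U y) : E) = u y)
    (hP : ∀ᶠ y in 𝓝 x, Pi (u x) (u y) = u y) :
    (KT D (Form.pull (gm e) (map_gm F) (FF F hD hB hdiam hl hJ hρ a))).val U x =
      (a * ((2 * n + 1).factorial : ℝ)) • Fm.pull (fderiv ℝ u x)
        (iprod (u x) (o (u x))) := by
  have hn : ‖u x‖ = 1 := by
    have h1 := nm_vec' (U x)
    rw [hU.self_of_nhds.1, hU.self_of_nhds.2] at h1
    exact h1
  rw [B0_sphere F hD hB hdiam hl hJ hρ a hu hU,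
    hJ.os.psi_fibre a hu.differentiableAt (ne_zero_of_unit hn) hP, hn, one_pow, inv_one, mul_one]

end

end Vale.Agent.P231.FE
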