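import Vale.Agent.P231.FE.Orn
import Vale.Agent.P231.S2I.Lift

/-!
# P231, block S2-F (F2): a smooth spread of `m`-planes of `E`, `dim E ≥ 3`, is orientable

The orientation of one plane is transported along segments, by chains of projections, to the two
caps `⟪u, ±e⟫ > -‖u‖ / 2`; the overlap of the caps is connected, and so are the leaves.
-/

set_option linter.unusedSectionVars false

open Module Filter Topology Set Metric
open scoped ContDiff

namespace Vale.Agent.P231.FE

open Vale.Agent.P231.Fm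
open Vale.Agent.P231.S2I (pt inner_rad norm_seg isPreconnected_overlap)

variable {E : Type*} [NormedAddCommGroup E] [InnerProductSpace ℝ E] [FiniteDimensional ℝ E]
variable {m : ℕ} {Pi : E → E →L[ℝ] E}

/-! ### signs -/

/-- two continuous families which agree up to sign, over a connected set -/
theorem pm_const {X F : Type*} [TopologicalSpace X] [NormedAddCommGroup F] [NormedSpace ℝ F]
    {S : Set X} (hS : IsPreconnected S) {f g : X → F} (hf : ContinuousOn f S)
    (hg : ContinuousOn g S) (h : ∀ x ∈ S, f x = g x ∨ f x = -g x) (h0 : ∀ x ∈ S, g x ≠ 0) :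
    (∀ x ∈ S, f x = g x) ∨ ∀ x ∈ S, f x = -g x := by
  by_contra hcon
  rw [not_or] at hcon
  push Not at hcon
  obtain ⟨⟨x, hx, hx1⟩, y, hy, hy1⟩ := hcon
  have hx2 : f x = -g x := (h x hx).resolve_left hx1
  have hy2 : f y = g y := (h y hy).resolve_right hy1
  have hc : ContinuousOn (fun z => ‖f z - g z‖ - ‖f z + g z‖) S :=
    (hf.sub hg).norm.sub (hf.add hg).norm
  have hpos : ∀ z ∈ S, 0 < ‖g z + g z‖ := fun z hz => by
    rw [norm_pos_iff, ← two_smul ℝ]
    exact smul_ne_zero two_ne_zero (h0 z hz)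
  have fx : 0 < ‖f x - g x‖ - ‖f x + g x‖ := by
    rw [hx2, neg_add_cancel, norm_zero, sub_zero, ← neg_add', norm_neg]
    exact hpos x hx
  have fy : ‖f y - g y‖ - ‖f y + g y‖ < 0 := by
    rw [hy2, sub_self, norm_zero, zero_sub, neg_lt_zero]
    exact hpos y hy
  obtain ⟨z, hz, hz0⟩ := hS.intermediate_value hy hx hc ⟨fy.le, fx.le⟩
  simp only at hz0
  rcases h z hz with h2 | h2
  · rw [h2, sub_self, norm_zero, zero_sub, neg_eq_zero] at hz0
    exact (hpos z hz).ne' hz0
  · rw [h2, neg_add_cancel, norm_zero, sub_zero, ← neg_add', norm_neg] at hz0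
    exact (hpos z hz).ne' hz0

/-! ### normalised covectors -/

/-- the Gram determinant -/
noncomputable def grm {m : ℕ} (f : Fin m → E) : ℝ :=
  (Matrix.of fun a b => (inner ℝ (f a) (f b) : ℝ)).det

/-- the normalised covector of a frame -/
noncomputable def nw {m : ℕ} (f : Fin m → E) : Lam E := (√(grm f))⁻¹ • wdg f

theorem sum_of_P {P : Submodule ℝ E} (hP : finrank ℝ P = m) {g : Fin m → E}
    (hg : Orthonormal ℝ g) (hgP : ∀ a, g a ∈ P) {w : E} (hw : w ∈ P) :
    ∑ b, (inner ℝ (g b) w : ℝ) • g b = w :=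
  sum_of_mem_span hg (by rw [span_eq hP hg hgP]; exact hw)

/-- the normalised covector of a basis of `P` is the covector of an orthonormal basis, up to
sign -/
theorem nw_eq {P : Submodule ℝ E} (hP : finrank ℝ P = m) {f g : Fin m → E}
    (hg : Orthonormal ℝ g) (hgP : ∀ a, g a ∈ P) (hf : LinearIndependent ℝ f)
    (hfP : ∀ a, f a ∈ P) : 0 < grm f ∧ (nw f = wdg g ∨ nw f = -wdg g) := by
  let A : Matrix (Fin m) (Fin m) ℝ := fun a b => inner ℝ (g b) (f a)
  have h1 : f = fun a => ∑ b, A a b • g b := funext fun a => (sum_of_P hP hg hgP (hfP a)).symm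
  have h2 : A * A.transpose = Matrix.of fun a b => (inner ℝ (f a) (f b) : ℝ) := by
    ext a c
    rw [Matrix.mul_apply, Matrix.of_apply]
    conv_rhs => rw [← sum_of_P hP hg hgP (hfP c), inner_sum]
    refine Finset.sum_congr rfl fun b _ => ?_
    rw [Matrix.transpose_apply, inner_smul_right, real_inner_comm (g b) (f a)]
    exact mul_comm _ _
  have h3 : A.det ≠ 0 := by
    intro h0
    obtain ⟨v, hv, hvA⟩ := Matrix.exists_vecMul_eq_zero_iff.2 h0
    apply hv
    funext a
    refine Fintype.linearIndependent_iff.1 hf v ?_ a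
    rw [h1]
    simp only [Finset.smul_sum, smul_smul]
    rw [Finset.sum_comm]
    refine Finset.sum_eq_zero fun b _ => ?_
    rw [← Finset.sum_smul]
    have h4 : ∑ a, v a * A a b = 0 := congrFun hvA b
    rw [h4, zero_smul]
  have h4 : grm f = A.det * A.det := by
    rw [grm, ← h2, Matrix.det_mul, Matrix.det_transpose]
  have h5 : wdg f = A.det • wdg g := by
    conv_lhs => rw [h1]
    exact wdg_matrix g A
  have h6 : √(grm f) = |A.det| := by rw [h4, Real.sqrt_mul_self_eq_abs]
  refine ⟨by rw [h4]; exact mul_self_pos.2 h3, ?_⟩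
  rw [nw, h5, h6, smul_smul]
  rcases lt_or_gt_of_ne h3 with h7 | h7
  · right
    rw [abs_of_neg h7, inv_neg, neg_mul, inv_mul_cancel₀ h3, neg_one_smul]
  · left
    rw [abs_of_pos h7, inv_mul_cancel₀ h3, one_smul]

/-- changing the sign of a covector -/
theorem exists_neg_frame {P : Submodule ℝ E} (hm : 2 ≤ m) (hP : finrank ℝ P = m) {g : Fin m → E}
    (hg : Orthonormal ℝ g) (hgP : ∀ a, g a ∈ P) {o : Lam E} (ho : o = wdg g ∨ o = -wdg g) :
    ∃ e : Fin m → E, Orthonormal ℝ e ∧ (∀ a, e a ∈ P) ∧ o = wdg e := by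
  rcases ho with ho | ho
  · exact ⟨g, hg, hgP, ho⟩
  · have i0 : Fin m := ⟨0, by omega⟩
    refine ⟨Function.update g i0 (-g i0), ?_, ?_, ?_⟩
    · rw [orthonormal_iff_ite] at hg ⊢
      intro i j
      by_cases hi : i = i0
      · subst hi
        by_cases hj : j = i
        · subst hj
          rw [Function.update_self, inner_neg_neg]
          exact hg _ _
        · rw [Function.update_self, Function.update_of_ne hj, inner_neg_left, hg,
            if_neg (Ne.symm hj), neg_zero]
      · by_cases hj : j = i0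
        · subst hj
          rw [Function.update_self, Function.update_of_ne hi, inner_neg_right, hg,
            if_neg hi, neg_zero]
        · rw [Function.update_of_ne hi, Function.update_of_ne hj]
          exact hg i j
    · intro a
      by_cases ha : a = i0
      · subst ha
        rw [Function.update_self]
        exact P.neg_mem (hgP _)
      · rw [Function.update_of_ne ha]
        exact hgP a
    · rw [← wdgA_apply, AlternatingMap.map_update_neg, Function.update_eq_self, wdgA_apply, ho]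

/-! ### transport to a cap -/

/-- the chain of projections along the segment from `e` to `rad u` -/
noncomputable def tc (Pi : E → E →L[ℝ] E) (e : E) (N : ℕ) : ℕ → E → E →L[ℝ] E
  | 0, _ => ContinuousLinearMap.id ℝ E
  | k + 1, u => Pi (pt e N (k + 1) u) ∘L tc Pi e N k u

theorem Spread.mem_range (h : Spread m Pi) {u w : E} (hu : u ≠ 0) :
    w ∈ LinearMap.range (Pi u : E →ₗ[ℝ] E) ↔ Pi u w = w := by
  constructor
  · rintro ⟨v, rfl⟩
    exact h.idem u hu v
  · intro hw
    exact ⟨w, hw⟩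

theorem contDiffAt_wdg {m : ℕ} {f : Fin m → E → E} {x : E} (hf : ∀ a, ContDiffAt ℝ ∞ (f a) x) :
    ContDiffAt ℝ ∞ (fun y => wdg fun a => f a y) x := by
  induction m with
  | zero =>
    have : (fun y => wdg fun a => f a y) = fun _ => (1 : Lam E) := by
      funext y
      simp [wdg]
    rw [this]
    exact contDiffAt_const
  | succ m ih =>
    have : (fun y => wdg fun a => f a y) = fun y => dx (innerSL ℝ (f 0 y)) *
        wdg (fun a => f a.succ y) := by
      funext y
      rw [wdg_succ]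
    rw [this]
    have h1 : ContDiffAt ℝ ∞ (fun y => dx (innerSL ℝ (f 0 y))) x :=
      (dx (E := E)).contDiff.contDiffAt.comp x
        ((innerSL ℝ (E := E)).contDiff.contDiffAt.comp x (hf 0))
    exact h1.mul (ih fun a => hf a.succ)

theorem contDiffAt_grm {m : ℕ} {f : Fin m → E → E} {x : E} (hf : ∀ a, ContDiffAt ℝ ∞ (f a) x) :
    ContDiffAt ℝ ∞ (fun y => grm fun a => f a y) x := by
  have h1 : (fun y => grm fun a => f a y) = fun y => ∑ σ : Equiv.Perm (Fin m),
      ((Equiv.Perm.sign σ : ℤ) : ℝ) * ∏ i, (inner ℝ (f (σ i) y) (f i y) : ℝ) := by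
    funext y
    rw [grm, Matrix.det_apply']
    rfl
  rw [h1]
  refine ContDiffAt.sum fun σ _ => contDiffAt_const.mul ?_
  exact contDiffAt_prod fun i _ => (hf _).inner ℝ (hf _)

/-- **the orientation over a cap** -/
theorem exists_cap (h : Spread m Pi) (hm : 2 ≤ m) {e : E} (he : ‖e‖ = 1) :
    ∃ o : E → Lam E, ∀ u ≠ 0, -(‖u‖ / 2) < inner ℝ u e → ContDiffAt ℝ ∞ o u ∧
      ∃ g : Fin m → E, Orthonormal ℝ g ∧ (∀ a, Pi u (g a) = g a) ∧ o u = wdg g := by
  have he0 : e ≠ 0 := fun h0 => by rw [h0, norm_zero] at he; exact zero_ne_one he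
  set A : Set E := closedBall (0 : E) 1 \ ball (0 : E) (1 / 2) with hA
  have hAc : IsCompact A := (isCompact_closedBall (0 : E) 1).diff isOpen_ball
  have hA0 : ∀ x ∈ A, x ≠ 0 := fun x hx h0 => hx.2 (by rw [h0]; simp)
  have huc : UniformContinuousOn Pi A :=
    hAc.uniformContinuousOn_of_continuous fun x hx =>
      (h.smooth x (hA0 x hx)).continuousAt.continuousWithinAt
  obtain ⟨δ, hδ, hδ'⟩ := Metric.uniformContinuousOn_iff.1 huc 1 one_pos
  obtain ⟨n, hn⟩ := exists_nat_gt (2 / δ)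
  have hn0 : (0 : ℝ) < n := (div_pos two_pos hδ).trans hn
  have hn1 : 2 / (n : ℝ) < δ := by
    rw [div_lt_iff₀ hn0]
    rw [div_lt_iff₀ hδ] at hn
    linarith
  have hrn : ∀ x : E, x ≠ 0 → ‖rad x‖ = 1 := fun x hx => S2I.norm_rad hx
  have hpt : ∀ k ≤ n, ∀ x ≠ 0, -(‖x‖ / 2) < inner ℝ x e → pt e n k x ∈ A := fun k hk x hx hxe =>
    norm_seg he (hrn x hx) (inner_rad e hxe hx)
      ⟨by positivity, by rw [div_le_one hn0]; exact_mod_cast hk⟩
  have hptc : ∀ k, ∀ x ≠ 0, ContDiffAt ℝ ∞ (pt e n k) x := fun k x hx =>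
    contDiffAt_const.add (contDiffAt_const.smul (S2I.contDiffAt_rad hx))
  have hstep : ∀ k < n, ∀ x ≠ 0, -(‖x‖ / 2) < inner ℝ x e →
      ‖Pi (pt e n (k + 1) x) - Pi (pt e n k x)‖ < 1 := by
    intro k hk x hx hxe
    have m1 := hpt (k + 1) hk x hx hxe
    have m0 := hpt k hk.le x hx hxe
    rw [← dist_eq_norm]
    refine hδ' _ m1 _ m0 ?_
    have h1 : pt e n (k + 1) x - pt e n k x = (1 / (n : ℝ)) • (rad x - e) := by
      simp only [pt]
      push_cast
      rw [add_div]
      module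
    rw [dist_eq_norm, h1, norm_smul, Real.norm_eq_abs, abs_of_pos (by positivity)]
    have h2 : ‖rad x - e‖ ≤ 2 := by
      refine (norm_sub_le _ _).trans ?_
      rw [hrn x hx, he]
      norm_num
    calc 1 / (n : ℝ) * ‖rad x - e‖ ≤ 1 / (n : ℝ) * 2 := by gcongr
      _ = 2 / n := by ring
      _ < δ := hn1
  -- smoothness of the chain
  have hsm : ∀ k ≤ n, ∀ x ≠ 0, -(‖x‖ / 2) < inner ℝ x e → ContDiffAt ℝ ∞ (tc Pi e n k) x := by
    intro k
    induction k with
    | zero => intro _ x _ _; exact contDiffAt_const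
    | succ k ih =>
      intro hk x hx hxe
      have m1 := hpt (k + 1) hk x hx hxe
      exact ((h.smooth _ (hA0 _ m1)).comp x (hptc (k + 1) x hx)).clm_comp
        (ih (Nat.le_of_succ_le hk) x hx hxe)
  -- the chain maps the leaf of `e` injectively
  have hinj : ∀ k ≤ n, ∀ x ≠ 0, -(‖x‖ / 2) < inner ℝ x e → ∀ v, Pi e v = v →
      Pi (pt e n k x) (tc Pi e n k x v) = tc Pi e n k x v ∧ (tc Pi e n k x v = 0 → v = 0) := by
    intro k
    induction k with
    | zero =>
      intro _ x _ _ v hv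
      have : pt e n 0 x = e := by simp [pt]
      rw [this]
      exact ⟨hv, fun h0 => h0⟩
    | succ k ih =>
      intro hk x hx hxe v hv
      obtain ⟨i1, i2⟩ := ih (Nat.le_of_succ_le hk) x hx hxe v hv
      have m1 := hpt (k + 1) hk x hx hxe
      refine ⟨h.idem _ (hA0 _ m1) _, fun h0 => ?_⟩
      have h0' : Pi (pt e n (k + 1) x) (tc Pi e n k x v) = 0 := h0
      apply i2
      by_contra hne
      have h1 := ContinuousLinearMap.le_opNorm (Pi (pt e n (k + 1) x) - Pi (pt e n k x))
        (tc Pi e n k x v)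
      rw [sub_apply, h0', i1, zero_sub, norm_neg] at h1
      have h2 := hstep k hk x hx hxe
      have h3 : 0 < ‖tc Pi e n k x v‖ := norm_pos_iff.2 hne
      nlinarith
  -- a frame at `e`
  let R := LinearMap.range (Pi e : E →ₗ[ℝ] E)
  have hR : finrank ℝ R = m := h.rank e he0
  let b : OrthonormalBasis (Fin m) ℝ R := (stdOrthonormalBasis ℝ R).reindex (finCongr hR)
  let g : Fin m → E := fun a => b a
  have hg : Orthonormal ℝ g := b.orthonormal.comp_linearIsometry R.subtypeₗᵢ
  have hgP : ∀ a, Pi e (g a) = g a := fun a => (Spread.mem_range h he0).1 (b a).2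
  let f : Fin m → E → E := fun a u => tc Pi e n n u (g a)
  refine ⟨fun u => nw fun a => f a u, fun u hu hue => ?_⟩
  have hfs : ∀ a, ContDiffAt ℝ ∞ (f a) u := fun a =>
    (hsm n le_rfl u hu hue).clm_apply contDiffAt_const
  have hptn : Pi (pt e n n u) = Pi u := by
    have h1 : pt e n n u = ‖u‖⁻¹ • u := by
      rw [pt, div_self hn0.ne']
      simp [rad]
    rw [h1]
    exact h.hom hu (inv_ne_zero (norm_ne_zero_iff.2 hu))
  have hfP : ∀ a, f a u ∈ LinearMap.range (Pi u : E →ₗ[ℝ] E) := by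
    intro a
    rw [Spread.mem_range h hu, ← hptn]
    exact (hinj n le_rfl u hu hue (g a) (hgP a)).1
  have hli : LinearIndependent ℝ fun a => f a u := by
    rw [Fintype.linearIndependent_iff]
    intro c hc
    have h1 : tc Pi e n n u (∑ a, c a • g a) = 0 := by
      rw [map_sum, ← hc]
      exact Finset.sum_congr rfl fun a _ => map_smul _ _ _
    have h2 : Pi e (∑ a, c a • g a) = ∑ a, c a • g a := by
      rw [map_sum]
      exact Finset.sum_congr rfl fun a _ => by rw [map_smul, hgP]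
    have h3 := (hinj n le_rfl u hu hue _ h2).2 h1
    exact Fintype.linearIndependent_iff.1 hg.linearIndependent c h3
  -- an orthonormal frame at `u`
  let R' := LinearMap.range (Pi u : E →ₗ[ℝ] E)
  have hR' : finrank ℝ R' = m := h.rank u hu
  let b' : OrthonormalBasis (Fin m) ℝ R' := (stdOrthonormalBasis ℝ R').reindex (finCongr hR')
  have hb' : Orthonormal ℝ fun a => (b' a : E) := b'.orthonormal.comp_linearIsometry R'.subtypeₗᵢ
  obtain ⟨k1, k2⟩ := nw_eq hR' hb' (fun a => (b' a).2) hli hfP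
  constructor
  · have h1 : ContDiffAt ℝ ∞ (fun y => (√(grm fun a => f a y))⁻¹) u :=
      ((contDiffAt_grm hfs).sqrt k1.ne').inv (Real.sqrt_pos.2 k1).ne'
    exact h1.smul (contDiffAt_wdg hfs)
  · obtain ⟨g', q1, q2, q3⟩ := exists_neg_frame hm hR' hb' (fun a => (b' a).2) k2
    exact ⟨g', q1, fun a => (Spread.mem_range h hu).1 (q2 a), q3⟩

/-- two oriented frames of the same plane -/
theorem Spread.pm (h : Spread m Pi) {u : E} (hu : u ≠ 0) {e g : Fin m → E}
    (he : Orthonormal ℝ e) (hg : Orthonormal ℝ g) (heP : ∀ a, Pi u (e a) = e a)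
    (hgP : ∀ a, Pi u (g a) = g a) : wdg e = wdg g ∨ wdg e = -wdg g := by
  refine wdg_pm he hg fun a => ?_
  rw [span_eq (h.rank u hu) hg fun a => (Spread.mem_range h hu).2 (hgP a)]
  exact (Spread.mem_range h hu).2 (heP a)

/-- **a smooth spread is orientable** -/
theorem exists_orient (h : Spread m Pi) (hm : 2 ≤ m) (hE : 3 ≤ finrank ℝ E) :
    ∃ o : E → Lam E, Orient m Pi o := by
  have : Nontrivial E := nontrivial_of_finrank_pos (R := ℝ) (by omega)
  obtain ⟨e, he⟩ := exists_norm_eq E (zero_le_one (α := ℝ))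
  obtain ⟨op, hp⟩ := exists_cap h hm he
  obtain ⟨om, hm0⟩ := exists_cap h hm (e := -e) (by rw [norm_neg, he])
  have hm' : ∀ x ≠ 0, inner ℝ x e < ‖x‖ / 2 → ContDiffAt ℝ ∞ om x ∧
      ∃ g : Fin m → E, Orthonormal ℝ g ∧ (∀ a, Pi x (g a) = g a) ∧ om x = wdg g :=
    fun x hx hxe => hm0 x hx (by rw [inner_neg_right]; linarith)
  set O : Set E := {x : E | |inner ℝ x e| < ‖x‖ / 2} with hO
  have hO0 : ∀ x ∈ O, x ≠ 0 := by
    intro x hx h0
    rw [hO, mem_ofPred_eq, h0] at hx
    simp at hx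
  have hOp : ∀ x ∈ O, -(‖x‖ / 2) < inner ℝ x e := fun x hx => (abs_lt.1 hx).1
  have hOm : ∀ x ∈ O, inner ℝ x e < ‖x‖ / 2 := fun x hx => (abs_lt.1 hx).2
  have hor : ∀ x ∈ O, op x = om x ∨ op x = -om x := by
    intro x hx
    obtain ⟨-, g, g1, g2, g3⟩ := hp x (hO0 x hx) (hOp x hx)
    obtain ⟨-, g', g1', g2', g3'⟩ := hm' x (hO0 x hx) (hOm x hx)
    rw [g3, g3']
    exact Spread.pm h (hO0 x hx) g1 g1' g2 g2'
  have hne : ∀ x ∈ O, om x ≠ 0 := by
    intro x hx
    obtain ⟨-, g', g1', -, g3'⟩ := hm' x (hO0 x hx) (hOm x hx)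
    rw [g3']
    exact wdg_ne_zero g1'
  have hsign : ∃ s : ℝ, (s = 1 ∨ s = -1) ∧ ∀ x ∈ O, op x = s • om x := by
    rcases pm_const (isPreconnected_overlap he hE)
      (fun z hz => (hp z (hO0 z hz) (hOp z hz)).1.continuousAt.continuousWithinAt)
      (fun z hz => (hm' z (hO0 z hz) (hOm z hz)).1.continuousAt.continuousWithinAt) hor hne with
      h1 | h1
    · exact ⟨1, Or.inl rfl, fun x hx => by rw [h1 x hx, one_smul]⟩
    · exact ⟨-1, Or.inr rfl, fun x hx => by rw [h1 x hx, neg_one_smul]⟩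
  obtain ⟨s, hs, hsL⟩ := hsign
  have hmf : ∀ x ≠ 0, inner ℝ x e < ‖x‖ / 2 →
      ∃ g : Fin m → E, Orthonormal ℝ g ∧ (∀ a, Pi x (g a) = g a) ∧ s • om x = wdg g := by
    intro x hx hxe
    obtain ⟨-, g, g1, g2, g3⟩ := hm' x hx hxe
    obtain ⟨g', q1, q2, q3⟩ := exists_neg_frame (o := s • om x) hm (h.rank x hx) g1
      (fun a => (Spread.mem_range h hx).2 (g2 a)) (by
        rcases hs with rfl | rfl
        · left; rw [one_smul, g3]
        · right; rw [neg_one_smul, g3])
    exact ⟨g', q1, fun a => (Spread.mem_range h hx).1 (q2 a), q3⟩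
  classical
  let o : E → Lam E := fun x => if -(‖x‖ / 2) < inner ℝ x e then op x else s • om x
  have hopen : IsOpen {x : E | -(‖x‖ / 2) < inner ℝ x e} :=
    isOpen_lt (continuous_norm.div_const 2).neg (by fun_prop)
  have hopen' : IsOpen {x : E | inner ℝ x e < ‖x‖ / 2} :=
    isOpen_lt (by fun_prop) (continuous_norm.div_const 2)
  have hom : ∀ x ≠ 0, inner ℝ x e < ‖x‖ / 2 → o x = s • om x := by
    intro x hx hxe
    by_cases h1 : -(‖x‖ / 2) < inner ℝ x e
    · simp only [o, if_pos h1]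
      exact hsL x (abs_lt.2 ⟨h1, hxe⟩)
    · simp only [o, if_neg h1]
  have hcase : ∀ x : E, x ≠ 0 → ¬ -(‖x‖ / 2) < inner ℝ x e → inner ℝ x e < ‖x‖ / 2 := by
    intro x hx h1
    have := norm_pos_iff.2 hx
    linarith
  have hsmo : ∀ x ≠ 0, ContDiffAt ℝ ∞ o x := by
    intro x hx
    by_cases h1 : -(‖x‖ / 2) < inner ℝ x e
    · refine (hp x hx h1).1.congr_of_eventuallyEq ?_
      filter_upwards [hopen.mem_nhds h1] with y hy
      simp only [o, if_pos hy]
    · refine ((hm' x hx (hcase x hx h1)).1.const_smul s).congr_of_eventuallyEq ?_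
      filter_upwards [hopen'.mem_nhds (hcase x hx h1), isOpen_compl_singleton.mem_nhds hx] with
        y hy hy0
      exact hom y hy0 hy
  have hfr : ∀ x ≠ 0, ∃ g : Fin m → E, Orthonormal ℝ g ∧ (∀ a, Pi x (g a) = g a) ∧
      o x = wdg g := by
    intro x hx
    by_cases h1 : -(‖x‖ / 2) < inner ℝ x e
    · obtain ⟨-, g, g1, g2, g3⟩ := hp x hx h1
      refine ⟨g, g1, g2, ?_⟩
      simp only [o, if_pos h1]
      exact g3
    · rw [hom x hx (hcase x hx h1)]
      exact hmf x hx (hcase x hx h1)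
  refine ⟨o, hsmo, hfr, fun u w hu hw huw => ?_⟩
  -- the leaf of `u` is connected
  let P := LinearMap.range (Pi u : E →ₗ[ℝ] E)
  have hPr : 1 < Module.rank ℝ P := by
    rw [← finrank_eq_rank]
    have : finrank ℝ P = m := h.rank u hu
    rw [this]
    exact_mod_cast (by omega : 1 < m)
  have hS : IsPreconnected ({0}ᶜ : Set P) :=
    (isConnected_compl_singleton_of_one_lt_rank hPr 0).isPreconnected
  have hv0 : ∀ v : P, v ∈ ({0}ᶜ : Set P) → (v : E) ≠ 0 := fun v hv h0 => hv (Subtype.ext h0)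
  have hPiv : ∀ v : P, v ∈ ({0}ᶜ : Set P) → Pi v = Pi u := fun v hv =>
    h.rel u v hu (hv0 v hv) ((Spread.mem_range h hu).1 v.2)
  obtain ⟨g, g1, g2, g3⟩ := hfr u hu
  rcases pm_const hS (f := fun v : P => o v) (g := fun _ => o u)
    (fun v hv => ((hsmo v (hv0 v hv)).continuousAt.comp
      continuous_subtype_val.continuousAt).continuousWithinAt) continuousOn_const
    (fun v hv => by
      obtain ⟨g', g1', g2', g3'⟩ := hfr v (hv0 v hv)
      rw [hPiv v hv] at g2'
      rw [g3', g3]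
      exact Spread.pm h hu g1' g1 g2' g2) (fun v hv => by
      rw [g3]
      exact wdg_ne_zero g1) with h1 | h1
  · exact h1 ⟨w, (Spread.mem_range h hu).2 huw⟩ fun h0 => hw (congrArg Subtype.val h0)
  · have h2 := h1 ⟨u, (Spread.mem_range h hu).2 (h.self u hu)⟩
      fun h0 => hu (congrArg Subtype.val h0)
    have h3 : o u = -o u := h2
    have h4 : (2 : ℝ) • o u = 0 := by
      rw [two_smul]
      nth_rewrite 1 [h3]
      exact neg_add_cancel _
    have h5 : o u = 0 := (smul_eq_zero.1 h4).resolve_left two_ne_zero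
    rw [g3] at h5
    exact absurd h5 (wdg_ne_zero g1)

end Vale.Agent.P231.FE
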