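import Vale.Agent.P231.FE.Spr
import Vale.Agent.P231.FE.Orient
import Vale.Agent.P231.FE.F

/-!
# P231, block S2-F (14): the spread of the directions at a point of a Blaschke manifold
-/

set_option maxSynthPendingDepth 3
set_option linter.unusedSectionVars false

open Bundle Manifold Set Filter Module
open scoped ContDiff Manifold Topology

namespace Vale.Agent.P231.FE

open Vale.Agent.P234 Vale.Agent.P231 Vale.Agent.P231.H775 Vale.Agent.P231.WE

noncomputable section

variable {E : Type*} [NormedAddCommGroup E] [NormedSpace ℝ E] [FiniteDimensional ℝ E]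
  {M : Type*} [MetricSpace M] [ChartedSpace E M] [IsManifold 𝓘(ℝ, E) ∞ M]
  [RiemannianBundle (fun x : M => TangentSpace 𝓘(ℝ, E) x)]
  [IsContMDiffRiemannianBundle 𝓘(ℝ, E) ∞ E (fun x : M => TangentSpace 𝓘(ℝ, E) x)]
  {e : ∀ x : M, TangentSpace 𝓘(ℝ, E) x → M}
  [CompactSpace M] [ConnectedSpace M] [IsRiemannianManifold 𝓘(ℝ, E) M]
  {D : ℝ} {p : M} {n : ℕ}

/-- **the oriented spread of the directions at `p`** -/
theorem exists_line (F : Facts e) (hD : 0 < D) (hB : InjGE e D)
    (hdiam : ∀ p q : M, dist p q ≤ D)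
    (hl : ∀ x y : M, dist x y = D → finrank ℝ (Pl e D x y) = 2 * n + 2)
    (hE : 3 ≤ finrank ℝ E) (p : M) :
    ∃ o : TangentSpace 𝓘(ℝ, E) p → Fm.Lam (TangentSpace 𝓘(ℝ, E) p),
      LineP e D p n (PiP e D p) o := by
  have hs := spread F hD hB hdiam (l := 2 * n + 1) hl p
  obtain ⟨o, ho⟩ := exists_orient hs (by omega) hE
  exact ⟨o, ⟨⟨hs, ho⟩, fun u w hu hw => cut_iff F hD hB hdiam (l := 2 * n + 1) hl hu hw⟩⟩

end

end Vale.Agent.P231.FE
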