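import Vale.Agent.P231.FE.Defs
import Vale.Agent.P231.Fm.Dif

/-!
# P231, block S2-F (5): orientations, local oriented orthonormal frames
-/

set_option linter.unusedSectionVars false

open Module Filter Topology
open scoped ContDiff

namespace Vale.Agent.P231.FE

open Vale.Agent.P231.Fm

variable {V : Type*} [NormedAddCommGroup V] [NormedSpace ℝ V] [FiniteDimensional ℝ V]
variable {E : Type*} [NormedAddCommGroup E] [InnerProductSpace ℝ E] [FiniteDimensional ℝ E]

/-- the linear form of a vector -/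
noncomputable def ill : E →ₗ[ℝ] (E →L[ℝ] ℝ) where
  toFun w := innerSL ℝ w
  map_add' v w := map_add _ _ _
  map_smul' c w := by
    ext z
    simp

/-- `wdg` as an alternating map -/
noncomputable def wdgA (m : ℕ) : E [⋀^Fin m]→ₗ[ℝ] Lam E :=
  (ExteriorAlgebra.ιMulti ℝ m : (E →L[ℝ] ℝ) [⋀^Fin m]→ₗ[ℝ] ExteriorAlgebra ℝ (E →L[ℝ] ℝ)).compLinearMap
    ill

theorem wdgA_apply {m : ℕ} (e : Fin m → E) : wdgA m e = wdg e := by
  have h := ExteriorAlgebra.ιMulti_apply (R := ℝ) (M := E →L[ℝ] ℝ) (n := m) fun a => ill (e a)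
  exact h

theorem wdg_perm {m : ℕ} (g : Fin m → E) (σ : Equiv.Perm (Fin m)) :
    wdg (g ∘ σ) = Equiv.Perm.sign σ • wdg g := by
  rw [← wdgA_apply, ← wdgA_apply, AlternatingMap.map_perm]

theorem wdg_matrix {m : ℕ} (g : Fin m → E) (A : Matrix (Fin m) (Fin m) ℝ) :
    wdg (fun a => ∑ b, A a b • g b) = A.det • wdg g := by
  let L : (Fin m → ℝ) →ₗ[ℝ] E := Fintype.linearCombination ℝ g
  let φ1 : (Fin m → ℝ) [⋀^Fin m]→ₗ[ℝ] Lam E := (wdgA m).compLinearMap L
  let φ2 : (Fin m → ℝ) [⋀^Fin m]→ₗ[ℝ] Lam E :=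
    (LinearMap.toSpanSingleton ℝ (Lam E) (wdg g)).compAlternatingMap Matrix.detRowAlternating
  have h : φ1 = φ2 := by
    refine Basis.ext_alternating (Pi.basisFun ℝ (Fin m)) fun v hv => ?_
    let σ : Equiv.Perm (Fin m) := Equiv.ofBijective v (Finite.injective_iff_bijective.1 hv)
    have h1 : φ1 (fun i => Pi.basisFun ℝ (Fin m) (v i)) = wdg (g ∘ σ) := by
      change wdgA m (fun i => L (Pi.basisFun ℝ (Fin m) (v i))) = _
      rw [wdgA_apply]
      congr 1
      funext i
      simp only [L, Pi.basisFun_apply, Fintype.linearCombination_apply_single, one_smul]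
      rfl
    have h2 : φ2 (fun i => Pi.basisFun ℝ (Fin m) (v i)) =
        (Matrix.detRowAlternating (fun i => Pi.basisFun ℝ (Fin m) (v i)) : ℝ) • wdg g := rfl
    have h3 : (Matrix.detRowAlternating (fun i => Pi.basisFun ℝ (Fin m) (v i)) : ℝ) =
        Equiv.Perm.sign σ • (1 : ℝ) := by
      have h4 : (fun i => Pi.basisFun ℝ (Fin m) (v i)) =
          (fun i => Pi.basisFun ℝ (Fin m) i) ∘ σ := rfl
      rw [h4, AlternatingMap.map_perm]
      congr 1
      change Matrix.det (fun i => Pi.basisFun ℝ (Fin m) i) = 1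
      rw [← Matrix.det_one (n := Fin m) (R := ℝ)]
      congr 1
      funext i j
      simp [Matrix.one_apply, Pi.single_apply, eq_comm]
    rw [h1, h2, h3, wdg_perm]
    rcases Int.units_eq_one_or (Equiv.Perm.sign σ) with hs | hs
    · simp [hs]
    · simp [hs]
  have h5 : φ1 (fun a b => A a b) = φ2 (fun a b => A a b) := by rw [h]
  have h6 : φ1 (fun a b => A a b) = wdg (fun a => ∑ b, A a b • g b) := by
    change wdgA m (fun i => L (fun b => A i b)) = _
    rw [wdgA_apply]
    rfl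
  exact h6.symm.trans h5

/-- a vector in the span of an orthonormal family -/
theorem sum_of_mem_span {m : ℕ} {g : Fin m → E} (hg : Orthonormal ℝ g) {w : E}
    (hw : w ∈ Submodule.span ℝ (Set.range g)) : ∑ b, (inner ℝ (g b) w : ℝ) • g b = w := by
  obtain ⟨c, rfl⟩ := (Submodule.mem_span_range_iff_exists_fun ℝ).1 hw
  refine Finset.sum_congr rfl fun b _ => ?_
  rw [hg.inner_right_fintype]

theorem wdg_pm {m : ℕ} {e g : Fin m → E} (he : Orthonormal ℝ e) (hg : Orthonormal ℝ g)
    (h : ∀ a, e a ∈ Submodule.span ℝ (Set.range g)) : wdg e = wdg g ∨ wdg e = -wdg g := by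
  let A : Matrix (Fin m) (Fin m) ℝ := fun a b => inner ℝ (g b) (e a)
  have h1 : e = fun a => ∑ b, A a b • g b := funext fun a => (sum_of_mem_span hg (h a)).symm
  have h2 : A * A.transpose = 1 := by
    ext a c
    rw [Matrix.mul_apply, Matrix.one_apply, ← orthonormal_iff_ite.1 he a c]
    conv_rhs => rw [← sum_of_mem_span hg (h c), inner_sum]
    refine Finset.sum_congr rfl fun b _ => ?_
    rw [Matrix.transpose_apply, inner_smul_right, real_inner_comm (g b) (e a)]
    exact mul_comm _ _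
  have h3 : A.det * A.det = 1 := by
    have := congrArg Matrix.det h2
    rwa [Matrix.det_mul, Matrix.det_transpose, Matrix.det_one] at this
  have h4 : wdg e = A.det • wdg g := by
    conv_lhs => rw [h1]
    exact wdg_matrix g A
  rcases mul_self_eq_one_iff.1 h3 with h5 | h5
  · left
    rw [h4, h5, one_smul]
  · right
    rw [h4, h5, neg_one_smul]

theorem wdg_succ {m : ℕ} (e : Fin (m + 1) → E) :
    wdg e = dx (innerSL ℝ (e 0)) * wdg (fun a => e a.succ) := by
  rw [wdg, List.ofFn_succ, List.prod_cons, wdg]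

theorem iprod_wdg {m : ℕ} {e : Fin m → E} {w : E} (h : ∀ a, inner ℝ (e a) w = (0 : ℝ)) :
    iprod w (wdg e) = 0 := by
  induction m with
  | zero => simp [wdg]
  | succ m ih =>
    rw [wdg_succ, iprod_dx_mul, ih fun a => h a.succ, mul_zero, sub_zero, innerSL_apply_apply,
      h 0, zero_smul]

theorem wdg_ne_zero {m : ℕ} {e : Fin m → E} (he : Orthonormal ℝ e) : wdg e ≠ 0 := by
  induction m with
  | zero => simp [wdg]
  | succ m ih =>
    intro h
    have h1 := congrArg (iprod (e 0)) h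
    rw [wdg_succ, iprod_dx_mul, map_zero, iprod_wdg, mul_zero, sub_zero, innerSL_apply_apply,
      real_inner_self_eq_norm_sq, he.1, one_pow, one_smul] at h1
    · exact ih (he.comp _ (Fin.succ_injective m)) h1
    · intro a
      exact he.2 (Fin.succ_ne_zero a)

theorem exists_first {P : Submodule ℝ E} {m : ℕ} (hP : finrank ℝ P = m + 1) {w : E}
    (hw : ‖w‖ = 1) (hwP : w ∈ P) :
    ∃ g : Fin (m + 1) → E, Orthonormal ℝ g ∧ (∀ a, g a ∈ P) ∧ g 0 = w := by
  have h1 : Orthonormal ℝ (({0} : Set (Fin (m + 1))).domRestrict fun _ => (⟨w, hwP⟩ : P)) := by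
    refine ⟨fun i => ?_, fun i j hij => ?_⟩
    · exact hw
    · exact absurd (Subsingleton.elim i j) hij
  obtain ⟨b, hb⟩ := Orthonormal.exists_orthonormalBasis_extension_of_card_eq
    (by rw [hP, Fintype.card_fin]) h1
  refine ⟨fun a => b a, ?_, fun a => (b a).2, ?_⟩
  · exact b.orthonormal.comp_linearIsometry P.subtypeₗᵢ
  · change ((b 0 : P) : E) = w
    rw [hb 0 rfl]

theorem span_eq {P : Submodule ℝ E} {m : ℕ} (hP : finrank ℝ P = m) {g : Fin m → E}
    (hg : Orthonormal ℝ g) (hgP : ∀ a, g a ∈ P) : Submodule.span ℝ (Set.range g) = P := by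
  refine Submodule.eq_of_le_of_finrank_eq ?_ ?_
  · rw [Submodule.span_le]
    rintro _ ⟨a, rfl⟩
    exact hgP a
  · rw [finrank_span_eq_card hg.linearIndependent, Fintype.card_fin, hP]

/-- change of basis with prescribed first vector and the same orientation -/
theorem exists_first_or {P : Submodule ℝ E} {m : ℕ} (hP : finrank ℝ P = m + 2) {w : E}
    (hw : ‖w‖ = 1) (hwP : w ∈ P) {g' : Fin (m + 2) → E} (hg' : Orthonormal ℝ g')
    (hg'P : ∀ a, g' a ∈ P) :
    ∃ g : Fin (m + 2) → E, Orthonormal ℝ g ∧ (∀ a, g a ∈ P) ∧ g 0 = w ∧ wdg g = wdg g' := by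
  obtain ⟨g, hg, hgP, hg0⟩ := exists_first hP hw hwP
  have hs : ∀ a, g a ∈ Submodule.span ℝ (Set.range g') := fun a => by
    rw [span_eq hP hg' hg'P]
    exact hgP a
  rcases wdg_pm hg hg' hs with h | h
  · exact ⟨g, hg, hgP, hg0, h⟩
  · have hne : (0 : Fin (m + 2)) ≠ Fin.last (m + 1) := by
      rw [Ne, Fin.ext_iff]
      simp
    refine ⟨Function.update g (Fin.last _) (-g (Fin.last _)), ?_, ?_, ?_, ?_⟩
    · rw [orthonormal_iff_ite] at hg ⊢
      intro i j
      by_cases hi : i = Fin.last _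
      · subst hi
        by_cases hj : j = Fin.last _
        · subst hj
          rw [Function.update_self, inner_neg_neg]
          exact hg _ _
        · rw [Function.update_self, Function.update_of_ne hj, inner_neg_left, hg,
            if_neg (Ne.symm hj), neg_zero]
      · by_cases hj : j = Fin.last _
        · subst hj
          rw [Function.update_self, Function.update_of_ne hi, inner_neg_right, hg,
            if_neg hi, neg_zero]
        · rw [Function.update_of_ne hi, Function.update_of_ne hj]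
          exact hg i j
    · intro a
      by_cases ha : a = Fin.last _
      · subst ha
        rw [Function.update_self]
        exact P.neg_mem (hgP _)
      · rw [Function.update_of_ne ha]
        exact hgP a
    · rw [Function.update_of_ne hne, hg0]
    · rw [← wdgA_apply, AlternatingMap.map_update_neg, Function.update_eq_self, wdgA_apply, h,
        neg_neg]

/-! ### smooth local frames -/

variable {Q : V → E →L[ℝ] E} {x : V}

theorem step_frame (hQ : Sm Q x) (hid : ∀ᶠ y in 𝓝 x, ∀ w, Q y (Q y w) = Q y w) {k : ℕ}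
    {e : Fin k → V → E} (he : ∀ a, Sm (e a) x) (hon : ∀ᶠ y in 𝓝 x, Orthonormal ℝ fun a => e a y)
    (hfix : ∀ᶠ y in 𝓝 x, ∀ a, Q y (e a y) = e a y) {g : E} (hg1 : ‖g‖ = 1) (hg2 : Q x g = g)
    (hg3 : ∀ a, inner ℝ (e a x) g = (0 : ℝ)) :
    ∃ f : V → E, Sm f x ∧ f x = g ∧
      ∀ᶠ y in 𝓝 x, ‖f y‖ = 1 ∧ Q y (f y) = f y ∧ ∀ a, inner ℝ (e a y) (f y) = (0 : ℝ) := by
  let w : V → E := fun y => Q y g - ∑ a, (inner ℝ (e a y) (Q y g) : ℝ) • e a y
  have hQg : Sm (fun y => Q y g) x := hQ.mono fun y hy => hy.clm_apply contDiffAt_const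
  have hw : Sm w x := by
    have h1 : ∀ᶠ y in 𝓝 x, ∀ a, ContDiffAt ℝ ∞ (e a) y := Filter.eventually_all.2 he
    filter_upwards [hQg, h1] with y hy1 hy2
    exact hy1.sub (ContDiffAt.sum fun a _ => ((hy2 a).inner ℝ hy1).smul (hy2 a))
  have hwx : w x = g := by
    simp only [w]
    rw [hg2, Finset.sum_eq_zero fun a _ => by rw [hg3 a, zero_smul], sub_zero]
  have hw0 : w x ≠ 0 := by
    rw [hwx, ← norm_ne_zero_iff, hg1]
    exact one_ne_zero
  have hne : ∀ᶠ y in 𝓝 x, w y ≠ 0 :=
    hw.continuousAt.eventually (isOpen_ne.mem_nhds hw0)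
  refine ⟨fun y => ‖w y‖⁻¹ • w y, ?_, ?_, ?_⟩
  · filter_upwards [hw, hne] with y h1 h2
    exact ((h1.norm ℝ h2).inv (norm_ne_zero_iff.2 h2)).smul h1
  · change ‖w x‖⁻¹ • w x = g
    rw [hwx, hg1, inv_one, one_smul]
  · filter_upwards [hne, hid, hon, hfix] with y h1 h2 h3 h4
    have hn : ‖w y‖ ≠ 0 := norm_ne_zero_iff.2 h1
    refine ⟨?_, ?_, fun a => ?_⟩
    · rw [norm_smul, norm_inv, norm_norm, inv_mul_cancel₀ hn]
    · rw [map_smul]
      congr 1
      simp only [w, map_sub, map_sum, map_smul, h2, h4]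
    · rw [inner_smul_right]
      have h5 : inner ℝ (e a y) (w y) = (0 : ℝ) := by
        simp only [w, inner_sub_right, inner_sum, inner_smul_right]
        rw [Finset.sum_eq_single a]
        · rw [orthonormal_iff_ite.1 h3 a a, if_pos rfl, mul_one, sub_self]
        · intro b _ hb
          rw [orthonormal_iff_ite.1 h3 a b, if_neg (Ne.symm hb), mul_zero]
        · simp
      rw [h5, mul_zero]

theorem orthonormal_snoc {k : ℕ} {e : Fin k → E} (he : Orthonormal ℝ e) {f : E} (hf : ‖f‖ = 1)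
    (h : ∀ a, inner ℝ (e a) f = (0 : ℝ)) :
    Orthonormal ℝ (Fin.snoc (α := fun _ => E) e f) := by
  rw [orthonormal_iff_ite] at he ⊢
  intro i j
  refine Fin.lastCases ?_ (fun i => ?_) i
  · refine Fin.lastCases ?_ (fun j => ?_) j
    · simp [hf]
    · rw [Fin.snoc_last, Fin.snoc_castSucc, real_inner_comm, h,
        if_neg (Fin.castSucc_lt_last j).ne']
  · refine Fin.lastCases ?_ (fun j => ?_) j
    · rw [Fin.snoc_last, Fin.snoc_castSucc, h, if_neg (Fin.castSucc_lt_last i).ne]
    · rw [Fin.snoc_castSucc, Fin.snoc_castSucc, he]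
      simp only [Fin.castSucc_inj]

theorem exists_frame_aux (hQ : Sm Q x) (hid : ∀ᶠ y in 𝓝 x, ∀ w, Q y (Q y w) = Q y w)
    {f0 : V → E} (hf0 : Sm f0 x) (hf1 : ∀ᶠ y in 𝓝 x, ‖f0 y‖ = 1)
    (hf2 : ∀ᶠ y in 𝓝 x, Q y (f0 y) = f0 y) (k : ℕ) (g : Fin (k + 1) → E)
    (hg : Orthonormal ℝ g) (hgx : ∀ a, Q x (g a) = g a) (hg0 : g 0 = f0 x) :
    ∃ e : Fin (k + 1) → V → E, e 0 = f0 ∧ (∀ a, Sm (e a) x) ∧
      (∀ᶠ y in 𝓝 x, Orthonormal ℝ fun a => e a y) ∧
      (∀ᶠ y in 𝓝 x, ∀ a, Q y (e a y) = e a y) ∧ ∀ a, e a x = g a := by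
  induction k with
  | zero =>
    refine ⟨fun _ => f0, rfl, fun _ => hf0, ?_, ?_, ?_⟩
    · filter_upwards [hf1] with y hy
      refine ⟨fun _ => hy, fun i j hij => absurd ?_ hij⟩
      rw [Fin.fin_one_eq_zero i, Fin.fin_one_eq_zero j]
    · filter_upwards [hf2] with y hy a using hy
    · intro a
      rw [Fin.fin_one_eq_zero a, hg0]
  | succ k ih =>
    obtain ⟨e, h1, h2, h3, h4, h5⟩ := ih (fun a => g a.castSucc)
      (hg.comp _ (Fin.castSucc_injective _)) (fun a => hgx _) (by rw [Fin.castSucc_zero, hg0])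
    obtain ⟨f, k1, k2, k3⟩ := step_frame hQ hid h2 h3 h4 (g := g (Fin.last _)) (hg.1 _) (hgx _)
      (fun a => by
        rw [h5]
        exact hg.2 (Fin.castSucc_lt_last a).ne)
    refine ⟨Fin.snoc (α := fun _ => V → E) e f, ?_, ?_, ?_, ?_, ?_⟩
    · rw [← h1, ← Fin.castSucc_zero, Fin.snoc_castSucc]
    · intro a
      refine Fin.lastCases ?_ (fun a => ?_) a
      · rw [Fin.snoc_last]
        exact k1
      · rw [Fin.snoc_castSucc]
        exact h2 a
    · filter_upwards [h3, k3] with y hy1 hy2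
      have h6 := orthonormal_snoc hy1 hy2.1 hy2.2.2
      have h7 : (fun a => (Fin.snoc (α := fun _ => V → E) e f : Fin (k + 1 + 1) → V → E) a y) =
          Fin.snoc (α := fun _ => E) (fun a => e a y) (f y) := by
        funext a
        refine Fin.lastCases ?_ (fun a => ?_) a
        · simp
        · simp
      rw [h7]
      exact h6
    · filter_upwards [h4, k3] with y hy1 hy2 a
      refine Fin.lastCases ?_ (fun a => ?_) a
      · rw [Fin.snoc_last]
        exact hy2.2.1
      · rw [Fin.snoc_castSucc]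
        exact hy1 a
    · intro a
      refine Fin.lastCases ?_ (fun a => ?_) a
      · rw [Fin.snoc_last]
        exact k2
      · rw [Fin.snoc_castSucc]
        exact h5 a

end Vale.Agent.P231.FE
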