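import Vale.Agent.P231.FE.Fibre
import Vale.Agent.P231.FE.Orn
import Vale.Agent.P231.Fm.DegSphere

/-!
# P231, block S2-F (12): the solid angle form of a Euclidean space, and the angular form on the
planes of the spread
-/

set_option linter.unusedSectionVars false
set_option linter.unusedVariables false

open Module MeasureTheory Set Metric Filter
open scoped ContDiff Topology

namespace Vale.Agent.P231.FE

open Vale.Agent.P231.Fm
open Vale.Agent.P231.Q (dR Cut)

/-! ### the solid angle form -/

section Std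

variable {W : Type*} [NormedAddCommGroup W] [InnerProductSpace ℝ W] [FiniteDimensional ℝ W]
  {m : ℕ}

/-- the solid angle form of an oriented Euclidean space of dimension `m` -/
noncomputable def std (b : Fin m → W) (y : W) : Lam W := (‖y‖ ^ m)⁻¹ • iprod y (wdg b)

theorem eval_wdg (b : OrthonormalBasis (Fin m) ℝ W) : evalForm (wdg b) b = 1 := by
  rw [evalForm_apply, wdg, cont_ofFn, map_one]
  intro i j
  rw [innerSL_apply_apply, orthonormal_iff_ite.1 b.orthonormal i j]

theorem dx_mul_wdg (b : OrthonormalBasis (Fin m) ℝ W) (φ : W →L[ℝ] ℝ) : dx φ * wdg b = 0 := by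
  have h1 : Q.IsDeg (1 + m) (dx φ * wdg b) := (Q.isDeg_dx φ).mul (isDeg_ofFn _)
  refine h1.eq_zero ?_
  rw [finrank_eq_card_basis b.toBasis, Fintype.card_fin]
  omega

theorem dx_mul_iprod (b : OrthonormalBasis (Fin m) ℝ W) (φ : W →L[ℝ] ℝ) (y : W) :
    dx φ * iprod y (wdg b) = φ y • wdg b := by
  have h1 := congrArg (iprod y) (dx_mul_wdg b φ)
  rw [iprod_dx_mul, map_zero, sub_eq_zero] at h1
  exact h1.symm

theorem dx_mul_std (b : OrthonormalBasis (Fin m) ℝ W) (φ : W →L[ℝ] ℝ) (y : W) :
    dx φ * std b y = ((‖y‖ ^ m)⁻¹ * φ y) • wdg b := by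
  rw [std, mul_smul_comm, dx_mul_iprod, smul_smul]

variable [MeasurableSpace W] [BorelSpace W]

theorem eval_dR_std (b : OrthonormalBasis (Fin m) ℝ W) (r : W → ℝ) (y : W) :
    evalForm (dR r y * std b y) b = (‖y‖ ^ m)⁻¹ * fderiv ℝ r y y := by
  rw [dR, dx_mul_std, Q.evalForm_smul, eval_wdg, mul_one]

theorem std_deg (b : Fin (m + 1) → W) (y : W) : Q.IsDeg m (std b y) :=
  ((isDeg_ofFn _ : Q.IsDeg (m + 1) (wdg b)).iprod y).smul _

theorem std_smooth (b : Fin m → W) {y : W} (hy : y ≠ 0) : ContDiffAt ℝ ∞ (std b) y := by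
  have h1 : ContDiffAt ℝ ∞ (fun y : W => (‖y‖ ^ m)⁻¹) y :=
    ((contDiffAt_norm ℝ hy).pow m).inv (pow_ne_zero m (norm_ne_zero_iff.2 hy))
  have h2 : ContDiffAt ℝ ∞ (fun y : W => iprod y (wdg b)) y := by
    let L : W →ₗ[ℝ] Lam W :=
      { toFun := fun y => iprod y (wdg b)
        map_add' := fun y z => iprod_add y z _
        map_smul' := fun c y => iprod_smul c y _ }
    exact L.toContinuousLinearMap.contDiff.contDiffAt
  exact sm_smul h1 h2

theorem deriv_cut_integral :
    ∫ y in Ioi (0 : ℝ), deriv Real.smoothTransition (y - 2) = 1 := by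
  let f : ℝ → ℝ := fun y => (Real.smoothTransition (y - 2) - 1) * Real.smoothTransition (y + 1)
  have hf : ContDiff ℝ 1 f := by
    refine ContDiff.mul (ContDiff.sub ?_ contDiff_const) ?_
    · exact Real.smoothTransition.contDiff.comp (contDiff_id.sub contDiff_const)
    · exact Real.smoothTransition.contDiff.comp (contDiff_id.add contDiff_const)
  have hc : HasCompactSupport f := by
    refine HasCompactSupport.intro (isCompact_Icc (a := (-1 : ℝ)) (b := 3)) fun y hy => ?_
    rw [mem_Icc, not_and_or, not_le, not_le] at hy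
    rcases hy with hy | hy
    · simp only [f]
      rw [Real.smoothTransition.zero_of_nonpos (x := y + 1) (by linarith), mul_zero]
    · simp only [f]
      rw [Real.smoothTransition.one_of_one_le (x := y - 2) (by linarith), sub_self, zero_mul]
  have h1 := hc.integral_Ioi_deriv_eq hf 0
  have h2 : ∀ y ∈ Ioi (0 : ℝ), deriv f y = deriv Real.smoothTransition (y - 2) := by
    intro y hy
    have h3 : f =ᶠ[𝓝 y] fun y => Real.smoothTransition (y - 2) - 1 := by
      filter_upwards [lt_mem_nhds (show (0 : ℝ) < y from hy)] with z hz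
      simp only [f]
      rw [Real.smoothTransition.one_of_one_le (x := z + 1) (by linarith), mul_one]
    rw [h3.deriv_eq, deriv_sub_const]
    exact deriv_comp_sub_const Real.smoothTransition 2 y
  rw [setIntegral_congr_fun measurableSet_Ioi h2] at h1
  rw [h1]
  simp only [f]
  rw [Real.smoothTransition.zero_of_nonpos (by norm_num),
    Real.smoothTransition.one_of_one_le (by norm_num)]
  norm_num

theorem fderiv_rst_self {y : W} (hy : y ≠ 0) :
    fderiv ℝ (rst : W → ℝ) y y = deriv Real.smoothTransition (‖y‖ - 2) * ‖y‖ := by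
  have h1 : HasDerivAt (fun t : ℝ => t • y) y 1 := by
    simpa using (hasDerivAt_id (1 : ℝ)).smul_const y
  have h2 : HasFDerivAt (rst : W → ℝ) (fderiv ℝ rst y) ((1 : ℝ) • y) := by
    rw [one_smul]
    exact (contDiff_rst.differentiable (by simp) y).hasFDerivAt
  have h3 := h2.comp_hasDerivAt (1 : ℝ) h1
  have h4 : HasDerivAt (fun t : ℝ => t * ‖y‖ - 2) ‖y‖ 1 := by
    simpa using ((hasDerivAt_id (1 : ℝ)).mul_const ‖y‖).sub_const 2
  have h5 : HasDerivAt Real.smoothTransition (deriv Real.smoothTransition (‖y‖ - 2))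
      ((1 : ℝ) * ‖y‖ - 2) := by
    rw [one_mul]
    exact (Real.smoothTransition.contDiff (n := 1).differentiable (by norm_num) _).hasDerivAt
  have h6 : HasDerivAt (fun t : ℝ => Real.smoothTransition (t * ‖y‖ - 2))
      (deriv Real.smoothTransition (‖y‖ - 2) * ‖y‖) 1 :=
    HasDerivAt.comp (h₂ := Real.smoothTransition) (1 : ℝ) h5 h4
  refine h3.unique (h6.congr_of_eventuallyEq ?_)
  filter_upwards [lt_mem_nhds (zero_lt_one : (0 : ℝ) < 1)] with t ht
  change rst (t • y) = _
  rw [rst, norm_smul, Real.norm_of_nonneg ht.le]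

/-- the integral of the solid angle form over the unit sphere -/
theorem integral_std_rst (hm : 0 < m) (b : OrthonormalBasis (Fin m) ℝ W) :
    ∫ y, evalForm (dR rst y * std b y) b = m * (volume : Measure W).real (ball 0 1) := by
  have hfr : finrank ℝ W = m := by
    rw [finrank_eq_card_basis b.toBasis, Fintype.card_fin]
  have : Nontrivial W := nontrivial_of_finrank_pos (R := ℝ) (by omega)
  have h1 : ∫ y, evalForm (dR rst y * std b y) b =
      ∫ x : W, (fun y : ℝ => (y ^ m)⁻¹ * (deriv Real.smoothTransition (y - 2) * y)) ‖x‖ := by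
    refine integral_congr_ae ?_
    filter_upwards [(measure_eq_zero_iff_ae_notMem.1 (measure_singleton (0 : W)))] with x hx
    rw [eval_dR_std, fderiv_rst_self (by simpa using hx)]
  rw [h1]
  refine (integral_fun_norm_addHaar (volume : Measure W)
    (fun y : ℝ => (y ^ m)⁻¹ * (deriv Real.smoothTransition (y - 2) * y))).trans ?_
  have h3 : ∫ y in Ioi (0 : ℝ), y ^ (m - 1) •
      ((y ^ m)⁻¹ * (deriv Real.smoothTransition (y - 2) * y)) = 1 := by
    rw [← deriv_cut_integral]
    refine setIntegral_congr_fun measurableSet_Ioi fun y hy => ?_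
    have hy0 : (y : ℝ) ≠ 0 := ne_of_gt hy
    simp only [smul_eq_mul]
    obtain ⟨k, rfl⟩ : ∃ k, m = k + 1 := ⟨m - 1, by omega⟩
    rw [Nat.add_sub_cancel, pow_succ]
    field_simp
  rw [hfr, h3, nsmul_eq_mul, smul_eq_mul, mul_one]

end Std

/-! ### the angular form on the planes of the spread -/

section Pull

variable {W : Type*} [NormedAddCommGroup W] [InnerProductSpace ℝ W] [FiniteDimensional ℝ W]
  {V : Type*} [NormedAddCommGroup V] [InnerProductSpace ℝ V] [FiniteDimensional ℝ V] {m : ℕ}

theorem pull_wdg (T : W →ₗᵢ[ℝ] V) (b : Fin m → W) :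
    pull T.toContinuousLinearMap (wdg fun a => T (b a)) = wdg b := by
  rw [wdg, wdg, map_list_prod, List.map_ofFn]
  congr 1
  refine congrArg List.ofFn (funext fun a => ?_)
  simp only [Function.comp_apply]
  rw [pull_dx]
  congr 1
  ext z
  change inner ℝ (T (b a)) (T z) = inner ℝ (b a) z
  exact T.inner_map_map _ _

namespace OS

variable {n : ℕ} {Pi : V → V →L[ℝ] V} {o : V → Lam V} (h : OS n Pi o)
include h

/-- the orientation of a plane of the spread, in an orthonormal basis of this plane -/
theorem o_pm {x : V} (hx : x ≠ 0) {g : Fin (2 * n + 2) → V} (hg : Orthonormal ℝ g)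
    (hP : ∀ a, Pi x (g a) = g a) : o x = wdg g ∨ o x = -wdg g := by
  obtain ⟨e, he, heP, hex⟩ := h.or.frame x hx
  rw [hex]
  refine wdg_pm he hg fun a => ?_
  rw [span_eq (h.sp.rank x hx) hg fun a => (h.mem_range_iff hx).2 (hP a)]
  exact (h.mem_range_iff hx).2 (heP a)

/-- **the angular form pulled back to a plane of the spread is the solid angle form** -/
theorem pb_lin (a : ℝ) (T : W →ₗᵢ[ℝ] V) {x : V} (hx : x ≠ 0) (hT : ∀ w, Pi x (T w) = T w)
    (b : OrthonormalBasis (Fin (2 * n + 2)) ℝ W) :
    ∃ s : ℝ, (s = 1 ∨ s = -1) ∧ ∀ y ≠ 0, pb T (psi n a Pi o) y =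
      (s * (a * ((2 * n + 1).factorial : ℝ))) • std b y := by
  have hg : Orthonormal ℝ fun a => T (b a) := b.orthonormal.comp_linearIsometry T
  have key : ∀ s : ℝ, o x = s • wdg (fun a => T (b a)) → ∀ y ≠ 0, pb T (psi n a Pi o) y =
      (s * (a * ((2 * n + 1).factorial : ℝ))) • std b y := by
    intro s hs y hy
    have hTy : T y ≠ 0 := by
      rw [← norm_ne_zero_iff, T.norm_map]
      exact norm_ne_zero_iff.2 hy
    have hTd : DifferentiableAt ℝ (T : W → V) y := T.toContinuousLinearMap.differentiableAt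
    have hPi : Pi (T y) = Pi x := h.sp.rel x _ hx hTy (hT y)
    have ho : o (T y) = o x := h.or.rel x _ hx hTy (hT y)
    have hfd : fderiv ℝ (T : W → V) y = T.toContinuousLinearMap :=
      T.toContinuousLinearMap.fderiv
    rw [h.psi_fibre a hTd hTy (Filter.Eventually.of_forall fun z => by rw [hPi, hT]), ho, hs, hfd,
      T.norm_map, std, map_smul, map_smul]
    have h5 : pull T.toContinuousLinearMap (iprod (T y) (wdg fun a => T (b a))) =
        iprod y (wdg b) := by
      rw [← pull_wdg T b]
      exact (pull_iprod T.toContinuousLinearMap y _).symm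
    rw [h5, smul_smul, smul_smul]
    congr 1
    ring
  rcases h.o_pm hx hg (fun a => hT _) with h1 | h1
  · exact ⟨1, Or.inl rfl, key 1 (by rw [h1, one_smul])⟩
  · exact ⟨-1, Or.inr rfl, key (-1) (by rw [h1, neg_one_smul])⟩

end OS

/-- the trivial spread: the whole space -/
theorem os_id {n : ℕ} (b : OrthonormalBasis (Fin (2 * n + 2)) ℝ W) :
    OS n (fun _ => ContinuousLinearMap.id ℝ W) (fun _ => wdg b) where
  sp :=
    { smooth := fun u _ => contDiffAt_const
      idem := fun u _ x => rfl
      symm := fun u _ x y => rfl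
      rank := fun u _ => by
        have h1 : LinearMap.range ((ContinuousLinearMap.id ℝ W : W →L[ℝ] W) : W →ₗ[ℝ] W) = ⊤ :=
          LinearMap.range_id
        rw [h1, finrank_top, finrank_eq_card_basis b.toBasis, Fintype.card_fin]
      self := fun u _ => rfl
      rel := fun u w _ _ _ => rfl }
  or :=
    { smooth := fun u _ => contDiffAt_const
      frame := fun u _ => ⟨b, b.orthonormal, fun a => rfl, rfl⟩
      rel := fun u w _ _ _ => rfl }

/-- the solid angle form is closed -/
theorem extd_std {n : ℕ} (b : OrthonormalBasis (Fin (2 * n + 2)) ℝ W) {y : W} (hy : y ≠ 0) :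
    extd (std b) y = 0 := by
  have h := os_id b
  have h1 : psi n (((2 * n + 1).factorial : ℝ)⁻¹) (fun _ => ContinuousLinearMap.id ℝ W)
      (fun _ => wdg b) =ᶠ[𝓝 y] std b := by
    filter_upwards [isOpen_ne.mem_nhds hy] with z hz
    have h2 := h.psi_fibre (((2 * n + 1).factorial : ℝ)⁻¹) (f := fun z : W => z)
      differentiableAt_id hz (Filter.Eventually.of_forall fun z => rfl)
    have h3 : fderiv ℝ (fun z : W => z) z = ContinuousLinearMap.id ℝ W := fderiv_id
    rw [pb_id, h3, Fm.pull_id, inv_mul_cancel₀ (by positivity), one_mul] at h2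
    exact h2
  have h4 : fderiv ℝ (fun _ : W => ContinuousLinearMap.id ℝ W) y = 0 := fderiv_const_apply _
  rw [← extd_congr h1, h.extd_psi _ hy, chi, h4, chD, WE_zero, zero_pow (Nat.succ_ne_zero n)]
  simp

variable [MeasurableSpace W] [BorelSpace W]

/-- the integral of the solid angle form, for every cut-off function -/
theorem integral_std {n : ℕ} (b : OrthonormalBasis (Fin (2 * n + 2)) ℝ W) {r : W → ℝ} {K : Set W}
    (hr : Cut r K) : ∫ y, evalForm (dR r y * std b y) b =
      ((2 * n + 2 : ℕ) : ℝ) * (volume : Measure W).real (ball 0 1) := by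
  rw [← integral_std_rst (by omega) b]
  refine cut_indep volume b (fun y hy => (std_smooth b hy).contDiffWithinAt)
    (fun y hy => ?_) hr cut_rst
  rw [extd_std b hy, Q.evalForm_zero]

end Pull

end Vale.Agent.P231.FE
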