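import Vale.Agent.P231.FE.Std
import Vale.Agent.P231.TW.Ang
import Vale.Agent.P231.S2I.DegC

/-!
# P231, block S2-F (13): the angular form satisfies the hypotheses of the tower theorem
-/

set_option linter.unusedSectionVars false
set_option linter.unusedVariables false

open Module MeasureTheory Set Metric Filter
open scoped ContDiff Topology

namespace Vale.Agent.P231.FE

open Vale.Agent.P231.Fm
open Vale.Agent.P231.Q (dR Cut)

section

variable {V : Type*} [NormedAddCommGroup V] [InnerProductSpace ℝ V] [FiniteDimensional ℝ V]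
  {W : Type*} [NormedAddCommGroup W] [InnerProductSpace ℝ W] [FiniteDimensional ℝ W]

theorem iso_ne (L : W ≃ₗᵢ[ℝ] V) {y : W} (hy : y ≠ 0) : L y ≠ 0 := fun h0 =>
  hy (L.map_eq_zero_iff.1 h0)

theorem iso_diff (L : W ≃ₗᵢ[ℝ] V) (y : W) : DifferentiableAt ℝ (L : W → V) y :=
  L.toContinuousLinearEquiv.differentiableAt

theorem pb_iso (L : W ≃ₗᵢ[ℝ] V) (w : V → Lam V) (y : W) :
    pb L w y = pull (L.toContinuousLinearEquiv : W →L[ℝ] V) (w (L y)) := by
  have h1 : fderiv ℝ (L : W → V) y = (L.toContinuousLinearEquiv : W →L[ℝ] V) :=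
    L.toContinuousLinearEquiv.hasFDerivAt.fderiv
  rw [pb, h1]

end

/-- the integral of the angular form over the unit spheres of the planes of the spread -/
noncomputable def kap (n : ℕ) (a : ℝ) : ℝ := |a * ((2 * n + 1).factorial : ℝ)| *
  (((2 * n + 2 : ℕ) : ℝ) * (volume : Measure (EuclideanSpace ℝ (Fin (2 * n + 2)))).real (ball 0 1))

theorem kap_pos (n : ℕ) {a : ℝ} (ha : a ≠ 0) : 0 < kap n a := by
  have h1 : 0 < (volume : Measure (EuclideanSpace ℝ (Fin (2 * n + 2)))).real (ball 0 1) :=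
    ENNReal.toReal_pos (measure_ball_pos _ _ one_pos).ne' measure_ball_lt_top.ne
  unfold kap
  positivity

section

variable {V : Type*} [NormedAddCommGroup V] [InnerProductSpace ℝ V] [FiniteDimensional ℝ V]
  [MeasurableSpace V] [BorelSpace V]
  {n : ℕ} {Pi : V → V →L[ℝ] V} {o : V → Lam V}

namespace OS

variable (h : OS n Pi o) (a : ℝ)
include h

/-- the angular form satisfies the hypotheses of the tower theorem -/
theorem ang : TW.Ang (2 * n + 2) Pi (psi n a Pi o) (kap n a) where
  smooth y hy := (h.psi_smooth a hy).contDiffWithinAt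
  deg y hy := DegC.mem_hom_iff.1 (h.psi_mem a hy)
  hom y hy := h.pb_rad a hy
  basic y hy w hw := h.iprod_extd a hy hw
  kappa T x hx hT := by
    let b : OrthonormalBasis (Fin (2 * n + 2)) ℝ (EuclideanSpace ℝ (Fin (2 * n + 2))) :=
      EuclideanSpace.basisFun _ ℝ
    obtain ⟨s, hs, h1⟩ := h.pb_lin a T hx hT b
    have h2 : TW.JJ (TW.bE (2 * n + 2)) (fun y => dR rst y * pb T (psi n a Pi o) y) =
        (s * (a * ((2 * n + 1).factorial : ℝ))) * ∫ y, evalForm (dR rst y * std b y) b := by
      rw [TW.JJ, ← integral_const_mul]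
      have h3 : (TW.bE (2 * n + 2)).addHaar = volume := b.addHaar_eq_volume
      rw [h3]
      refine integral_congr_ae (Filter.Eventually.of_forall fun y => ?_)
      rcases eq_or_ne y 0 with rfl | hy
      · have h5 : dR (rst : EuclideanSpace ℝ (Fin (2 * n + 2)) → ℝ) 0 = 0 :=
          dR_rst_zero (by rw [norm_zero]; norm_num)
        simp only [h5, zero_mul, Q.evalForm_zero, mul_zero]
      · simp only [h1 y hy, mul_smul_comm]
        rw [Q.evalForm_smul]
        rfl
    rw [h2, integral_std b cut_rst, abs_mul, kap, abs_mul]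
    have h4 : |s| = 1 := by rcases hs with rfl | rfl <;> simp
    rw [h4, one_mul, abs_of_nonneg (a := _ * (volume : Measure _).real _) (by positivity)]

end OS

/-! ### transport by a linear isometry -/

variable {W : Type*} [NormedAddCommGroup W] [InnerProductSpace ℝ W] [FiniteDimensional ℝ W]
  [MeasurableSpace W] [BorelSpace W]

/-- transport of a field of projections -/
noncomputable def trP (L : W ≃ₗᵢ[ℝ] V) (Pi : V → V →L[ℝ] V) (y : W) : W →L[ℝ] W :=
  (L.symm.toContinuousLinearEquiv : V →L[ℝ] W).comp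
    ((Pi (L y)).comp (L.toContinuousLinearEquiv : W →L[ℝ] V))

theorem trP_apply (L : W ≃ₗᵢ[ℝ] V) (Pi : V → V →L[ℝ] V) (y w : W) :
    trP L Pi y w = L.symm (Pi (L y) (L w)) := rfl

theorem trP_iff (L : W ≃ₗᵢ[ℝ] V) (Pi : V → V →L[ℝ] V) (y w : W) :
    trP L Pi y w = w ↔ Pi (L y) (L w) = L w := by
  rw [trP_apply, LinearIsometryEquiv.symm_apply_eq]

theorem Spread.tr {m : ℕ} (h : Spread m Pi) (L : W ≃ₗᵢ[ℝ] V) : Spread m (trP L Pi) where
  smooth u hu := by
    have h1 : ContDiffAt ℝ ∞ (fun y => Pi (L y)) u :=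
      (h.smooth _ (iso_ne L hu)).comp u L.contDiff.contDiffAt
    exact contDiffAt_const.clm_comp (h1.clm_comp contDiffAt_const)
  idem u hu x := by
    rw [trP_apply, trP_apply, L.apply_symm_apply, h.idem _ (iso_ne L hu)]
  symm u hu x y := by
    rw [trP_apply, trP_apply, ← L.inner_map_map, L.apply_symm_apply, h.symm _ (iso_ne L hu),
      ← L.inner_map_map x, L.apply_symm_apply]
  rank u hu := by
    have h1 : LinearMap.range (trP L Pi u : W →ₗ[ℝ] W) =
        (LinearMap.range (Pi (L u) : V →ₗ[ℝ] V)).map (L.symm.toLinearEquiv : V →ₗ[ℝ] W) := by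
      ext w
      constructor
      · rintro ⟨v, rfl⟩
        exact ⟨Pi (L u) (L v), ⟨L v, rfl⟩, rfl⟩
      · rintro ⟨_, ⟨v, rfl⟩, rfl⟩
        refine ⟨L.symm v, ?_⟩
        change trP L Pi u (L.symm v) = L.symm (Pi (L u) v)
        rw [trP_apply, L.apply_symm_apply]
    rw [h1, LinearEquiv.finrank_map_eq, h.rank _ (iso_ne L hu)]
  self u hu := (trP_iff L Pi u u).2 (h.self _ (iso_ne L hu))
  rel u w hu hw huw := by
    have h1 := h.rel _ _ (iso_ne L hu) (iso_ne L hw) ((trP_iff L Pi u w).1 huw)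
    unfold trP
    rw [h1]

theorem pb_rad_comm (L : W ≃ₗᵢ[ℝ] V) (y : W) : L (rad y) = rad (L y) := by
  rw [rad, rad, map_smul, L.norm_map]

theorem ang_tr {m : ℕ} {psi : V → Lam V} {κ : ℝ} (A : TW.Ang m Pi psi κ) (L : W ≃ₗᵢ[ℝ] V) :
    TW.Ang m (trP L Pi) (pb L psi) κ where
  smooth y hy := (contDiffAt_pb (m := ∞) (n := ∞) L.contDiff.contDiffAt
    (A.at (iso_ne L hy)) (by simp)).contDiffWithinAt
  deg y hy := by
    rw [pb_iso, WA.prt_pull, A.deg _ (iso_ne L hy)]
  hom y hy := by
    have hd : DifferentiableAt ℝ (rad : W → W) y := (cd_rad hy).differentiableAt (by simp)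
    have hd2 : DifferentiableAt ℝ (rad : V → V) (L y) :=
      (cd_rad (iso_ne L hy)).differentiableAt (by simp)
    rw [← pb_comp psi (iso_diff L _) hd]
    have h1 : (fun y => L (rad y)) = fun y => rad (L y) := funext fun y => pb_rad_comm L y
    rw [h1, pb_comp psi hd2 (iso_diff L _), pb_iso, pb_iso,
      A.hom _ (iso_ne L hy)]
  basic y hy w hw := by
    rw [extd_pb (L.contDiff.contDiffAt.of_le two_le_infty) (A.diff (iso_ne L hy)), pb_iso,
      pull_iprod]
    have h1 := A.basic _ (iso_ne L hy) (L w) ((trP_iff L Pi y w).1 hw)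
    have h2 : (L.toContinuousLinearEquiv : W →L[ℝ] V) w = L w := rfl
    rw [h2, h1, map_zero]
  kappa T x hx hT := by
    rw [← A.kappa (L.toLinearIsometry.comp T) (L x) (iso_ne L hx)
      fun w => (trP_iff L Pi x (T w)).1 (hT w)]
    congr 2
    funext y
    congr 1
    exact (pb_comp (f := T) (g := L) psi (iso_diff L _)
      T.toContinuousLinearMap.differentiableAt).symm

end

/-! ### block Q -/

section

variable {V : Type*} [NormedAddCommGroup V] [InnerProductSpace ℝ V] [FiniteDimensional ℝ V]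
  {W : Type*} [NormedAddCommGroup W] [InnerProductSpace ℝ W] [FiniteDimensional ℝ W]

/-- the angular form satisfies the hypotheses of block Q -/
theorem OS.q_ang {n : ℕ} {Pi : V → V →L[ℝ] V} {o : V → Lam V} (h : OS n Pi o) (a : ℝ) :
    Q.Ang (psi n a Pi o) where
  smooth y hy := (h.psi_smooth a hy).contDiffWithinAt
  odd y hy := h.inv_psi a hy
  rad y hy := h.iprod_extd a hy (h.sp.self y hy)

theorem q_ang_tr {psi : V → Lam V} (A : Q.Ang psi) (L : W ≃ₗᵢ[ℝ] V) : Q.Ang (pb L psi) where
  smooth y hy := (contDiffAt_pb (m := ∞) (n := ∞) L.contDiff.contDiffAt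
    (A.smooth.contDiffAt (isOpen_compl_singleton.mem_nhds (iso_ne L hy))) (by simp)).contDiffWithinAt
  odd y hy := by
    rw [pb_iso, ← pull_inv, A.odd _ (iso_ne L hy), map_neg]
  rad y hy := by
    rw [extd_pb (L.contDiff.contDiffAt.of_le two_le_infty) ((A.smooth.contDiffAt (isOpen_compl_singleton.mem_nhds
      (iso_ne L hy))).differentiableAt (by simp)), pb_iso,
      pull_iprod]
    have h1 := A.rad _ (iso_ne L hy)
    have h2 : (L.toContinuousLinearEquiv : W →L[ℝ] V) y = L y := rfl
    rw [h2, h1, map_zero]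

end

end Vale.Agent.P231.FE
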