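import Vale.Agent.P231.FE.Frame

/-!
# P231, block S2-F (4): the angular form and the Euler form, frame-free formula
-/

set_option linter.unusedSectionVars false

open Module Filter Topology
open scoped ContDiff

namespace Vale.Agent.P231.FE

open Vale.Agent.P231.Fm

variable {V : Type*} [NormedAddCommGroup V] [NormedSpace ℝ V] [FiniteDimensional ℝ V]
variable {U : Type*} [NormedAddCommGroup U] [NormedSpace ℝ U] [FiniteDimensional ℝ U]
variable {E : Type*} [NormedAddCommGroup E] [InnerProductSpace ℝ E] [FiniteDimensional ℝ E]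

/-- the vector of a linear form -/
noncomputable def shp : (E →L[ℝ] ℝ) →ₗ[ℝ] E where
  toFun α := ∑ i, α (stdOrthonormalBasis ℝ E i) • stdOrthonormalBasis ℝ E i
  map_add' α β := by
    simp only [add_apply, add_smul, Finset.sum_add_distrib]
  map_smul' c α := by
    simp only [smul_apply, smul_eq_mul, RingHom.id_apply, Finset.smul_sum, mul_smul]

theorem shp_innerSL (w : E) : shp (innerSL ℝ w) = w := by
  have h := (stdOrthonormalBasis ℝ E).sum_repr' w
  have h2 : (shp (innerSL ℝ w) : E) =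
      ∑ i, (inner ℝ w (stdOrthonormalBasis ℝ E i) : ℝ) • stdOrthonormalBasis ℝ E i := rfl
  rw [h2]
  refine Eq.trans (Finset.sum_congr rfl fun i _ => ?_) h
  rw [real_inner_comm]

/-- contraction with a multi-covector -/
noncomputable def ct : Lam E →ₐ[ℝ] Module.End ℝ (Lam (V × E)) :=
  Lam.lift
    { toFun := fun α => iv (shp α)
      map_add' := fun α β => by
        refine LinearMap.ext fun η => ?_
        rw [map_add, iv_add]
        rfl
      map_smul' := fun c α => by
        refine LinearMap.ext fun η => ?_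
        rw [map_smul, iv_smul]
        rfl }
    fun α => LinearMap.ext fun η => iv_iv _ _

theorem ct_dx (α : E →L[ℝ] ℝ) (η : Lam (V × E)) : ct (dx α) η = iv (shp α) η := by
  have h := Lam.lift_dxl (A := Module.End ℝ (Lam (V × E)))
    { toFun := fun α => iv (shp α)
      map_add' := fun α β => by
        refine LinearMap.ext fun η => ?_
        rw [map_add, iv_add]
        rfl
      map_smul' := fun c α => by
        refine LinearMap.ext fun η => ?_
        rw [map_smul, iv_smul]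
        rfl } (fun α => LinearMap.ext fun η => iv_iv _ _) α
  exact DFunLike.congr_fun h η

theorem ct_wdg {m : ℕ} (e : Fin m → E) (η : Lam (V × E)) :
    ct (wdg e) η = TTl (List.ofFn e) η := by
  have h : ct (wdg e) = (TTl (List.ofFn e) : Module.End ℝ (Lam (V × E))) := by
    rw [wdg, map_list_prod, TTl, List.map_ofFn, List.map_ofFn]
    congr 2
    funext a
    refine LinearMap.ext fun η => ?_
    change ct (dx (innerSL ℝ (e a))) η = iv (e a) η
    rw [ct_dx, shp_innerSL]
  rw [h]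

theorem ct_ph (A : U →L[ℝ] V) (w : Lam E) (η : Lam (V × E)) :
    ct w (ph A η) = ph A (ct w η) := by
  induction w using Lam.ind generalizing η with
  | h1 r =>
    rw [AlgHom.commutes, AlgHom.commutes, Module.algebraMap_end_apply,
      Module.algebraMap_end_apply, map_smul]
  | h2 α => rw [ct_dx, ct_dx, iv_ph]
  | h3 a b ha hb =>
    rw [map_mul, map_mul, Module.End.mul_apply, Module.End.mul_apply, hb, ha]
  | h4 a b ha hb =>
    rw [map_add, map_add, LinearMap.add_apply, LinearMap.add_apply, ha, hb, map_add]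

/-! ### the basic elements -/

/-- basis covectors -/
noncomputable abbrev bc (E : Type*) [NormedAddCommGroup E] [InnerProductSpace ℝ E]
    [FiniteDimensional ℝ E] (i : Fin (finrank ℝ E)) : E →L[ℝ] ℝ :=
  innerSL ℝ (stdOrthonormalBasis ℝ E i)

noncomputable def XE (w : E) : Lam (V × E) := vt (innerSL ℝ w)

noncomputable def ThE (L : V →L[ℝ] E) : Lam (V × E) :=
  ∑ i, hz (dx ((bc E i).comp L)) * vt (bc E i)

/-- the derivative of `y ↦ Π y b` -/
noncomputable def ap (Q : V →L[ℝ] (E →L[ℝ] E)) (b : E) : V →L[ℝ] E :=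
  (ContinuousLinearMap.apply ℝ E b).comp Q

theorem ap_apply (Q : V →L[ℝ] (E →L[ℝ] E)) (b : E) (z : V) : ap Q b z = Q z b := rfl

noncomputable def WE (Q : V →L[ℝ] (E →L[ℝ] E)) : Lam (V × E) := (1 / 2 : ℝ) • ∑ i, ∑ j,
  hz (wd (ap Q (stdOrthonormalBasis ℝ E i)) (ap Q (stdOrthonormalBasis ℝ E j))) *
    (vt (bc E i) * vt (bc E j))

theorem ph_XE (A : U →L[ℝ] V) (w : E) : ph A (XE w : Lam (V × E)) = XE w := ph_vt _ _

theorem ph_ThE (A : U →L[ℝ] V) (L : V →L[ℝ] E) : ph A (ThE L) = ThE (L.comp A) := by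
  rw [ThE, map_sum]
  refine Finset.sum_congr rfl fun i _ => ?_
  rw [map_mul, ph_hz, ph_vt, pull_dx]
  rfl

theorem pull_wd (A : U →L[ℝ] V) (α β : V →L[ℝ] E) :
    pull A (wd α β) = wd (α.comp A) (β.comp A) := by
  rw [wd, map_sum]
  refine Finset.sum_congr rfl fun i _ => ?_
  rw [map_mul, pull_dx, pull_dx]
  rfl

theorem ph_WE (A : U →L[ℝ] V) (Q : V →L[ℝ] (E →L[ℝ] E)) : ph A (WE Q) = WE (Q.comp A) := by
  rw [WE, map_smul, map_sum]
  congr 1
  refine Finset.sum_congr rfl fun i _ => ?_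
  rw [map_sum]
  refine Finset.sum_congr rfl fun j _ => ?_
  rw [map_mul, ph_hz, pull_wd, map_mul, ph_vt, ph_vt]
  rfl

/-- the ambient transgression element -/
noncomputable def PsE (n : ℕ) (a : ℝ) (w : E) (L : V →L[ℝ] E) (Q : V →L[ℝ] (E →L[ℝ] E)) :
    Lam (V × E) :=
  ∑ k ∈ Finset.range (n + 1), cf n a k • (XE w * ThE L ^ (2 * (n - k) + 1) * WE Q ^ k)

theorem ph_PsE (A : U →L[ℝ] V) (n : ℕ) (a : ℝ) (w : E) (L : V →L[ℝ] E)
    (Q : V →L[ℝ] (E →L[ℝ] E)) : ph A (PsE n a w L Q) = PsE n a w (L.comp A) (Q.comp A) := by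
  rw [PsE, map_sum]
  refine Finset.sum_congr rfl fun k _ => ?_
  rw [map_smul, map_mul, map_mul, map_pow, map_pow, ph_XE, ph_ThE, ph_WE]

/-- the angular form, as a function of first order data -/
noncomputable def psD (n : ℕ) (a : ℝ) (o : Lam E) (w : E) (L : V →L[ℝ] E)
    (Q : V →L[ℝ] (E →L[ℝ] E)) : Lam V := res (ct o (PsE n a w L Q))

/-- the Euler form, as a function of first order data -/
noncomputable def chD (n : ℕ) (o : Lam E) (Q : V →L[ℝ] (E →L[ℝ] E)) : Lam V :=
  res (ct o (WE Q ^ (n + 1)))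

theorem pull_psD (A : U →L[ℝ] V) (n : ℕ) (a : ℝ) (o : Lam E) (w : E) (L : V →L[ℝ] E)
    (Q : V →L[ℝ] (E →L[ℝ] E)) : pull A (psD n a o w L Q) =
      psD n a o w (L.comp A) (Q.comp A) := by
  rw [psD, ← res_ph, ← ct_ph, ph_PsE, psD]

theorem pull_chD (A : U →L[ℝ] V) (n : ℕ) (o : Lam E) (Q : V →L[ℝ] (E →L[ℝ] E)) :
    pull A (chD n o Q) = chD n o (Q.comp A) := by
  rw [chD, ← res_ph, ← ct_ph, map_pow, ph_WE, chD]

/-! ### comparison with the frame formula -/

section Comp

variable {m : ℕ}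

/-- the linear map of a family of vectors -/
noncomputable def lf (e : Fin m → E) : (Fin m → ℝ) →L[ℝ] E :=
  ∑ a, (ContinuousLinearMap.proj a : (Fin m → ℝ) →L[ℝ] ℝ).smulRight (e a)

theorem lf_apply (e : Fin m → E) (y : Fin m → ℝ) : lf e y = ∑ a, y a • e a := by
  simp [lf, sum_apply]

theorem lf_single (e : Fin m → E) (a : Fin m) : lf e (Pi.single a 1) = e a := by
  rw [lf_apply, Finset.sum_eq_single a]
  · simp
  · intro b _ hb
    rw [Pi.single_eq_of_ne hb, zero_smul]
  · simp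

theorem vt_sum {ι F : Type*} [NormedAddCommGroup F] [NormedSpace ℝ F] [FiniteDimensional ℝ F]
    (s : Finset ι) (c : ι → ℝ) (β : ι → (F →L[ℝ] ℝ)) :
    (vt (∑ i ∈ s, c i • β i) : Lam (V × F)) = ∑ i ∈ s, c i • vt (β i) := by
  have h : (∑ i ∈ s, c i • β i).comp (ContinuousLinearMap.snd ℝ V F) =
      ∑ i ∈ s, c i • (β i).comp (ContinuousLinearMap.snd ℝ V F) := by
    refine ContinuousLinearMap.ext fun z => ?_
    simp only [ContinuousLinearMap.comp_apply, sum_apply, smul_apply]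
  rw [vt, h, map_sum]
  exact Finset.sum_congr rfl fun i _ => map_smul _ _ _

theorem pv_vt' (e : Fin m → E) (β : E →L[ℝ] ℝ) :
    pv (lf e) (vt β : Lam (V × E)) = ∑ a, β (e a) • ff a := by
  rw [pv_vt]
  have h : β.comp (lf e) = ∑ a, β (e a) • (ContinuousLinearMap.proj a : (Fin m → ℝ) →L[ℝ] ℝ) := by
    refine ContinuousLinearMap.ext fun y => ?_
    simp only [ContinuousLinearMap.comp_apply, sum_apply, smul_apply, lf_apply, map_sum, map_smul,
      ContinuousLinearMap.proj_apply, smul_eq_mul]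
    exact Finset.sum_congr rfl fun a _ => mul_comm _ _
  rw [h, vt_sum]
  rfl

theorem pv_XE {e : Fin m → E} (he : Orthonormal ℝ e) (a : Fin m) :
    pv (lf e) (XE (e a) : Lam (V × E)) = ff a := by
  rw [XE, pv_vt', Finset.sum_eq_single a]
  · rw [innerSL_apply_apply, real_inner_self_eq_norm_sq, he.1, one_pow, one_smul]
  · intro b _ hb
    rw [innerSL_apply_apply, he.2 hb.symm, zero_smul]
  · simp

/-- expansion of a vector in the standard basis -/
theorem comp_eq_sum (w : E) (L : V →L[ℝ] E) : (innerSL ℝ w).comp L =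
    ∑ i, (inner ℝ (stdOrthonormalBasis ℝ E i) w : ℝ) • (bc E i).comp L := by
  refine ContinuousLinearMap.ext fun z => ?_
  rw [sum_apply]
  change (inner ℝ w (L z) : ℝ) = _
  rw [← (stdOrthonormalBasis ℝ E).sum_inner_mul_inner]
  refine Finset.sum_congr rfl fun i _ => ?_
  rw [real_inner_comm]
  rfl

theorem pv_ThE (e : Fin m → E) (L : V →L[ℝ] E) :
    pv (lf e) (ThE L) = ∑ a, hz (dx ((innerSL ℝ (e a)).comp L)) * ff a := by
  rw [ThE, map_sum]
  have h1 : ∀ i, pv (lf e) (hz (dx ((bc E i).comp L)) * vt (bc E i)) =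
      ∑ a, (inner ℝ (stdOrthonormalBasis ℝ E i) (e a) : ℝ) •
        (hz (dx ((bc E i).comp L)) * ff a) := by
    intro i
    rw [map_mul, pv_hz, pv_vt', Finset.mul_sum]
    refine Finset.sum_congr rfl fun a _ => ?_
    rw [mul_smul_comm]
    rfl
  rw [Finset.sum_congr rfl fun i _ => h1 i, Finset.sum_comm]
  refine Finset.sum_congr rfl fun a _ => ?_
  rw [comp_eq_sum, map_sum, map_sum, Finset.sum_mul]
  refine Finset.sum_congr rfl fun i _ => ?_
  rw [map_smul, map_smul, smul_mul_assoc]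

theorem wd_sum_left {ι : Type*} (s : Finset ι) (c : ι → ℝ) (α : ι → (V →L[ℝ] E))
    (β : V →L[ℝ] E) : wd (∑ i ∈ s, c i • α i) β = ∑ i ∈ s, c i • wd (α i) β := by
  simp only [wd, Finset.smul_sum]
  rw [Finset.sum_comm]
  refine Finset.sum_congr rfl fun k _ => ?_
  have h : (innerSL ℝ (stdOrthonormalBasis ℝ E k)).comp (∑ i ∈ s, c i • α i) =
      ∑ i ∈ s, c i • (innerSL ℝ (stdOrthonormalBasis ℝ E k)).comp (α i) := by
    refine ContinuousLinearMap.ext fun z => ?_
    simp only [ContinuousLinearMap.comp_apply, sum_apply, smul_apply, map_sum, map_smul]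
  rw [h, map_sum, Finset.sum_mul]
  refine Finset.sum_congr rfl fun i _ => ?_
  rw [map_smul, smul_mul_assoc]

theorem wd_sum_right {ι : Type*} (s : Finset ι) (c : ι → ℝ) (α : ι → (V →L[ℝ] E))
    (β : V →L[ℝ] E) : wd β (∑ i ∈ s, c i • α i) = ∑ i ∈ s, c i • wd β (α i) := by
  rw [wd_swap, wd_sum_left, ← Finset.sum_neg_distrib]
  refine Finset.sum_congr rfl fun i _ => ?_
  rw [wd_swap (α i), smul_neg, neg_neg]

theorem ap_eq_sum (Q : V →L[ℝ] (E →L[ℝ] E)) (w : E) : ap Q w =
    ∑ i, (inner ℝ (stdOrthonormalBasis ℝ E i) w : ℝ) • ap Q (stdOrthonormalBasis ℝ E i) := by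
  refine ContinuousLinearMap.ext fun z => ?_
  rw [sum_apply, ap_apply]
  conv_lhs => rw [← (stdOrthonormalBasis ℝ E).sum_repr' w]
  rw [map_sum]
  refine Finset.sum_congr rfl fun i _ => ?_
  rw [map_smul]
  rfl

theorem pv_WE (e : Fin m → E) (Q : V →L[ℝ] (E →L[ℝ] E)) :
    pv (lf e) (WE Q) = (1 / 2 : ℝ) • ∑ a, ∑ b, hz (wd (ap Q (e a)) (ap Q (e b))) *
      (ff a * ff b) := by
  rw [WE, map_smul, map_sum]
  congr 1
  have h1 : ∀ i j, pv (lf e) (hz (wd (ap Q (stdOrthonormalBasis ℝ E i))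
      (ap Q (stdOrthonormalBasis ℝ E j))) * (vt (bc E i) * vt (bc E j))) =
      ∑ a, ∑ b, ((inner ℝ (stdOrthonormalBasis ℝ E i) (e a) : ℝ) *
        (inner ℝ (stdOrthonormalBasis ℝ E j) (e b) : ℝ)) •
        (hz (wd (ap Q (stdOrthonormalBasis ℝ E i)) (ap Q (stdOrthonormalBasis ℝ E j))) *
          (ff a * ff b)) := by
    intro i j
    rw [map_mul, pv_hz, map_mul, pv_vt', pv_vt', Finset.sum_mul_sum, Finset.mul_sum]
    refine Finset.sum_congr rfl fun a _ => ?_
    rw [Finset.mul_sum]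
    refine Finset.sum_congr rfl fun b _ => ?_
    rw [smul_mul_smul_comm, mul_smul_comm]
    rfl
  have h2 : ∀ a b, hz (wd (ap Q (e a)) (ap Q (e b))) * (ff a * ff b) =
      ∑ i, ∑ j, ((inner ℝ (stdOrthonormalBasis ℝ E i) (e a) : ℝ) *
        (inner ℝ (stdOrthonormalBasis ℝ E j) (e b) : ℝ)) •
        (hz (wd (ap Q (stdOrthonormalBasis ℝ E i)) (ap Q (stdOrthonormalBasis ℝ E j))) *
          (ff a * ff b : Lam (V × (Fin m → ℝ)))) := by
    intro a b
    conv_lhs => rw [ap_eq_sum Q (e a), ap_eq_sum Q (e b), wd_sum_left]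
    rw [map_sum, Finset.sum_mul]
    refine Finset.sum_congr rfl fun i _ => ?_
    rw [wd_sum_right, Finset.smul_sum, map_sum, Finset.sum_mul]
    refine Finset.sum_congr rfl fun j _ => ?_
    rw [map_smul, map_smul, smul_smul, smul_mul_assoc]
  simp only [map_sum, h1, h2]
  -- reorder the sums
  have h3 : ∀ f : Fin (finrank ℝ E) → Fin (finrank ℝ E) → Fin m → Fin m →
      Lam (V × (Fin m → ℝ)), ∑ i, ∑ j, ∑ a, ∑ b, f i j a b = ∑ a, ∑ b, ∑ i, ∑ j, f i j a b := by
    intro f
    have h4 : ∀ i, ∑ j, ∑ a, ∑ b, f i j a b = ∑ a, ∑ b, ∑ j, f i j a b := by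
      intro i
      rw [Finset.sum_comm]
      refine Finset.sum_congr rfl fun a _ => Finset.sum_comm
    rw [Finset.sum_congr rfl fun i _ => h4 i, Finset.sum_comm]
    refine Finset.sum_congr rfl fun a _ => Finset.sum_comm
  exact h3 _

end Comp

/-- a projection field adapted to a frame -/
structure Adp {m : ℕ} (e : Fin m → V → E) (Q : V → E →L[ℝ] E) (x : V) : Prop where
  ofr : OFr e x
  diff : DifferentiableAt ℝ Q x
  fix : ∀ᶠ y in 𝓝 x, ∀ a, Q y (e a y) = e a y
  eq : ∀ w, Q x w = ∑ c, (inner ℝ (e c x) w : ℝ) • e c x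

section Adp

variable {m : ℕ} {e : Fin m → V → E} {Q : V → E →L[ℝ] E} {x : V}

theorem wd_add_left (α β γ : V →L[ℝ] E) : wd (α + β) γ = wd α γ + wd β γ := by
  simp only [wd, ContinuousLinearMap.comp_add, map_add, add_mul, Finset.sum_add_distrib]

theorem wd_add_right (α β γ : V →L[ℝ] E) : wd γ (α + β) = wd γ α + wd γ β := by
  simp only [wd, ContinuousLinearMap.comp_add, map_add, mul_add, Finset.sum_add_distrib]

theorem wd_smulRight (α : V →L[ℝ] E) (φ : V →L[ℝ] ℝ) (w : E) :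
    wd α (φ.smulRight w) = dx ((innerSL ℝ w).comp α) * dx φ := by
  rw [wd, comp_eq_sum, map_sum, Finset.sum_mul]
  refine Finset.sum_congr rfl fun i _ => ?_
  have h : (innerSL ℝ (stdOrthonormalBasis ℝ E i)).comp (φ.smulRight w) =
      (inner ℝ (stdOrthonormalBasis ℝ E i) w : ℝ) • φ := by
    refine ContinuousLinearMap.ext fun z => ?_
    change (inner ℝ (stdOrthonormalBasis ℝ E i) (φ z • w) : ℝ) = _ * φ z
    rw [inner_smul_right, mul_comm]
  rw [h, map_smul, map_smul, mul_smul_comm, smul_mul_assoc]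

theorem Adp.ap_eq (h : Adp e Q x) (a : Fin m) : ap (fderiv ℝ Q x) (e a x) =
    fderiv ℝ (e a) x + -∑ c, (om e c a x).smulRight (e c x) := by
  have h1 : HasFDerivAt (fun y => Q y (e a y))
      ((Q x).comp (fderiv ℝ (e a) x) + (fderiv ℝ Q x).flip (e a x)) x :=
    h.diff.hasFDerivAt.clm_apply (h.ofr.diff a).hasFDerivAt
  have h2 : (fun y => Q y (e a y)) =ᶠ[𝓝 x] e a := by
    filter_upwards [h.fix] with y hy using hy a
  have h3 := (h1.congr_of_eventuallyEq h2.symm).unique (h.ofr.diff a).hasFDerivAt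
  refine ContinuousLinearMap.ext fun z => ?_
  have h4 := DFunLike.congr_fun h3 z
  change Q x (fderiv ℝ (e a) x z) + fderiv ℝ Q x z (e a x) = fderiv ℝ (e a) x z at h4
  rw [h.eq] at h4
  rw [ap_apply, add_apply, neg_apply, sum_apply]
  change fderiv ℝ Q x z (e a x) = fderiv ℝ (e a) x z +
    -∑ c, (inner ℝ (e c x) (fderiv ℝ (e a) x z) : ℝ) • e c x
  exact eq_add_neg_of_add_eq ((add_comm _ _).trans h4)

theorem wd_neg_left (α β : V →L[ℝ] E) : wd (-α) β = -wd α β := by
  simp only [wd, ContinuousLinearMap.comp_neg, map_neg, neg_mul, Finset.sum_neg_distrib]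

theorem wd_neg_right (α β : V →L[ℝ] E) : wd α (-β) = -wd α β := by
  simp only [wd, ContinuousLinearMap.comp_neg, map_neg, mul_neg, Finset.sum_neg_distrib]

theorem wd_sumr {ι : Type*} (s : Finset ι) (α : ι → (V →L[ℝ] E))
    (β : V →L[ℝ] E) : wd β (∑ i ∈ s, α i) = ∑ i ∈ s, wd β (α i) := by
  have h := wd_sum_right s (fun _ => 1) α β
  simpa only [one_smul] using h

theorem wd_suml {ι : Type*} (s : Finset ι) (α : ι → (V →L[ℝ] E))
    (β : V →L[ℝ] E) : wd (∑ i ∈ s, α i) β = ∑ i ∈ s, wd (α i) β := by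
  have h := wd_sum_left s (fun _ => 1) α β
  simpa only [one_smul] using h

theorem Adp.wd_eq (h : Adp e Q x) (a b : Fin m) :
    wd (ap (fderiv ℝ Q x) (e a x)) (ap (fderiv ℝ Q x) (e b x)) = Om e a b x := by
  have h1 : ∀ c, (innerSL ℝ (e c x)).comp (-∑ d, (om e d a x).smulRight (e d x)) =
      -om e c a x := by
    intro c
    refine ContinuousLinearMap.ext fun z => ?_
    change (inner ℝ (e c x) ((-∑ d, (om e d a x).smulRight (e d x)) z) : ℝ) = -om e c a x z
    rw [neg_apply, sum_apply, inner_neg_right, inner_sum]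
    congr 1
    rw [Finset.sum_eq_single c]
    · change (inner ℝ (e c x) (om e c a x z • e c x) : ℝ) = _
      rw [inner_smul_right, h.ofr.inner_eq, if_pos rfl, mul_one]
    · intro d _ hd
      change (inner ℝ (e c x) (om e d a x z • e d x) : ℝ) = _
      rw [inner_smul_right, h.ofr.inner_eq, if_neg hd.symm, mul_zero]
    · simp
  have h2 : wd (fderiv ℝ (e a) x) (-∑ c, (om e c b x).smulRight (e c x)) =
      -∑ c, dx (om e c a x) * dx (om e c b x) := by
    rw [wd_neg_right, wd_sumr]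
    congr 1
    exact Finset.sum_congr rfl fun c _ => wd_smulRight _ _ _
  have h3 : wd (-∑ c, (om e c a x).smulRight (e c x)) (fderiv ℝ (e b) x) =
      -∑ c, dx (om e c a x) * dx (om e c b x) := by
    rw [wd_neg_left, wd_suml]
    congr 1
    refine Finset.sum_congr rfl fun c _ => ?_
    rw [wd_swap, wd_smulRight, ← dx_anticomm]
    rfl
  have h4 : wd (-∑ c, (om e c a x).smulRight (e c x)) (-∑ c, (om e c b x).smulRight (e c x)) =
      ∑ c, dx (om e c a x) * dx (om e c b x) := by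
    rw [wd_neg_right, wd_sumr, ← Finset.sum_neg_distrib]
    refine Finset.sum_congr rfl fun c _ => ?_
    rw [wd_smulRight, h1, map_neg, neg_mul, neg_neg]
  rw [h.ap_eq, h.ap_eq, wd_add_left, wd_add_right, wd_add_right, h2, h3, h4, h.ofr.Om_eq,
    add_assoc]
  congr 1
  rw [neg_add_cancel, add_zero, ← Finset.sum_neg_distrib]
  refine Finset.sum_congr rfl fun c _ => ?_
  rw [h.ofr.om_skew a c, map_neg, neg_mul]

end Adp

section Final

variable {n : ℕ} {e : Fin (2 * n + 2) → V → E} {Q : V → E →L[ℝ] E} {x : V}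

theorem Adp.pv_W (h : Adp e Q x) :
    pv (lf fun a => e a x) (WE (fderiv ℝ Q x)) = WF e x := by
  rw [pv_WE, WF]
  congr 1
  refine Finset.sum_congr rfl fun a _ => Finset.sum_congr rfl fun b _ => ?_
  rw [h.wd_eq]

theorem Adp.pv_Psi (h : Adp e Q x) (a : ℝ) :
    pv (lf fun a => e a x) (PsE n a (e 0 x) (fderiv ℝ (e 0) x) (fderiv ℝ Q x)) =
      Psi a (ThF e x) (WF e x) := by
  rw [PsE, map_sum, Psi]
  refine Finset.sum_congr rfl fun k _ => ?_
  rw [map_smul, map_mul, map_mul, map_pow, map_pow, h.pv_W,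
    pv_XE (e := fun a => e a x) h.ofr.on.self_of_nhds 0, pv_ThE]
  rfl

/-- the Berezin integral in a frame is a contraction -/
theorem bz_pv {m : ℕ} (e : Fin m → E) (η : Lam (V × E)) :
    bz (pv (lf e) η) = res (ct (wdg e) η) := by
  have h1 : ∀ l : List (Fin m → ℝ), ∀ η : Lam (V × E),
      TTl l (pv (lf e) η) = pv (lf e) (TTl (l.map (lf e)) η) := by
    intro l
    induction l with
    | nil => intro η; rfl
    | cons w l ih => intro η; rw [TTl_cons, ih, iv_pv, List.map_cons, TTl_cons]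
  have h2 : (bl m).map (lf e) = List.ofFn e := by
    rw [bl, List.map_ofFn]
    congr 1
    funext a
    exact lf_single e a
  rw [bz, TT, h1, res_pv, h2, ct_wdg]

theorem Adp.bz_W (h : Adp e Q x) : bz (WF e x ^ (n + 1)) =
    chD n (wdg fun a => e a x) (fderiv ℝ Q x) := by
  rw [← h.pv_W, ← map_pow, bz_pv]
  rfl

theorem Adp.bz_Psi (h : Adp e Q x) (a : ℝ) : bz (Psi a (ThF e x) (WF e x)) =
    psD n a (wdg fun a => e a x) (e 0 x) (fderiv ℝ (e 0) x) (fderiv ℝ Q x) := by
  rw [← h.pv_Psi, bz_pv]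
  rfl

end Final

end Vale.Agent.P231.FE
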