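import Vale.Agent.P231.FE.Trans
import Vale.Agent.P231.FE.Defs
import Vale.Agent.P231.Fm.Dif

/-!
# P231, block S2-F (3): the structure equations of an orthonormal frame
-/

set_option linter.unusedSectionVars false

open Module Filter Topology
open scoped ContDiff

namespace Vale.Agent.P231.FE

open Vale.Agent.P231.Fm

variable {V : Type*} [NormedAddCommGroup V] [NormedSpace ℝ V] [FiniteDimensional ℝ V]
variable {E : Type*} [NormedAddCommGroup E] [InnerProductSpace ℝ E] [FiniteDimensional ℝ E]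

/-- wedge product of two vector valued one-forms -/
noncomputable def wd (α β : V →L[ℝ] E) : Lam V :=
  ∑ i, dx ((innerSL ℝ (stdOrthonormalBasis ℝ E i)).comp α) *
    dx ((innerSL ℝ (stdOrthonormalBasis ℝ E i)).comp β)

theorem wd_swap (α β : V →L[ℝ] E) : wd α β = -wd β α := by
  rw [wd, wd, ← Finset.sum_neg_distrib]
  exact Finset.sum_congr rfl fun i _ => dx_anticomm _ _

theorem inv_wd (α β : V →L[ℝ] E) : inv (wd α β) = wd α β := by
  rw [wd, map_sum]
  exact Finset.sum_congr rfl fun i _ => by rw [map_mul, inv_dx, inv_dx, neg_mul_neg]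

/-- the differential of a function is closed -/
theorem extd_dx_fderiv {g : V → ℝ} {x : V} (hg : Sm g x) :
    extd (fun y => dx (fderiv ℝ g y)) x = 0 := by
  have h1 : (fun y => dx (fderiv ℝ g y)) =ᶠ[𝓝 x] extd (fn g) := by
    filter_upwards [hg] with y hy
    exact (extd_fn (hy.differentiableAt (by simp))).symm
  rw [extd_congr h1]
  refine extd_extd ?_
  have h2 : ContDiffAt ℝ ∞ (fn g) x := by
    have h3 : fn g = fun y => g y • (1 : Lam V) := by
      funext y
      rw [fn, Algebra.algebraMap_eq_smul_one]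
    rw [h3]
    exact ContDiffAt.smul hg.self_of_nhds (contDiffAt_const (c := (1 : Lam V)))
  exact h2.of_le two_le_infty

section Frame

variable {m : ℕ} {e : Fin m → V → E} {x : V}

/-- connection one-forms -/
noncomputable def om (e : Fin m → V → E) (a b : Fin m) (y : V) : V →L[ℝ] ℝ :=
  (innerSL ℝ (e a y)).comp (fderiv ℝ (e b) y)

/-- curvature forms -/
noncomputable def Om (e : Fin m → V → E) (a b : Fin m) (y : V) : Lam V :=
  extd (fun z => dx (om e a b z)) y + ∑ c, dx (om e a c y) * dx (om e c b y)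

/-- a smooth orthonormal frame near `x` -/
structure OFr (e : Fin m → V → E) (x : V) : Prop where
  sm : ∀ a, Sm (e a) x
  on : ∀ᶠ y in 𝓝 x, Orthonormal ℝ (fun a => e a y)

theorem OFr.eventually (h : OFr e x) : ∀ᶠ y in 𝓝 x, OFr e y := by
  have h1 : ∀ᶠ y in 𝓝 x, ∀ a, Sm (e a) y :=
    Filter.eventually_all.2 fun a => Filter.Eventually.eventually_nhds (h.sm a)
  filter_upwards [h1, Filter.Eventually.eventually_nhds h.on] with y hy1 hy2 using ⟨hy1, hy2⟩

theorem OFr.diff (h : OFr e x) (a : Fin m) : DifferentiableAt ℝ (e a) x :=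
  (h.sm a).self_of_nhds.differentiableAt (by simp)

theorem OFr.sm_om (h : OFr e x) (a b : Fin m) : ContDiffAt ℝ ∞ (fun y => om e a b y) x := by
  have h1 : ContDiffAt ℝ ∞ (fun y => innerSL ℝ (e a y)) x :=
    (innerSL ℝ).contDiff.contDiffAt.comp x (h.sm a).self_of_nhds
  exact h1.clm_comp ((h.sm b).self_of_nhds.fderiv_right (by simp))

theorem OFr.sm_dom (h : OFr e x) (a b : Fin m) :
    ContDiffAt ℝ ∞ (fun y => dx (om e a b y)) x :=
  (dx (E := V)).contDiff.contDiffAt.comp x (h.sm_om a b)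

theorem OFr.diff_dom (h : OFr e x) (a b : Fin m) :
    DifferentiableAt ℝ (fun y => dx (om e a b y)) x :=
  (h.sm_dom a b).differentiableAt (by simp)

theorem OFr.inner_eq (h : OFr e x) (a b : Fin m) :
    inner ℝ (e a x) (e b x) = if a = b then (1 : ℝ) else 0 :=
  orthonormal_iff_ite.1 h.on.self_of_nhds a b

theorem OFr.om_skew (h : OFr e x) (a b : Fin m) : om e a b x = -om e b a x := by
  have h1 := (h.diff a).hasFDerivAt.inner ℝ (h.diff b).hasFDerivAt
  have h2 : (fun y => inner ℝ (e a y) (e b y)) =ᶠ[𝓝 x] fun _ => if a = b then (1 : ℝ) else 0 := by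
    filter_upwards [h.on] with y hy
    exact orthonormal_iff_ite.1 hy a b
  have h3 := h1.congr_of_eventuallyEq h2.symm
  have h4 := h3.unique (hasFDerivAt_const (if a = b then (1 : ℝ) else 0) x)
  ext z
  have h5 := DFunLike.congr_fun h4 z
  simp at h5
  change inner ℝ (e a x) (fderiv ℝ (e b) x z) = -inner ℝ (e b x) (fderiv ℝ (e a) x z)
  rw [real_inner_comm (fderiv ℝ (e a) x z)]
  linarith only [h5]

theorem OFr.om_diag (h : OFr e x) (a : Fin m) : om e a a x = 0 := by
  have h1 := h.om_skew a a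
  have h2 : (2 : ℝ) • om e a a x = 0 := by
    rw [two_smul]
    nth_rewrite 1 [h1]
    exact neg_add_cancel _
  exact (smul_eq_zero.1 h2).resolve_left two_ne_zero

theorem om_eq_sum (a b : Fin m) (y : V) : om e a b y =
    ∑ i, (inner ℝ (stdOrthonormalBasis ℝ E i) (e a y) : ℝ) •
      (innerSL ℝ (stdOrthonormalBasis ℝ E i)).comp (fderiv ℝ (e b) y) := by
  ext z
  change inner ℝ (e a y) (fderiv ℝ (e b) y z) = _
  rw [← (stdOrthonormalBasis ℝ E).sum_inner_mul_inner, sum_apply]
  refine Finset.sum_congr rfl fun i _ => ?_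
  change _ = (inner ℝ (stdOrthonormalBasis ℝ E i) (e a y) : ℝ) *
    inner ℝ (stdOrthonormalBasis ℝ E i) (fderiv ℝ (e b) y z)
  rw [real_inner_comm (stdOrthonormalBasis ℝ E i) (e a y)]

theorem OFr.extd_om (h : OFr e x) (a b : Fin m) :
    extd (fun z => dx (om e a b z)) x = wd (fderiv ℝ (e a) x) (fderiv ℝ (e b) x) := by
  have h1 : (fun z => dx (om e a b z)) = fun z =>
      ∑ i, (inner ℝ (stdOrthonormalBasis ℝ E i) (e a z) : ℝ) •
        dx ((innerSL ℝ (stdOrthonormalBasis ℝ E i)).comp (fderiv ℝ (e b) z)) := by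
    funext z
    rw [om_eq_sum, map_sum]
    exact Finset.sum_congr rfl fun i _ => map_smul _ _ _
  have hg : ∀ c : Fin m, ∀ i, Sm (fun y => (inner ℝ (stdOrthonormalBasis ℝ E i) (e c y) : ℝ)) x :=
    fun c i => (h.sm c).mono fun y hy => contDiffAt_const.inner ℝ hy
  have hf : ∀ c : Fin m, ∀ i, ∀ᶠ z in 𝓝 x,
      fderiv ℝ (fun y => (inner ℝ (stdOrthonormalBasis ℝ E i) (e c y) : ℝ)) z =
        (innerSL ℝ (stdOrthonormalBasis ℝ E i)).comp (fderiv ℝ (e c) z) := by
    intro c i
    filter_upwards [h.sm c] with z hz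
    exact ((innerSL ℝ (stdOrthonormalBasis ℝ E i)).hasFDerivAt.comp z
      (hz.differentiableAt (by simp)).hasFDerivAt).fderiv
  have hd : ∀ i, DifferentiableAt ℝ (fun z =>
      dx ((innerSL ℝ (stdOrthonormalBasis ℝ E i)).comp (fderiv ℝ (e b) z))) x := by
    intro i
    have h2 : ContDiffAt ℝ ∞ (fun z =>
        (innerSL ℝ (stdOrthonormalBasis ℝ E i)).comp (fderiv ℝ (e b) z)) x :=
      contDiffAt_const.clm_comp ((h.sm b).self_of_nhds.fderiv_right (by simp))
    exact ((dx (E := V)).contDiff.contDiffAt.comp x h2).differentiableAt (by simp)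
  rw [h1, extd_sum, wd]
  · refine Finset.sum_congr rfl fun i _ => ?_
    rw [extd_smul ((hg a i).self_of_nhds.differentiableAt (by simp)) (hd i),
      (hf a i).self_of_nhds]
    have h3 : extd (fun z =>
        dx ((innerSL ℝ (stdOrthonormalBasis ℝ E i)).comp (fderiv ℝ (e b) z))) x = 0 := by
      rw [← extd_dx_fderiv (hg b i)]
      refine extd_congr ?_
      filter_upwards [hf b i] with z hz
      rw [hz]
    rw [h3, smul_zero, add_zero]
  · intro i _
    exact ((hg a i).self_of_nhds.differentiableAt (by simp)).smul (hd i)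

theorem OFr.Om_eq (h : OFr e x) (a b : Fin m) : Om e a b x =
    wd (fderiv ℝ (e a) x) (fderiv ℝ (e b) x) + ∑ c, dx (om e a c x) * dx (om e c b x) := by
  rw [Om, h.extd_om]

theorem OFr.Om_skew (h : OFr e x) (a b : Fin m) : Om e a b x = -Om e b a x := by
  rw [h.Om_eq, h.Om_eq, wd_swap, neg_add, ← Finset.sum_neg_distrib]
  congr 1
  refine Finset.sum_congr rfl fun c _ => ?_
  rw [h.om_skew a c, h.om_skew c b, map_neg, map_neg, neg_mul_neg, dx_anticomm]

theorem OFr.inv_Om (h : OFr e x) (a b : Fin m) : inv (Om e a b x) = Om e a b x := by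
  rw [h.Om_eq, map_add, inv_wd, map_sum]
  congr 1
  exact Finset.sum_congr rfl fun i _ => by rw [map_mul, inv_dx, inv_dx, neg_mul_neg]

theorem OFr.sm_Om (h : OFr e x) (a b : Fin m) : ContDiffAt ℝ ∞ (fun y => Om e a b y) x := by
  have h1 : ContDiffAt ℝ ∞ (extd (fun z => dx (om e a b z))) x :=
    contDiffAt_extd (h.sm_dom a b) (by simp)
  exact h1.add (ContDiffAt.sum fun c _ => (h.sm_dom a c).mul (h.sm_dom c b))

/-- **the Bianchi identity** -/
theorem OFr.bianchi (h : OFr e x) (a b : Fin m) : extd (fun y => Om e a b y) x =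
    ∑ c, (Om e a c x * dx (om e c b x) - dx (om e a c x) * Om e c b x) := by
  have h1 : ContDiffAt ℝ ∞ (extd (fun z => dx (om e a b z))) x :=
    contDiffAt_extd (h.sm_dom a b) (by simp)
  have hd : ∀ c, DifferentiableAt ℝ (fun y => dx (om e a c y) * dx (om e c b y)) x :=
    fun c => (h.diff_dom a c).mul (h.diff_dom c b)
  have h2 : extd (fun y => Om e a b y) x =
      ∑ c, (extd (fun z => dx (om e a c z)) x * dx (om e c b x) -
        dx (om e a c x) * extd (fun z => dx (om e c b z)) x) := by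
    change extd (fun y => extd (fun z => dx (om e a b z)) y +
      ∑ c, dx (om e a c y) * dx (om e c b y)) x = _
    rw [extd_add (h1.differentiableAt (by simp)) (DifferentiableAt.fun_sum fun c _ => hd c),
      extd_sum _ fun c _ => hd c]
    have h3 : extd (extd (fun z => dx (om e a b z))) x = 0 :=
      extd_extd ((h.sm_dom a b).of_le two_le_infty)
    rw [h3, zero_add]
    refine Finset.sum_congr rfl fun c _ => ?_
    rw [extd_mul (h.diff_dom a c) (h.diff_dom c b), inv_dx]
    noncomm_ring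
  rw [h2]
  let w : Matrix (Fin m) (Fin m) (Lam V) := fun a b => dx (om e a b x)
  let δ : Matrix (Fin m) (Fin m) (Lam V) := fun a b => extd (fun z => dx (om e a b z)) x
  have h4 : ∀ a b, Om e a b x = (δ + w * w) a b := fun a b => by
    rw [Matrix.add_apply, Matrix.mul_apply]
    rfl
  have h5 : ∀ A B : Matrix (Fin m) (Fin m) (Lam V), ∑ c, (A a c * B c b) = (A * B) a b :=
    fun A B => (Matrix.mul_apply).symm
  rw [Finset.sum_sub_distrib, Finset.sum_sub_distrib]
  simp only [h4]
  have h6 := h5 δ w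
  have h7 := h5 w δ
  have h8 := h5 (δ + w * w) w
  have h9 := h5 w (δ + w * w)
  change ∑ c, δ a c * w c b - ∑ c, w a c * δ c b =
    ∑ c, (δ + w * w) a c * w c b - ∑ c, w a c * (δ + w * w) c b
  have h10 : δ * w - w * δ = (δ + w * w) * w - w * (δ + w * w) := by
    rw [add_mul, mul_add, mul_assoc]
    abel
  rw [h6, h7, h8, h9, ← Matrix.sub_apply, ← Matrix.sub_apply, h10]

end Frame

/-! ### the forms `Θ` and `W` -/

section TW

variable {n : ℕ} {e : Fin (2 * n + 2) → V → E} {x : V}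

/-- the covariant derivative of the tautological section -/
noncomputable def ThF (e : Fin (2 * n + 2) → V → E) (y : V) :
    Lam (V × (Fin (2 * n + 2) → ℝ)) := ∑ a, hz (dx (om e a 0 y)) * ff a

/-- the curvature element -/
noncomputable def WF (e : Fin (2 * n + 2) → V → E) (y : V) :
    Lam (V × (Fin (2 * n + 2) → ℝ)) := (1 / 2 : ℝ) • ∑ a, ∑ b, hz (Om e a b y) * (ff a * ff b)

theorem sum3_swap {ι A : Type*} [Fintype ι] [AddCommMonoid A] (f : ι → ι → ι → A) :
    ∑ a, ∑ b, ∑ c, f a b c = ∑ a, ∑ b, ∑ c, f c b a := by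
  rw [Finset.sum_comm]
  conv_rhs => rw [Finset.sum_comm]
  refine Finset.sum_congr rfl fun b _ => ?_
  rw [Finset.sum_comm]

theorem OFr.diff_Th (h : OFr e x) : DifferentiableAt ℝ (ThF e) x :=
  DifferentiableAt.fun_sum fun a _ =>
    (diff_hz (h.diff_dom a 0)).mul (differentiableAt_const _)

theorem OFr.diff_hOm (h : OFr e x) (a b : Fin (2 * n + 2)) : DifferentiableAt ℝ
    (fun y => hz (Om e a b y) * (ff a * ff b : Lam (V × (Fin (2 * n + 2) → ℝ)))) x :=
  (diff_hz ((h.sm_Om a b).differentiableAt (by simp))).mul (differentiableAt_const _)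

theorem OFr.diff_W (h : OFr e x) : DifferentiableAt ℝ (WF e) x :=
  DifferentiableAt.fun_const_smul (DifferentiableAt.fun_sum fun a _ =>
    DifferentiableAt.fun_sum fun b _ => h.diff_hOm a b) _

theorem inv_ThF : inv (ThF e x) = ThF e x := by
  rw [ThF, map_sum]
  exact Finset.sum_congr rfl fun a _ => by
    rw [map_mul, inv_hz, inv_dx, inv_ff, map_neg, neg_mul_neg]

theorem OFr.inv_WF (h : OFr e x) : inv (WF e x) = WF e x := by
  rw [WF, map_smul, map_sum]
  congr 1
  refine Finset.sum_congr rfl fun a _ => ?_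
  rw [map_sum]
  exact Finset.sum_congr rfl fun b _ => by
    rw [map_mul, inv_hz, h.inv_Om, map_mul, inv_ff, inv_ff, neg_mul_neg]

/-- the connection matrix at a point -/
noncomputable def cm (e : Fin (2 * n + 2) → V → E) (x : V) (a b : Fin (2 * n + 2)) : Lam V :=
  dx (om e a b x)

theorem inv_cm (a b : Fin (2 * n + 2)) : inv (cm e x a b) = -cm e x a b := inv_dx _

theorem OFr.DD_term (h : OFr e x) (a : Fin (2 * n + 2)) :
    DD (cm e x) (fun y => hz (dx (om e a 0 y)) * ff a) x =
      hz (extd (fun z => dx (om e a 0 z)) x) * ff a +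
        ∑ c, hz (dx (om e c a x) * dx (om e a 0 x)) * ff c := by
  rw [DD_mul inv_cm (diff_hz (h.diff_dom a 0)) (differentiableAt_const _),
    DD, dd_hz (h.diff_dom a 0), NN_hz, add_zero, DD, dd_const, zero_add, NN_ff, inv_hz,
    inv_dx, Finset.mul_sum]
  congr 1
  refine Finset.sum_congr rfl fun c _ => ?_
  rw [cm, ← mul_assoc, ← map_mul, neg_mul, ← dx_anticomm]

theorem OFr.DD_Th (h : OFr e x) : DD (cm e x) (ThF e) x = ∑ a, hz (Om e a 0 x) * ff a := by
  have e2 : DD (cm e x) (ThF e) x = ∑ a,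
      DD (cm e x) (fun y => hz (dx (om e a 0 y)) * ff a) x :=
    DD_sum _ fun a _ => (diff_hz (h.diff_dom a 0)).mul (differentiableAt_const _)
  rw [e2, Finset.sum_congr rfl fun a _ => h.DD_term a, Finset.sum_add_distrib,
    Finset.sum_comm (γ := Fin (2 * n + 2)), ← Finset.sum_add_distrib]
  refine Finset.sum_congr rfl fun a _ => ?_
  rw [Om, map_add, add_mul, map_sum, Finset.sum_mul]

theorem OFr.ii_W (h : OFr e x) : ii 0 (WF e x) = -∑ a, hz (Om e a 0 x) * ff a := by
  have e4 : ii 0 (WF e x) = (1 / 2 : ℝ) • (∑ b, hz (Om e 0 b x) * ff b -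
      ∑ a, hz (Om e a 0 x) * ff a) := by
    rw [WF, map_smul]
    congr 1
    rw [map_sum]
    have e5 : ∀ a b, ii 0 (hz (Om e a b x) * (ff a * ff b)) =
        (if (0 : Fin (2 * n + 2)) = a then hz (Om e a b x) * ff b else 0) -
          if (0 : Fin (2 * n + 2)) = b then hz (Om e a b x) * ff a else 0 := by
      intro a b
      rw [ii, iv_hz_mul, h.inv_Om, ← ii, ii_ff_mul, ii_ff, mul_sub]
      congr 1
      · split_ifs <;> simp
      · split_ifs <;> simp
    simp only [map_sum, e5, Finset.sum_sub_distrib]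
    congr 1
    · rw [Finset.sum_comm]
      simp
    · simp
  have e6 : ∑ b, hz (Om e 0 b x) * (ff b : Lam (V × (Fin (2 * n + 2) → ℝ))) =
      -∑ b, hz (Om e b 0 x) * ff b := by
    rw [← Finset.sum_neg_distrib]
    refine Finset.sum_congr rfl fun b _ => ?_
    rw [h.Om_skew 0 b, map_neg, neg_mul]
  rw [e4, e6]
  module

theorem OFr.DD_Wterm (h : OFr e x) (a b : Fin (2 * n + 2)) :
    DD (cm e x) (fun y => hz (Om e a b y) *
      (ff a * ff b : Lam (V × (Fin (2 * n + 2) → ℝ)))) x =
        (∑ c, hz (Om e a c x * dx (om e c b x) - dx (om e a c x) * Om e c b x) *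
          (ff a * ff b)) +
        ((∑ c, hz (dx (om e c a x) * Om e a b x) * (ff c * ff b)) -
          ∑ c, hz (Om e a b x * dx (om e b c x)) * (ff a * ff c)) := by
  rw [DD_mul inv_cm
    (diff_hz ((h.sm_Om a b).differentiableAt (by simp))) (differentiableAt_const _),
    DD, dd_hz ((h.sm_Om a b).differentiableAt (by simp)), NN_hz, add_zero, h.bianchi,
    DD, dd_const, zero_add, NN_mul inv_cm, NN_ff, NN_ff, inv_hz, h.inv_Om,
    inv_ff, mul_add, map_sum, Finset.sum_mul, Finset.sum_mul, Finset.mul_sum,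
    Finset.mul_sum, Finset.mul_sum]
  congr 1
  rw [sub_eq_add_neg, ← Finset.sum_neg_distrib]
  congr 1
  · refine Finset.sum_congr rfl fun c _ => ?_
    rw [cm, ← mul_comm_of_even (h.inv_Om a b), map_mul]
    simp only [mul_assoc]
  · refine Finset.sum_congr rfl fun c _ => ?_
    have e5 : (hz (dx (om e c b x)) : Lam (V × (Fin (2 * n + 2) → ℝ))) * ff a =
        -(ff a * hz (dx (om e c b x))) := by
      rw [mul_of_odd (by rw [inv_hz, inv_dx, map_neg]), inv_ff, neg_mul]
    have e4 : -(ff a : Lam (V × (Fin (2 * n + 2) → ℝ))) * (hz (dx (om e c b x)) * ff c) =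
        -(hz (dx (om e b c x)) * (ff a * ff c)) := by
      rw [h.om_skew b c, map_neg, map_neg, neg_mul, neg_mul, neg_neg, ← mul_assoc,
        ← mul_assoc, e5, neg_mul]
    rw [cm, e4, mul_neg, map_mul, mul_assoc]

theorem OFr.DD_W (h : OFr e x) : DD (cm e x) (WF e) x = 0 := by
  have e1 : DD (cm e x) (WF e) x = (1 / 2 : ℝ) • ∑ a, ∑ b,
      DD (cm e x) (fun y => hz (Om e a b y) * (ff a * ff b)) x := by
    have e2 : DD (cm e x) (WF e) x = (1 / 2 : ℝ) •
        DD (cm e x) (fun y => ∑ a, ∑ b, hz (Om e a b y) *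
          (ff a * ff b : Lam (V × (Fin (2 * n + 2) → ℝ)))) x :=
      DD_smul _ (DifferentiableAt.fun_sum fun a _ => DifferentiableAt.fun_sum fun b _ =>
        h.diff_hOm a b)
    rw [e2, DD_sum _ fun a _ => DifferentiableAt.fun_sum fun b _ => h.diff_hOm a b]
    congr 1
    refine Finset.sum_congr rfl fun a _ => ?_
    rw [DD_sum _ fun b _ => h.diff_hOm a b]
  rw [e1]
  have e3 : ∀ a b, DD (cm e x) (fun y => hz (Om e a b y) *
      (ff a * ff b : Lam (V × (Fin (2 * n + 2) → ℝ)))) x = _ := fun a b => h.DD_Wterm a b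
  simp only [e3, Finset.sum_add_distrib, Finset.sum_sub_distrib]
  have e6 : ∑ a, ∑ b, ∑ c, hz (dx (om e c a x) * Om e a b x) *
      (ff c * ff b : Lam (V × (Fin (2 * n + 2) → ℝ))) =
      ∑ a, ∑ b, ∑ c, hz (dx (om e a c x) * Om e c b x) * (ff a * ff b) :=
    sum3_swap (fun a b c => hz (dx (om e c a x) * Om e a b x) *
      (ff c * ff b : Lam (V × (Fin (2 * n + 2) → ℝ))))
  have e7 : ∑ a, ∑ b, ∑ c, hz (Om e a b x * dx (om e b c x)) *
      (ff a * ff c : Lam (V × (Fin (2 * n + 2) → ℝ))) =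
      ∑ a, ∑ b, ∑ c, hz (Om e a c x * dx (om e c b x)) * (ff a * ff b) := by
    refine Finset.sum_congr rfl fun a _ => ?_
    rw [Finset.sum_comm]
  rw [e6, e7]
  simp only [map_sub, sub_mul, Finset.sum_sub_distrib]
  rw [sub_add_sub_cancel, sub_self, smul_zero]

theorem OFr.ii_Th (h : OFr e x) : ii 0 (ThF e x) = 0 := by
  rw [ThF, map_sum]
  refine Finset.sum_eq_zero fun a _ => ?_
  rw [ii, iv_hz_mul, ← ii, ii_ff]
  by_cases h1 : 0 = a
  · subst h1
    rw [h.om_diag, map_zero, map_zero, map_zero, zero_mul]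
  · rw [if_neg h1, mul_zero]

theorem OFr.se (h : OFr e x) : SE (cm e x) (ThF e) (WF e) x where
  odd := inv_cm
  diag a := by rw [cm, h.om_diag, map_zero]
  dΘ := h.diff_Th
  dW := h.diff_W
  eΘ := inv_ThF
  eW := h.inv_WF
  h0 := NN_ff 0
  h1 := by rw [h.DD_Th, h.ii_W, neg_neg]
  h2 := h.DD_W
  h3 := h.ii_Th

/-- **Chern's transgression formula in an orthonormal frame** -/
theorem OFr.extd_psi (h : OFr e x) (a : ℝ) :
    extd (fun y => bz (Psi a (ThF e y) (WF e y))) x =
      -(cf n a (n + 1)) • bz (WF e x ^ (n + 1)) := extd_bz_Psi h.se a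

end TW

end Vale.Agent.P231.FE
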