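import Vale.Agent.P231.WF.Deg

/-!
# P231, block S2-F (1): vertical contractions on `Lam (V × F)`

`F` is an auxiliary vector space; forms on `V × F` with coefficients depending on `x : V` only are
functions `V → Lam (V × F)`.
-/

set_option linter.unusedSectionVars false

open Module
open scoped ContDiff

namespace Vale.Agent.P231.FE

open Vale.Agent.P231.Fm

section Gen

variable {V : Type*} [NormedAddCommGroup V] [NormedSpace ℝ V] [FiniteDimensional ℝ V]
variable {F : Type*} [NormedAddCommGroup F] [NormedSpace ℝ F] [FiniteDimensional ℝ F]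
variable {G : Type*} [NormedAddCommGroup G] [NormedSpace ℝ G] [FiniteDimensional ℝ G]
variable {U : Type*} [NormedAddCommGroup U] [NormedSpace ℝ U] [FiniteDimensional ℝ U]

/-- horizontal forms -/
noncomputable def hz : Lam V →ₐ[ℝ] Lam (V × F) := pull (ContinuousLinearMap.fst ℝ V F)

/-- vertical one-forms -/
noncomputable def vt (a : F →L[ℝ] ℝ) : Lam (V × F) := dx (a.comp (ContinuousLinearMap.snd ℝ V F))

/-- contraction with a vertical vector -/
noncomputable def iv (w : F) : Lam (V × F) →ₗ[ℝ] Lam (V × F) := iprod ((0 : V), w)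

/-- restriction to the zero section -/
noncomputable def res : Lam (V × F) →ₐ[ℝ] Lam V := pull (ContinuousLinearMap.inl ℝ V F)

/-- exterior derivative of forms with coefficients depending on `x : V` only -/
noncomputable def dd (η : V → Lam (V × F)) (x : V) : Lam (V × F) :=
  dLin (fderiv ℝ η x ∘L ContinuousLinearMap.fst ℝ V F)

theorem inv_vt (a : F →L[ℝ] ℝ) : inv (vt a : Lam (V × F)) = -vt a := inv_dx _

theorem inv_hz (w : Lam V) : inv (hz w : Lam (V × F)) = hz (inv w) := (pull_inv _ _).symm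

theorem iv_mul (w : F) (η ζ : Lam (V × F)) : iv w (η * ζ) = iv w η * ζ + inv η * iv w ζ :=
  iprod_mul _ _ _

theorem iv_hz (w : F) (v : Lam V) : iv w (hz v) = 0 := by
  rw [iv, hz, pull_iprod]
  have : (ContinuousLinearMap.fst ℝ V F) ((0 : V), w) = 0 := rfl
  rw [this]
  induction v using Lam.ind with
  | h1 r => simp [iprod_algebraMap]
  | h2 a => simp
  | h3 a b ha hb =>
    rw [iprod_mul, map_add, map_mul, map_mul, ha, hb, zero_mul, mul_zero, add_zero]
  | h4 a b ha hb => rw [map_add, map_add, ha, hb, add_zero]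

theorem iv_hz_mul (w : F) (v : Lam V) (η : Lam (V × F)) :
    iv w (hz v * η) = hz (inv v) * iv w η := by
  rw [iv_mul, iv_hz, zero_mul, zero_add, inv_hz]

theorem iv_vt (w : F) (a : F →L[ℝ] ℝ) : iv w (vt a : Lam (V × F)) = algebraMap ℝ _ (a w) := by
  rw [iv, vt, iprod_dx]
  rfl

theorem iv_iv_swap (v w : F) (η : Lam (V × F)) : iv v (iv w η) = -iv w (iv v η) := by
  rw [iv, iv]
  exact CliffordAlgebra.contractLeft_comm (Q := (0 : QuadraticForm ℝ (V × F →L[ℝ] ℝ))) _ _ _

theorem iv_iv (w : F) (η : Lam (V × F)) : iv w (iv w η) = 0 :=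
  CliffordAlgebra.contractLeft_contractLeft (Q := (0 : QuadraticForm ℝ (V × F →L[ℝ] ℝ))) _ _

theorem iv_smul (c : ℝ) (w : F) (η : Lam (V × F)) : iv (c • w) η = c • iv w η := by
  have h : ((0 : V), c • w) = c • ((0 : V), w) := by rw [Prod.smul_mk, smul_zero]
  rw [iv, iv, h]
  induction η using Lam.ind with
  | h1 r => simp [iprod_algebraMap]
  | h2 a => rw [iprod_dx, iprod_dx, map_smul, smul_eq_mul, map_mul, ← Algebra.smul_def]
  | h3 a b ha hb => rw [iprod_mul, iprod_mul, ha, hb, smul_add, smul_mul_assoc, mul_smul_comm]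
  | h4 a b ha hb => rw [map_add, map_add, ha, hb, smul_add]

theorem iv_add (v w : F) (η : Lam (V × F)) : iv (v + w) η = iv v η + iv w η := by
  have h : ((0 : V), v + w) = ((0 : V), v) + ((0 : V), w) := by rw [Prod.mk_add_mk, zero_add]
  rw [iv, iv, iv, h]
  induction η using Lam.ind with
  | h1 r => simp [iprod_algebraMap]
  | h2 a => rw [iprod_dx, iprod_dx, iprod_dx, map_add, map_add]
  | h3 a b ha hb =>
    simp only [iprod_mul, ha, hb]
    noncomm_ring
  | h4 a b ha hb => simp only [map_add, ha, hb]; abel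

theorem res_hz (w : Lam V) : (res (hz w : Lam (V × F)) : Lam V) = w := by
  rw [res, hz, ← pull_comp_apply, ContinuousLinearMap.fst_comp_inl, pull_id]
  rfl

theorem hz_dx (a : V →L[ℝ] ℝ) :
    (hz (dx a) : Lam (V × F)) = dx (a.comp (ContinuousLinearMap.fst ℝ V F)) := pull_dx _ _

/-! ### the derivative `dd` -/

theorem dd_of {η : V → Lam (V × F)} {η' : V →L[ℝ] Lam (V × F)} {x : V}
    (h : HasFDerivAt η η' x) : dd η x = dLin (η' ∘L ContinuousLinearMap.fst ℝ V F) := by
  rw [dd, h.fderiv]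

theorem dd_congr {η ζ : V → Lam (V × F)} {x : V} (h : η =ᶠ[nhds x] ζ) : dd η x = dd ζ x := by
  unfold dd
  rw [h.fderiv_eq]

theorem dd_const (c : Lam (V × F)) (x : V) : dd (fun _ : V => c) x = 0 := by
  simp [dd]

theorem dd_add {η ζ : V → Lam (V × F)} {x : V} (hη : DifferentiableAt ℝ η x)
    (hζ : DifferentiableAt ℝ ζ x) : dd (fun y => η y + ζ y) x = dd η x + dd ζ x := by
  rw [dd_of (hη.hasFDerivAt.fun_add hζ.hasFDerivAt), ContinuousLinearMap.add_comp, map_add]
  rfl

theorem dd_sum {ι : Type*} (s : Finset ι) {η : ι → V → Lam (V × F)} {x : V}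
    (hη : ∀ i ∈ s, DifferentiableAt ℝ (η i) x) :
    dd (fun y => ∑ i ∈ s, η i y) x = ∑ i ∈ s, dd (η i) x := by
  classical
  rw [dd_of (HasFDerivAt.fun_sum fun i hi => (hη i hi).hasFDerivAt)]
  have h : (∑ i ∈ s, fderiv ℝ (η i) x) ∘L ContinuousLinearMap.fst ℝ V F =
      ∑ i ∈ s, (fderiv ℝ (η i) x ∘L ContinuousLinearMap.fst ℝ V F) := by
    refine ContinuousLinearMap.ext fun z => ?_
    simp only [ContinuousLinearMap.comp_apply, sum_apply]
  rw [h, map_sum]
  rfl

theorem dd_smul {η : V → Lam (V × F)} {x : V} (c : ℝ) (hη : DifferentiableAt ℝ η x) :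
    dd (fun y => c • η y) x = c • dd η x := by
  rw [dd_of (hη.hasFDerivAt.fun_const_smul c), ContinuousLinearMap.smul_comp, map_smul]
  rfl

theorem dd_mul {η ζ : V → Lam (V × F)} {x : V} (hη : DifferentiableAt ℝ η x)
    (hζ : DifferentiableAt ℝ ζ x) :
    dd (fun y => η y * ζ y) x = dd η x * ζ x + inv (η x) * dd ζ x := by
  have h := hη.hasFDerivAt.fun_mul' hζ.hasFDerivAt
  rw [dd_of h, ContinuousLinearMap.add_comp, map_add, add_comm]
  congr 1
  · rw [dd, ← dLin_mul_right]
    congr 1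
  · rw [dd, ← dLin_mul_left]
    congr 1

/-- `dd` of a linear image -/
theorem iv_dd {η : V → Lam (V × F)} {x : V} (hη : DifferentiableAt ℝ η x) (w : F) :
    iv w (dd η x) = -dd (fun y => iv w (η y)) x := by
  have h : HasFDerivAt (fun y => iv w (η y)) (iprodL ((0 : V), w) ∘L fderiv ℝ η x) x :=
    (iprodL ((0 : V), w)).hasFDerivAt.comp x hη.hasFDerivAt
  rw [dd_of h, dd, iv, iprod_dLin]
  have h2 : (fderiv ℝ η x ∘L ContinuousLinearMap.fst ℝ V F) ((0 : V), w) = 0 := by simp
  rw [h2, zero_sub]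
  rfl

theorem diff_iv {η : V → Lam (V × F)} {x : V} (hη : DifferentiableAt ℝ η x) (w : F) :
    DifferentiableAt ℝ (fun y => iv w (η y)) x :=
  ((iprodL ((0 : V), w)).differentiableAt).comp x hη

/-- restriction to the zero section -/
theorem extd_res {η : V → Lam (V × F)} {x : V} (hη : DifferentiableAt ℝ η x) :
    extd (fun y => res (η y)) x = res (dd η x) := by
  have h : HasFDerivAt (fun y => (res (η y) : Lam V))
      (pullL (ContinuousLinearMap.inl ℝ V F) ∘L fderiv ℝ η x) x :=
    (pullL (ContinuousLinearMap.inl ℝ V F)).hasFDerivAt.comp x hη.hasFDerivAt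
  rw [extd_of h, res, dd, pull_dLin]
  congr 1

/-- `dd` of a horizontal form -/
theorem dd_hz {w : V → Lam V} {x : V} (hw : DifferentiableAt ℝ w x) :
    dd (fun y => (hz (w y) : Lam (V × F))) x = hz (extd w x) := by
  have h : HasFDerivAt (fun y => (hz (w y) : Lam (V × F)))
      (pullL (ContinuousLinearMap.fst ℝ V F) ∘L fderiv ℝ w x) x :=
    (pullL (ContinuousLinearMap.fst ℝ V F)).hasFDerivAt.comp x hw.hasFDerivAt
  rw [dd_of h, hz, extd, pull_dLin]

theorem diff_hz {w : V → Lam V} {x : V} (hw : DifferentiableAt ℝ w x) :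
    DifferentiableAt ℝ (fun y => (hz (w y) : Lam (V × F))) x :=
  ((pullL (ContinuousLinearMap.fst ℝ V F)).differentiableAt).comp x hw

/-! ### changing the auxiliary space -/

/-- pullback in the vertical direction -/
noncomputable def pv (L : F →L[ℝ] G) : Lam (V × G) →ₐ[ℝ] Lam (V × F) :=
  pull ((ContinuousLinearMap.id ℝ V).prodMap L)

theorem pv_hz (L : F →L[ℝ] G) (w : Lam V) : pv L (hz w : Lam (V × G)) = hz w := by
  rw [pv, hz, hz, ← pull_comp_apply]
  rfl

theorem pv_vt (L : F →L[ℝ] G) (a : G →L[ℝ] ℝ) : pv L (vt a : Lam (V × G)) = vt (a.comp L) := by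
  rw [pv, vt, vt, pull_dx]
  rfl

theorem iv_pv (L : F →L[ℝ] G) (w : F) (η : Lam (V × G)) :
    iv w (pv L η) = pv L (iv (L w) η) := by
  rw [iv, iv, pv, pull_iprod]
  rfl

theorem res_pv (L : F →L[ℝ] G) (η : Lam (V × G)) : (res (pv L η) : Lam V) = res η := by
  rw [res, pv, res, ← pull_comp_apply]
  congr 2
  ext z
  · simp
  · simp

/-- pullback in the horizontal direction -/
noncomputable def ph (A : U →L[ℝ] V) : Lam (V × F) →ₐ[ℝ] Lam (U × F) :=
  pull (A.prodMap (ContinuousLinearMap.id ℝ F))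

theorem ph_hz (A : U →L[ℝ] V) (w : Lam V) : ph A (hz w : Lam (V × F)) = hz (pull A w) := by
  rw [ph, hz, hz, ← pull_comp_apply, ← pull_comp_apply]
  rfl

theorem ph_vt (A : U →L[ℝ] V) (a : F →L[ℝ] ℝ) : ph A (vt a : Lam (V × F)) = vt a := by
  rw [ph, vt, vt, pull_dx]
  rfl

theorem iv_ph (A : U →L[ℝ] V) (w : F) (η : Lam (V × F)) :
    iv w (ph A η) = ph A (iv w η) := by
  rw [iv, iv, ph, pull_iprod]
  simp

theorem res_ph (A : U →L[ℝ] V) (η : Lam (V × F)) :
    (res (ph A η) : Lam U) = pull A (res η) := by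
  rw [res, ph, res, ← pull_comp_apply, ← pull_comp_apply]
  congr 2

end Gen

/-! ### products of contractions -/

section List

variable {R : Type*} [Ring R]

theorem prod_mul_mem {S : Set R} (h2 : ∀ x ∈ S, ∀ y ∈ S, x * y = -(y * x))
    {l : List R} (hl : ∀ x ∈ l, x ∈ S) {b : R} (hb : b ∈ S) :
    l.prod * b = (-1) ^ l.length * (b * l.prod) := by
  induction l with
  | nil => simp
  | cons a l ih =>
    have ha : a ∈ S := hl a (by simp)
    rw [List.prod_cons, mul_assoc, ih (fun x hx => hl x (by simp [hx])), List.length_cons,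
      pow_succ]
    have h3 : ∀ n : ℕ, a * ((-1) ^ n * (b * l.prod)) = (-1) ^ n * (a * b * l.prod) := by
      intro n
      have h4 : a * (-1 : R) ^ n = (-1) ^ n * a := by
        rcases Nat.even_or_odd n with h | h
        · simp [h.neg_one_pow]
        · simp [h.neg_one_pow]
      rw [← mul_assoc, h4]
      noncomm_ring
    rw [h3, h2 a ha b hb]
    noncomm_ring

theorem prod_mul_eq_zero {S : Set R} (h1 : ∀ x ∈ S, x * x = 0)
    (h2 : ∀ x ∈ S, ∀ y ∈ S, x * y = -(y * x)) {l : List R} (hl : ∀ x ∈ l, x ∈ S) {b : R}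
    (hb : b ∈ l) : l.prod * b = 0 := by
  induction l with
  | nil => simp at hb
  | cons a l ih =>
    rw [List.prod_cons, mul_assoc]
    rcases List.mem_cons.1 hb with rfl | hb'
    · rw [prod_mul_mem h2 (fun x hx => hl x (by simp [hx])) (hl b (by simp))]
      have h4 : b * ((-1 : R) ^ l.length * (b * l.prod)) =
          (-1) ^ l.length * (b * b * l.prod) := by
        rcases Nat.even_or_odd l.length with h | h
        · simp [h.neg_one_pow, mul_assoc]
        · simp [h.neg_one_pow, mul_assoc]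
      rw [h4, h1 b (hl b (by simp)), zero_mul, mul_zero]
    · rw [ih (fun x hx => hl x (by simp [hx])) hb', mul_zero]

theorem exists_prod_eq {S : Set R} (h2 : ∀ x ∈ S, ∀ y ∈ S, x * y = -(y * x)) {l : List R} (hl : ∀ x ∈ l, x ∈ S) {b : R}
    (hb : b ∈ l) : ∃ y, l.prod = y * b := by
  induction l with
  | nil => simp at hb
  | cons a l ih =>
    rw [List.prod_cons]
    rcases List.mem_cons.1 hb with rfl | hb'
    · have h5 := prod_mul_mem h2 (l := l) (fun x hx => hl x (by simp [hx]))
        (hl b (by simp))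
      refine ⟨(-1) ^ l.length * l.prod, ?_⟩
      rw [mul_assoc, h5, ← mul_assoc, ← pow_add, Even.neg_one_pow ⟨l.length, rfl⟩, one_mul]
    · obtain ⟨y, hy⟩ := ih (fun x hx => hl x (by simp [hx])) hb'
      exact ⟨a * y, by rw [hy, mul_assoc]⟩

end List

end Vale.Agent.P231.FE
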