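import Vale.Agent.P231.FE.Amb
import Vale.Agent.P231.FE.Orn
import Vale.Agent.P231.Fm.DegSphere

/-!
# P231, block S2-F (6): the angular form `psi` and the Euler form `chi` of an oriented spread
-/

set_option linter.unusedSectionVars false

open Module Filter Topology
open scoped ContDiff

namespace Vale.Agent.P231.FE

open Vale.Agent.P231.Fm Vale.Agent.P231.WF

variable {V : Type*} [NormedAddCommGroup V] [NormedSpace ℝ V] [FiniteDimensional ℝ V]
variable {X : Type*} [NormedAddCommGroup X] [NormedSpace ℝ X]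
variable {E : Type*} [NormedAddCommGroup E] [InnerProductSpace ℝ E] [FiniteDimensional ℝ E]

/-! ### smoothness of the basic elements -/

section Smooth

variable {x : X}

theorem sm_smul {W : Type*} [NormedAddCommGroup W] [NormedSpace ℝ W] {c : X → ℝ} {η : X → W}
    (hc : ContDiffAt ℝ ∞ c x) (hη : ContDiffAt ℝ ∞ η x) :
    ContDiffAt ℝ ∞ (fun y => c y • η y) x := hc.smul hη

theorem sm_vt {F : Type*} [NormedAddCommGroup F] [NormedSpace ℝ F] [FiniteDimensional ℝ F]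
    {β : X → (F →L[ℝ] ℝ)} (hβ : ContDiffAt ℝ ∞ β x) :
    ContDiffAt ℝ ∞ (fun y => (vt (β y) : Lam (V × F))) x := by
  have h1 : ContDiffAt ℝ ∞ (fun y => (β y).comp (ContinuousLinearMap.snd ℝ V F)) x :=
    hβ.clm_comp contDiffAt_const
  exact (dx (E := V × F)).contDiff.contDiffAt.comp x h1

theorem sm_hz {F : Type*} [NormedAddCommGroup F] [NormedSpace ℝ F] [FiniteDimensional ℝ F]
    {w : X → Lam V} (hw : ContDiffAt ℝ ∞ w x) :
    ContDiffAt ℝ ∞ (fun y => (hz (w y) : Lam (V × F))) x :=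
  (pullL (ContinuousLinearMap.fst ℝ V F)).contDiff.contDiffAt.comp x hw

theorem sm_res {F : Type*} [NormedAddCommGroup F] [NormedSpace ℝ F] [FiniteDimensional ℝ F]
    {w : X → Lam (V × F)} (hw : ContDiffAt ℝ ∞ w x) :
    ContDiffAt ℝ ∞ (fun y => (res (w y) : Lam V)) x :=
  (pullL (ContinuousLinearMap.inl ℝ V F)).contDiff.contDiffAt.comp x hw

theorem sm_dxc {L : X → (V →L[ℝ] E)} (hL : ContDiffAt ℝ ∞ L x) (c : E →L[ℝ] ℝ) :
    ContDiffAt ℝ ∞ (fun y => dx (c.comp (L y))) x := by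
  have h1 : ContDiffAt ℝ ∞ (fun y => c.comp (L y)) x := contDiffAt_const.clm_comp hL
  exact (dx (E := V)).contDiff.contDiffAt.comp x h1

theorem sm_XE {w : X → E} (hw : ContDiffAt ℝ ∞ w x) :
    ContDiffAt ℝ ∞ (fun y => (XE (w y) : Lam (V × E))) x :=
  sm_vt ((innerSL ℝ).contDiff.contDiffAt.comp x hw)

theorem sm_ThE {L : X → (V →L[ℝ] E)} (hL : ContDiffAt ℝ ∞ L x) :
    ContDiffAt ℝ ∞ (fun y => ThE (L y)) x :=
  ContDiffAt.sum fun _ _ => (sm_hz (sm_dxc hL _)).mul contDiffAt_const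

theorem sm_WE {Q : X → (V →L[ℝ] (E →L[ℝ] E))} (hQ : ContDiffAt ℝ ∞ Q x) :
    ContDiffAt ℝ ∞ (fun y => WE (Q y)) x := by
  have h1 : ∀ b : E, ContDiffAt ℝ ∞ (fun y => ap (Q y) b) x := fun b =>
    contDiffAt_const.clm_comp hQ
  have h2 : ∀ i j, ContDiffAt ℝ ∞ (fun y => wd (ap (Q y) (stdOrthonormalBasis ℝ E i))
      (ap (Q y) (stdOrthonormalBasis ℝ E j))) x := fun i j =>
    ContDiffAt.sum fun k _ => (sm_dxc (h1 _) _).mul (sm_dxc (h1 _) _)
  exact ContDiffAt.const_smul _ (ContDiffAt.sum fun i _ => ContDiffAt.sum fun j _ =>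
    (sm_hz (h2 i j)).mul contDiffAt_const)

theorem sm_PsE (n : ℕ) (a : ℝ) {w : X → E} (hw : ContDiffAt ℝ ∞ w x)
    {L : X → (V →L[ℝ] E)} (hL : ContDiffAt ℝ ∞ L x)
    {Q : X → (V →L[ℝ] (E →L[ℝ] E))} (hQ : ContDiffAt ℝ ∞ Q x) :
    ContDiffAt ℝ ∞ (fun y => PsE n a (w y) (L y) (Q y)) x :=
  ContDiffAt.sum fun _ _ => ContDiffAt.const_smul _
    (((sm_XE hw).mul ((sm_ThE hL).pow _)).mul ((sm_WE hQ).pow _))

theorem sm_ct {w : X → Lam E} (hw : ContDiffAt ℝ ∞ w x) {η : X → Lam (V × E)}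
    (hη : ContDiffAt ℝ ∞ η x) : ContDiffAt ℝ ∞ (fun y => ct (w y) (η y)) x := by
  let b := Module.finBasis ℝ (Lam E)
  have h1 : (fun y => ct (w y) (η y)) = fun y => ∑ i, b.coord i (w y) • ct (b i) (η y) := by
    funext y
    conv_lhs => rw [← b.sum_repr (w y), map_sum]
    rw [LinearMap.sum_apply]
    refine Finset.sum_congr rfl fun i _ => ?_
    rw [map_smul, LinearMap.smul_apply]
    rfl
  rw [h1]
  refine ContDiffAt.sum fun i _ => ?_
  have h2 : ContDiffAt ℝ ∞ (fun y => b.coord i (w y)) x :=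
    (LinearMap.toContinuousLinearMap (b.coord i)).contDiff.contDiffAt.comp x hw
  have h3 : ContDiffAt ℝ ∞ (fun y => ct (b i) (η y)) x :=
    (LinearMap.toContinuousLinearMap
      (ct (b i) : Lam (V × E) →ₗ[ℝ] Lam (V × E))).contDiff.contDiffAt.comp x hη
  exact sm_smul h2 h3

theorem sm_psD (n : ℕ) (a : ℝ) {o : X → Lam E} (ho : ContDiffAt ℝ ∞ o x) {w : X → E}
    (hw : ContDiffAt ℝ ∞ w x) {L : X → (V →L[ℝ] E)} (hL : ContDiffAt ℝ ∞ L x)
    {Q : X → (V →L[ℝ] (E →L[ℝ] E))} (hQ : ContDiffAt ℝ ∞ Q x) :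
    ContDiffAt ℝ ∞ (fun y => psD n a (o y) (w y) (L y) (Q y)) x :=
  sm_res (sm_ct ho (sm_PsE n a hw hL hQ))

theorem sm_chD (n : ℕ) {o : X → Lam E} (ho : ContDiffAt ℝ ∞ o x)
    {Q : X → (V →L[ℝ] (E →L[ℝ] E))} (hQ : ContDiffAt ℝ ∞ Q x) :
    ContDiffAt ℝ ∞ (fun y => chD n (o y) (Q y)) x :=
  sm_res (sm_ct ho ((sm_WE hQ).pow _))

end Smooth

/-! ### degrees -/

section Degree

variable {F : Type*} [NormedAddCommGroup F] [NormedSpace ℝ F] [FiniteDimensional ℝ F]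

theorem hz_mem {k : ℕ} {w : Lam V} (hw : w ∈ hom V k) : (hz w : Lam (V × F)) ∈ hom (V × F) k :=
  pull_mem_hom _ hw

theorem vt_mem (β : F →L[ℝ] ℝ) : (vt β : Lam (V × F)) ∈ hom (V × F) 1 := dx_mem_hom _

theorem wd_mem (α β : V →L[ℝ] E) : wd α β ∈ hom V 2 :=
  Submodule.sum_mem _ fun _ _ => mul_mem_hom (dx_mem_hom _) (dx_mem_hom _)

theorem XE_mem (w : E) : (XE w : Lam (V × E)) ∈ hom (V × E) 1 := vt_mem _

theorem ThE_mem (L : V →L[ℝ] E) : ThE L ∈ hom (V × E) 2 :=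
  Submodule.sum_mem _ fun _ _ => mul_mem_hom (hz_mem (dx_mem_hom _)) (vt_mem _)

theorem WE_mem (Q : V →L[ℝ] (E →L[ℝ] E)) : WE Q ∈ hom (V × E) 4 :=
  Submodule.smul_mem _ _ (Submodule.sum_mem _ fun _ _ => Submodule.sum_mem _ fun _ _ =>
    mul_mem_hom (hz_mem (wd_mem _ _)) (mul_mem_hom (vt_mem _) (vt_mem _)))

theorem PsE_mem (n : ℕ) (a : ℝ) (w : E) (L : V →L[ℝ] E) (Q : V →L[ℝ] (E →L[ℝ] E)) :
    PsE n a w L Q ∈ hom (V × E) ((2 * n + 1) + (2 * n + 2)) := by
  refine Submodule.sum_mem _ fun k hk => Submodule.smul_mem _ _ ?_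
  have hk' : k ≤ n := Nat.lt_succ_iff.1 (Finset.mem_range.1 hk)
  have h1 := mul_mem_hom (mul_mem_hom (XE_mem (V := V) w)
    (pow_mem_hom (ThE_mem L) (2 * (n - k) + 1))) (pow_mem_hom (WE_mem Q) k)
  have h2 : 1 + 2 * (2 * (n - k) + 1) + 4 * k = (2 * n + 1) + (2 * n + 2) := by omega
  rwa [h2] at h1

theorem TTl_mem (l : List F) {k : ℕ} {η : Lam (V × F)} (h : η ∈ hom (V × F) (k + l.length)) :
    TTl l η ∈ hom (V × F) k := by
  induction l generalizing k with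
  | nil => exact h
  | cons w l ih =>
    rw [TTl_cons]
    refine iprod_mem_hom _ (ih ?_)
    rw [List.length_cons] at h
    rwa [add_assoc, add_comm 1]

theorem ct_wdg_mem {m k : ℕ} (e : Fin m → E) {η : Lam (V × E)} (h : η ∈ hom (V × E) (k + m)) :
    ct (wdg e) η ∈ hom (V × E) k := by
  rw [ct_wdg]
  refine TTl_mem _ ?_
  rwa [List.length_ofFn]

theorem res_mem {k : ℕ} {η : Lam (V × F)} (h : η ∈ hom (V × F) k) : res η ∈ hom V k :=
  pull_mem_hom _ h

theorem psD_mem (n : ℕ) (a : ℝ) (e : Fin (2 * n + 2) → E) (w : E) (L : V →L[ℝ] E)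
    (Q : V →L[ℝ] (E →L[ℝ] E)) : psD n a (wdg e) w L Q ∈ hom V (2 * n + 1) :=
  res_mem (ct_wdg_mem e (PsE_mem n a w L Q))

theorem chD_mem (n : ℕ) (e : Fin (2 * n + 2) → E)
    (Q : V →L[ℝ] (E →L[ℝ] E)) : chD n (wdg e) Q ∈ hom V (2 * n + 2) := by
  refine res_mem (ct_wdg_mem e ?_)
  have h := pow_mem_hom (WE_mem Q) (n + 1)
  have h2 : 4 * (n + 1) = (2 * n + 2) + (2 * n + 2) := by ring
  rwa [h2] at h

end Degree

/-! ### horizontal contractions -/

section Horizontal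

variable {F : Type*} [NormedAddCommGroup F] [NormedSpace ℝ F] [FiniteDimensional ℝ F]

/-- contraction with a horizontal vector -/
noncomputable def ih (z : V) : Lam (V × F) →ₗ[ℝ] Lam (V × F) := iprod (z, (0 : F))

theorem ih_mul (z : V) (η ζ : Lam (V × F)) : ih z (η * ζ) = ih z η * ζ + inv η * ih z ζ :=
  iprod_mul _ _ _

theorem ih_iv (z : V) (w : F) (η : Lam (V × F)) : ih z (iv w η) = -iv w (ih z η) := by
  rw [ih, iv]
  exact CliffordAlgebra.contractLeft_comm (Q := (0 : QuadraticForm ℝ (V × F →L[ℝ] ℝ))) _ _ _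

theorem iprod_res (z : V) (η : Lam (V × F)) : iprod z (res η) = res (ih z η) := by
  rw [res, pull_iprod]
  rfl

theorem ih_TTl_zero {z : V} (l : List F) {η : Lam (V × F)} (h : ih z η = 0) :
    ih z (TTl l η) = 0 := by
  induction l with
  | nil => exact h
  | cons w l ih' => rw [TTl_cons, ih_iv, ih', map_zero, neg_zero]

theorem ih_mul_zero {z : V} {η ζ : Lam (V × F)} (h1 : ih z η = 0) (h2 : ih z ζ = 0) :
    ih z (η * ζ) = 0 := by
  rw [ih_mul, h1, h2, zero_mul, mul_zero, add_zero]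

theorem ih_one (z : V) : ih z (1 : Lam (V × F)) = 0 := iprod_one _

theorem ih_pow_zero {z : V} {η : Lam (V × F)} (h1 : ih z η = 0) (k : ℕ) :
    ih z (η ^ k) = 0 := by
  induction k with
  | zero => rw [pow_zero, ih_one]
  | succ k ih' => rw [pow_succ]; exact ih_mul_zero ih' h1

theorem ih_vt (z : V) (β : F →L[ℝ] ℝ) : ih z (vt β : Lam (V × F)) = 0 := by
  rw [ih, vt, iprod_dx]
  simp

theorem ih_hz (z : V) (w : Lam V) : ih z (hz w : Lam (V × F)) = hz (iprod z w) := by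
  rw [ih, hz, pull_iprod]
  rfl

theorem ih_XE (z : V) (w : E) : ih z (XE w : Lam (V × E)) = 0 := ih_vt _ _

theorem ih_ThE {z : V} {L : V →L[ℝ] E} (h : L z = 0) : ih z (ThE L) = 0 := by
  rw [ThE, map_sum]
  refine Finset.sum_eq_zero fun i _ => ih_mul_zero ?_ (ih_vt _ _)
  rw [ih_hz, iprod_dx]
  have h1 : ((bc E i).comp L) z = 0 := by
    rw [ContinuousLinearMap.comp_apply, h, map_zero]
  rw [h1, map_zero, map_zero]

theorem ih_WE {z : V} {Q : V →L[ℝ] (E →L[ℝ] E)} (h : Q z = 0) : ih z (WE Q) = 0 := by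
  rw [WE, map_smul, map_sum]
  rw [Finset.sum_eq_zero, smul_zero]
  intro i _
  rw [map_sum]
  refine Finset.sum_eq_zero fun j _ => ih_mul_zero ?_ (ih_mul_zero (ih_vt _ _) (ih_vt _ _))
  have h1 : ∀ (b : E) (c : E →L[ℝ] ℝ), iprod z (dx (c.comp (ap Q b))) = 0 := by
    intro b c
    rw [iprod_dx]
    have h2 : (c.comp (ap Q b)) z = 0 := by
      rw [ContinuousLinearMap.comp_apply, ap_apply, h, zero_apply, map_zero]
    rw [h2, map_zero]
  rw [ih_hz, wd, map_sum, Finset.sum_eq_zero, map_zero]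
  intro k _
  rw [iprod_mul, h1, h1, zero_mul, mul_zero, add_zero]

theorem iprod_psD (n : ℕ) (a : ℝ) (e : Fin (2 * n + 2) → E) (w : E) {L : V →L[ℝ] E}
    {Q : V →L[ℝ] (E →L[ℝ] E)} {z : V} (hL : L z = 0) (hQ : Q z = 0) :
    iprod z (psD n a (wdg e) w L Q) = 0 := by
  rw [psD, iprod_res, ct_wdg, ih_TTl_zero, map_zero]
  rw [PsE, map_sum]
  refine Finset.sum_eq_zero fun k _ => ?_
  rw [map_smul, ih_mul_zero (ih_mul_zero (ih_XE _ _) (ih_pow_zero (ih_ThE hL) _))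
    (ih_pow_zero (ih_WE hQ) _), smul_zero]

theorem iprod_chD (n : ℕ) (e : Fin (2 * n + 2) → E)
    {Q : V →L[ℝ] (E →L[ℝ] E)} {z : V} (hQ : Q z = 0) :
    iprod z (chD n (wdg e) Q) = 0 := by
  rw [chD, iprod_res, ct_wdg, ih_TTl_zero (h := ih_pow_zero (ih_WE hQ) _), map_zero]

end Horizontal

/-! ### the angular form of a spread -/

theorem cd_rad {u : E} (hu : u ≠ 0) : ContDiffAt ℝ ∞ (rad : E → E) u :=
  ((contDiffAt_norm ℝ hu).inv (norm_ne_zero_iff.2 hu)).smul contDiffAt_id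

theorem nm_rad {u : E} (hu : u ≠ 0) : ‖rad u‖ = 1 := by
  rw [rad, norm_smul, norm_inv, norm_norm, inv_mul_cancel₀ (norm_ne_zero_iff.2 hu)]

theorem rad_pos_smul (u : E) {c : ℝ} (hc : 0 < c) : rad (c • u) = rad u := by
  rw [rad, rad, norm_smul, Real.norm_eq_abs, abs_of_pos hc, smul_smul, mul_inv, mul_comm c⁻¹,
    mul_assoc, inv_mul_cancel₀ hc.ne', mul_one]

section Spread

variable {n : ℕ} {Pi : E → E →L[ℝ] E} {o : E → Lam E}

/-- **the angular form** -/
noncomputable def psi (n : ℕ) (a : ℝ) (Pi : E → E →L[ℝ] E) (o : E → Lam E) (u : E) : Lam E :=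
  psD n a (o u) (rad u) (fderiv ℝ rad u) (fderiv ℝ Pi u)

/-- **the Euler form** -/
noncomputable def chi (n : ℕ) (Pi : E → E →L[ℝ] E) (o : E → Lam E) (u : E) : Lam E :=
  chD n (o u) (fderiv ℝ Pi u)

/-- an oriented smooth spread -/
structure OS (n : ℕ) (Pi : E → E →L[ℝ] E) (o : E → Lam E) : Prop where
  sp : Spread (2 * n + 2) Pi
  or : Orient (2 * n + 2) Pi o

namespace OS

variable (h : OS n Pi o) {u : E}
include h

theorem sm_rad (hu : u ≠ 0) : Sm (rad : E → E) u := by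
  filter_upwards [isOpen_ne.mem_nhds hu] with y hy using cd_rad hy

theorem sm_Pi (hu : u ≠ 0) : Sm Pi u := by
  filter_upwards [isOpen_ne.mem_nhds hu] with y hy using h.sp.smooth y hy

theorem psi_smooth (a : ℝ) (hu : u ≠ 0) : ContDiffAt ℝ ∞ (psi n a Pi o) u :=
  sm_psD n a (h.or.smooth u hu) (cd_rad hu)
    ((cd_rad hu).fderiv_right (by simp)) ((h.sp.smooth u hu).fderiv_right (by simp))

theorem chi_smooth (hu : u ≠ 0) : ContDiffAt ℝ ∞ (chi n Pi o) u :=
  sm_chD n (h.or.smooth u hu) ((h.sp.smooth u hu).fderiv_right (by simp))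

theorem psi_mem (a : ℝ) (hu : u ≠ 0) : psi n a Pi o u ∈ hom E (2 * n + 1) := by
  obtain ⟨e, -, -, he⟩ := h.or.frame u hu
  rw [psi, he]
  exact psD_mem _ _ _ _ _ _

theorem chi_mem (hu : u ≠ 0) : chi n Pi o u ∈ hom E (2 * n + 2) := by
  obtain ⟨e, -, -, he⟩ := h.or.frame u hu
  rw [chi, he]
  exact chD_mem _ _ _

theorem mem_range_iff (hu : u ≠ 0) {w : E} :
    w ∈ LinearMap.range (Pi u : E →ₗ[ℝ] E) ↔ Pi u w = w := by
  constructor
  · rintro ⟨v, rfl⟩
    exact h.sp.idem u hu v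
  · intro hw
    exact ⟨w, hw⟩

/-- the projection in an orthonormal basis of the plane -/
theorem Pi_eq (hu : u ≠ 0) {g : Fin (2 * n + 2) → E} (hg : Orthonormal ℝ g)
    (hgP : ∀ a, Pi u (g a) = g a) (w : E) : Pi u w = ∑ c, (inner ℝ (g c) w : ℝ) • g c := by
  have hs := span_eq (h.sp.rank u hu) hg fun a => (h.mem_range_iff hu).2 (hgP a)
  have h1 : Pi u w ∈ Submodule.span ℝ (Set.range g) := by
    rw [hs]
    exact ⟨w, rfl⟩
  rw [← sum_of_mem_span hg h1]
  refine Finset.sum_congr rfl fun c _ => ?_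
  rw [← h.sp.symm u hu, hgP]

/-- local oriented frames -/
theorem exists_frame (hu : u ≠ 0) : ∃ e : Fin (2 * n + 2) → E → E, e 0 = rad ∧
    ∀ᶠ y in 𝓝 u, Adp e Pi y ∧ o y = wdg fun a => e a y := by
  obtain ⟨g', hg', hg'P, hg'o⟩ := h.or.frame u hu
  obtain ⟨g, hg, hgP, hg0, hgo⟩ := exists_first_or (m := 2 * n) (h.sp.rank u hu)
    (nm_rad hu) ((h.mem_range_iff hu).2 (by
      rw [rad, map_smul, h.sp.self u hu])) hg' fun a => (h.mem_range_iff hu).2 (hg'P a)
  have hne : ∀ᶠ y in 𝓝 u, y ≠ 0 := isOpen_ne.mem_nhds hu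
  obtain ⟨e, h1, h2, h3, h4, h5⟩ := exists_frame_aux (k := 2 * n + 1) (h.sm_Pi hu)
    (by filter_upwards [hne] with y hy using h.sp.idem y hy) (f0 := rad) (h.sm_rad hu)
    (by filter_upwards [hne] with y hy using nm_rad hy)
    (by
      filter_upwards [hne] with y hy
      rw [rad, map_smul, h.sp.self y hy]) g hg (fun a => (h.mem_range_iff hu).1 (hgP a)) hg0
  refine ⟨e, h1, ?_⟩
  have ho : ∀ᶠ y in 𝓝 u, o y + wdg (fun a => e a y) ≠ 0 := by
    have hc : ContinuousAt (fun y => o y + wdg (fun a => e a y)) u := by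
      refine (h.or.smooth u hu).continuousAt.add ?_
      have k1 : ∀ l : List (Fin (2 * n + 2)), ContinuousAt
          (fun y => (l.map fun a => dx (innerSL ℝ (e a y))).prod) u := by
        intro l
        induction l with
        | nil => exact continuousAt_const
        | cons a l ih' =>
          simp only [List.map_cons, List.prod_cons]
          refine ContinuousAt.mul ?_ ih'
          exact ((dx (E := E)).continuous.comp (innerSL ℝ).continuous).continuousAt.comp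
            (h2 a).continuousAt
      have k2 : (fun y => wdg (fun a => e a y)) =
          fun y => ((List.finRange (2 * n + 2)).map fun a => dx (innerSL ℝ (e a y))).prod := by
        funext y
        rw [wdg, List.ofFn_eq_map]
      rw [k2]
      exact k1 _
    refine hc.eventually (isOpen_ne.mem_nhds ?_)
    have k3 : (fun a => e a u) = g := funext h5
    change o u + wdg (fun a => e a u) ≠ 0
    rw [k3, hg'o, hgo, ← two_smul ℝ]
    exact smul_ne_zero two_ne_zero (wdg_ne_zero hg')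
  have h2' : ∀ᶠ y in 𝓝 u, ∀ a, Sm (e a) y :=
    Filter.eventually_all.2 fun a => Filter.Eventually.eventually_nhds (h2 a)
  filter_upwards [hne, h2', h3.eventually_nhds, h4.eventually_nhds, ho] with y k1 k2 k3 k4 k5
  refine ⟨⟨⟨k2, k3⟩, (h.sp.smooth y k1).differentiableAt (by simp), k4,
    h.Pi_eq k1 k3.self_of_nhds k4.self_of_nhds⟩, ?_⟩
  obtain ⟨f, hf, hfP, hfo⟩ := h.or.frame y k1
  have hs := span_eq (h.sp.rank y k1) k3.self_of_nhds
    fun a => (h.mem_range_iff k1).2 (k4.self_of_nhds a)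
  rcases wdg_pm hf k3.self_of_nhds (fun a => by
    rw [hs]
    exact (h.mem_range_iff k1).2 (hfP a)) with h6 | h6
  · rw [hfo, h6]
  · exfalso
    apply k5
    rw [hfo, h6, neg_add_cancel]

/-- **the derivative of the angular form is the Euler form** -/
theorem extd_psi (a : ℝ) (hu : u ≠ 0) :
    extd (psi n a Pi o) u = -(cf n a (n + 1)) • chi n Pi o u := by
  obtain ⟨e, h1, h2⟩ := h.exists_frame hu
  have h3 : psi n a Pi o =ᶠ[𝓝 u] fun y => bz (Psi a (ThF e y) (WF e y)) := by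
    filter_upwards [h2] with y hy
    rw [hy.1.bz_Psi, psi, hy.2, h1]
  obtain ⟨k1, k2⟩ := h2.self_of_nhds
  rw [extd_congr h3, k1.ofr.extd_psi, k1.bz_W, chi, k2]

/-- pullback of the angular form -/
theorem pb_psi (a : ℝ) {f : V → E} {x : V} (hf : DifferentiableAt ℝ f x) (hx : f x ≠ 0) :
    pb f (psi n a Pi o) x = psD n a (o (f x)) (rad (f x)) (fderiv ℝ (fun y => rad (f y)) x)
      (fderiv ℝ (fun y => Pi (f y)) x) := by
  have h1 : fderiv ℝ (fun y => rad (f y)) x = (fderiv ℝ rad (f x)).comp (fderiv ℝ f x) :=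
    fderiv_fun_comp x ((cd_rad hx).differentiableAt (by simp)) hf
  have h2 : fderiv ℝ (fun y => Pi (f y)) x = (fderiv ℝ Pi (f x)).comp (fderiv ℝ f x) :=
    fderiv_fun_comp x ((h.sp.smooth _ hx).differentiableAt (by simp)) hf
  rw [pb, psi, pull_psD, h1, h2]

/-- pullback of the Euler form -/
theorem pb_chi {f : V → E} {x : V} (hf : DifferentiableAt ℝ f x) (hx : f x ≠ 0) :
    pb f (chi n Pi o) x = chD n (o (f x)) (fderiv ℝ (fun y => Pi (f y)) x) := by
  have h2 : fderiv ℝ (fun y => Pi (f y)) x = (fderiv ℝ Pi (f x)).comp (fderiv ℝ f x) :=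
    fderiv_fun_comp x ((h.sp.smooth _ hx).differentiableAt (by simp)) hf
  rw [pb, chi, pull_chD, h2]

/-- **HOMOG** -/
theorem pb_smul (a : ℝ) {f : V → E} {r : V → ℝ} {x : V} (hf : DifferentiableAt ℝ f x)
    (hr : DifferentiableAt ℝ r x) (hf0 : f x ≠ 0) (hr0 : 0 < r x) :
    pb (fun y => r y • f y) (psi n a Pi o) x = pb f (psi n a Pi o) x := by
  have h1 : ∀ᶠ y in 𝓝 x, f y ≠ 0 := hf.continuousAt.eventually (isOpen_ne.mem_nhds hf0)
  have h2 : ∀ᶠ y in 𝓝 x, 0 < r y := hr.continuousAt.eventually (lt_mem_nhds hr0)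
  have h3 : (fun y => rad (r y • f y)) =ᶠ[𝓝 x] fun y => rad (f y) := by
    filter_upwards [h2] with y hy using rad_pos_smul _ hy
  have h4 : (fun y => Pi (r y • f y)) =ᶠ[𝓝 x] fun y => Pi (f y) := by
    filter_upwards [h1, h2] with y hy1 hy2 using h.sp.hom hy1 hy2.ne'
  rw [h.pb_psi a hf hf0, h.pb_psi a (hr.fun_smul hf) (smul_ne_zero hr0.ne' hf0), h3.fderiv_eq,
    h4.fderiv_eq, rad_pos_smul _ hr0, Orient.hom h.sp h.or hf0 hr0.ne']

/-- pullback of the Euler form by maps to the same planes -/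
theorem pb_chi_rel {f g : V → E} {x : V} (hf : DifferentiableAt ℝ f x)
    (hg : DifferentiableAt ℝ g x) (hf0 : f x ≠ 0) (hg0 : g x ≠ 0)
    (hfg : ∀ᶠ y in 𝓝 x, Pi (f y) (g y) = g y) :
    pb f (chi n Pi o) x = pb g (chi n Pi o) x := by
  have h1 : ∀ᶠ y in 𝓝 x, f y ≠ 0 := hf.continuousAt.eventually (isOpen_ne.mem_nhds hf0)
  have h2 : ∀ᶠ y in 𝓝 x, g y ≠ 0 := hg.continuousAt.eventually (isOpen_ne.mem_nhds hg0)
  have h3 : (fun y => Pi (g y)) =ᶠ[𝓝 x] fun y => Pi (f y) := by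
    filter_upwards [h1, h2, hfg] with y hy1 hy2 hy3 using h.sp.rel _ _ hy1 hy2 hy3
  rw [h.pb_chi hf hf0, h.pb_chi hg hg0, h3.fderiv_eq,
    h.or.rel _ _ hf0 hg0 hfg.self_of_nhds]

theorem pb_extd_psi (a : ℝ) {f : V → E} {x : V} (hx : f x ≠ 0) :
    pb f (extd (psi n a Pi o)) x = -(cf n a (n + 1)) • pb f (chi n Pi o) x := by
  rw [pb, h.extd_psi a hx, map_smul]
  rfl

/-- **the differential of the angular form is basic**: it descends to the space of planes -/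
theorem pb_extd_rel (a : ℝ) {f g : V → E} {x : V} (hf : DifferentiableAt ℝ f x)
    (hg : DifferentiableAt ℝ g x) (hf0 : f x ≠ 0) (hg0 : g x ≠ 0)
    (hfg : ∀ᶠ y in 𝓝 x, Pi (f y) (g y) = g y) :
    pb f (extd (psi n a Pi o)) x = pb g (extd (psi n a Pi o)) x := by
  rw [h.pb_extd_psi a hf0, h.pb_extd_psi a hg0, h.pb_chi_rel hf hg hf0 hg0 hfg]

theorem pb_extd_smul (a : ℝ) {f : V → E} {r : V → ℝ} {x : V} (hf : DifferentiableAt ℝ f x)
    (hr : DifferentiableAt ℝ r x) (hf0 : f x ≠ 0) (hr0 : 0 < r x) :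
    pb (fun y => r y • f y) (extd (psi n a Pi o)) x = pb f (extd (psi n a Pi o)) x := by
  refine (h.pb_extd_rel a hf (hr.fun_smul hf) hf0 (smul_ne_zero hr0.ne' hf0) ?_).symm
  have h1 : ∀ᶠ y in 𝓝 x, f y ≠ 0 := hf.continuousAt.eventually (isOpen_ne.mem_nhds hf0)
  filter_upwards [h1] with y hy
  rw [map_smul, h.sp.self _ hy]

/-- the derivative of the projections along their planes -/
theorem fderiv_Pi (hu : u ≠ 0) {w : E} (hw : Pi u w = w) : fderiv ℝ Pi u w = 0 := by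
  have h1 : HasDerivAt (fun t : ℝ => u + t • w) w 0 := by
    simpa using ((hasDerivAt_id (0 : ℝ)).smul_const w).const_add u
  have h2 : HasFDerivAt Pi (fderiv ℝ Pi u) (u + (0 : ℝ) • w) := by
    simpa using ((h.sp.smooth u hu).differentiableAt (by simp)).hasFDerivAt
  have h3 := h2.comp_hasDerivAt (0 : ℝ) h1
  have h4 : ∀ᶠ t in 𝓝 (0 : ℝ), u + t • w ≠ 0 := by
    have : ContinuousAt (fun t : ℝ => u + t • w) 0 := by fun_prop
    refine this.eventually (isOpen_ne.mem_nhds ?_)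
    simpa using hu
  have h5 : (Pi ∘ fun t : ℝ => u + t • w) =ᶠ[𝓝 0] fun _ => Pi u := by
    filter_upwards [h4] with t ht
    refine h.sp.rel u _ hu ht ?_
    rw [map_add, map_smul, h.sp.self u hu, hw]
  exact (h3.congr_of_eventuallyEq h5.symm).unique (hasDerivAt_const _ _)

/-- **BASIC** -/
theorem iprod_extd (a : ℝ) (hu : u ≠ 0) {w : E} (hw : Pi u w = w) :
    iprod w (extd (psi n a Pi o) u) = 0 := by
  obtain ⟨e, -, -, he⟩ := h.or.frame u hu
  rw [h.extd_psi a hu, map_smul, chi, he, iprod_chD n e (h.fderiv_Pi hu hw), smul_zero]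

omit h in
theorem fderiv_rad_self (hu : u ≠ 0) : fderiv ℝ (rad : E → E) u u = 0 := by
  have h1 : HasDerivAt (fun t : ℝ => t • u) u 1 := by
    simpa using (hasDerivAt_id (1 : ℝ)).smul_const u
  have h2 : HasFDerivAt (rad : E → E) (fderiv ℝ rad u) ((1 : ℝ) • u) := by
    simpa using ((cd_rad hu).differentiableAt (by simp)).hasFDerivAt
  have h3 := h2.comp_hasDerivAt (1 : ℝ) h1
  have h5 : ((rad : E → E) ∘ fun t : ℝ => t • u) =ᶠ[𝓝 1] fun _ => rad u := by
    filter_upwards [lt_mem_nhds (zero_lt_one : (0 : ℝ) < 1)] with t ht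
    exact rad_pos_smul u ht
  exact (h3.congr_of_eventuallyEq h5.symm).unique (hasDerivAt_const _ _)

theorem iprod_self (a : ℝ) (hu : u ≠ 0) : iprod u (psi n a Pi o u) = 0 := by
  obtain ⟨e, -, -, he⟩ := h.or.frame u hu
  rw [psi, he]
  exact iprod_psD n a e _ (fderiv_rad_self hu) (h.fderiv_Pi hu (h.sp.self u hu))

/-- the angular form is pulled back from the unit sphere -/
theorem pb_rad (a : ℝ) (hu : u ≠ 0) : pb rad (psi n a Pi o) u = psi n a Pi o u := by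
  have h1 := h.pb_smul a (V := E) (f := fun y => y) (r := fun y => ‖y‖⁻¹) (x := u)
    differentiableAt_id
    ((((contDiffAt_norm ℝ hu).inv (norm_ne_zero_iff.2 hu)).differentiableAt
      (n := ∞) (by simp))) hu (inv_pos.2 (norm_pos_iff.2 hu))
  rw [pb_id] at h1
  exact h1

theorem inv_psi (a : ℝ) (hu : u ≠ 0) : inv (psi n a Pi o u) = -psi n a Pi o u := by
  rw [inv_of_mem_hom (h.psi_mem a hu), Odd.neg_one_pow ⟨n, rfl⟩, neg_one_smul]

theorem extd_mem (a : ℝ) (hu : u ≠ 0) : extd (psi n a Pi o) u ∈ hom E (2 * n + 2) := by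
  rw [h.extd_psi a hu]
  exact Submodule.smul_mem _ _ (h.chi_mem hu)

theorem inv_extd (a : ℝ) (hu : u ≠ 0) :
    inv (extd (psi n a Pi o) u) = extd (psi n a Pi o) u := by
  rw [inv_of_mem_hom (h.extd_mem a hu), Even.neg_one_pow ⟨n + 1, by ring⟩, one_smul]

end OS

end Spread

end Vale.Agent.P231.FE
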