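import Vale.Agent.P231.WQ.Psi
import Vale.Agent.P231.FE.Lin
import Vale.Agent.P231.FE.B0
import Vale.Agent.P231.FE.Ang

/-!
# P231, block S2-F (15): the hypotheses of block Q2 in the Blaschke manifold
-/

set_option maxSynthPendingDepth 3
set_option linter.unusedSectionVars false
set_option linter.unusedVariables false

open Bundle Manifold Set Filter Module Topology MeasureTheory
open scoped ContDiff Manifold Topology

namespace Vale.Agent.P231.FE

open Vale.Agent.P234 Vale.Agent.P231 Vale.Agent.P231.Fm Vale.Agent.P231.W Vale.Agent.P231.WE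
  Vale.Agent.P231.WG Vale.Agent.P231.WR Vale.Agent.P231.H775 Vale.Agent.P231.WQ

noncomputable section

variable {E : Type*} [NormedAddCommGroup E] [NormedSpace ℝ E] [FiniteDimensional ℝ E]
  {M : Type*} [MetricSpace M] [ChartedSpace E M] [IsManifold 𝓘(ℝ, E) ∞ M]
  [RiemannianBundle (fun x : M => TangentSpace 𝓘(ℝ, E) x)]
  [IsContMDiffRiemannianBundle 𝓘(ℝ, E) ∞ E (fun x : M => TangentSpace 𝓘(ℝ, E) x)]
  {e : ∀ x : M, TangentSpace 𝓘(ℝ, E) x → M}
  {D : ℝ} {p : M} {n : ℕ}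
  {Pi : TangentSpace 𝓘(ℝ, E) p → TangentSpace 𝓘(ℝ, E) p →L[ℝ] TangentSpace 𝓘(ℝ, E) p}
  {o : TangentSpace 𝓘(ℝ, E) p → Fm.Lam (TangentSpace 𝓘(ℝ, E) p)}
  {ρ : TangentSpace 𝓘(ℝ, E) p → ℝ} {r₀ : ℝ}

/-- the angular form in the model space of the tangent space -/
def PsiE (n : ℕ) (a : ℝ) (p : M)
    (Pi : TangentSpace 𝓘(ℝ, E) p → TangentSpace 𝓘(ℝ, E) p →L[ℝ] TangentSpace 𝓘(ℝ, E) p)
    (o : TangentSpace 𝓘(ℝ, E) p → Fm.Lam (TangentSpace 𝓘(ℝ, E) p)) : Eu E → Lam (Eu E) :=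
  Fm.pb (WQ.frI p) (psi n a Pi o)

theorem ang_PsiE (h : OS n Pi o) (a : ℝ) : Q.Ang (PsiE n a p Pi o) := by
  exact q_ang_tr (h.q_ang a) (WQ.frI p)

/-- pull-back of the cut-off angular form -/
theorem pb_rho_psi (a : ℝ) :
    Fm.pb (WQ.frI (E := E) p) (fun v => ρ v • psi n a Pi o v) =
      fun z => ρ (WQ.frI p z) • PsiE n a p Pi o z := by
  funext z
  rw [PsiE, Fm.pb, map_smul]
  rfl

variable [CompactSpace M] [ConnectedSpace M] [IsRiemannianManifold 𝓘(ℝ, E) M]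

section FF

variable (F : Facts e) (hD : 0 < D) (hB : InjGE e D)
    (hdiam : ∀ p q : M, dist p q ≤ D)
    (hl : ∀ x y : M, dist x y = D → finrank ℝ (Pl e D x y) = 2 * n + 2)
    (hJ : LineP e D p n Pi o) (hρ : Rho e D p ρ r₀) (a : ℝ)

include F hD hB hdiam hl hJ hρ

/-- the form `F` in the chart of the ball -/
theorem FF_ef {x : Eu E} (hx : x ∈ Metric.ball (0 : Eu E) D) :
    (FF F hD hB hdiam hl hJ hρ a).val (ef e p) x =
      extd (fun z => ρ (WQ.frI p z) • PsiE n a p Pi o z) x := by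
  rw [mem_ball_zero_iff] at hx
  have h1 : ‖WQ.frI (E := E) p x‖ < D := lt_of_eq_of_lt ((WQ.frI (E := E) p).norm_map x) hx
  have h2 := FF_exp F hD hB hdiam hl hJ hρ a (w := WQ.frI (E := E) p)
    (sm_frI p (Sm.of_contDiff contDiff_id x)) h1
  refine h2.trans ?_
  have h3 : ContDiff ℝ ∞ fun v => ρ v • psi n a Pi o v :=
    hJ.os.cut_contDiff a hρ.smooth hρ.zero
  change Fm.pb _ (extd _) x = _
  rw [← extd_pb ((WQ.frI (E := E) p).contDiff.contDiffAt.of_le Fm.two_le_infty)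
    (h3.differentiable (by simp) _), pb_rho_psi a]

/-- the restriction of `B₀` to the fibre over the base point -/
theorem B0_cc {R : ℝ} (hR : 0 < R) (X : Fr e p R) (v0 : UT E M) {y : Eu E} (hy : y ≠ 0) :
    Fm.pull (ContinuousLinearMap.inr ℝ (Eu E) (Eu E))
      ((KT D (Form.pull (gm e) (map_gm F) (FF F hD hB hdiam hl hJ hρ a))).val (cc X v0) (0, y)) = PsiE n a p Pi o y := by
  have h0 : ‖((0 : Eu E), y).1‖ < R := by
    change ‖(0 : Eu E)‖ < R
    rw [norm_zero]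
    exact hR
  have hat := at_cc X v0 (z := ((0 : Eu E), y)) h0 hy
  have hg : Sm (fun z : Eu E => ((0 : Eu E), z)) y :=
    Sm.of_contDiff (contDiff_const.prodMk contDiff_id) y
  have h1 := (KT D (Form.pull (gm e) (map_gm F) (FF F hD hB hdiam hl hJ hρ a))).nat (u := cc X v0)
    (g := fun z : Eu E => ((0 : Eu E), z)) (x := y) hat hg
  have h2 : fderiv ℝ (fun z : Eu E => ((0 : Eu E), z)) y =
      ContinuousLinearMap.inr ℝ (Eu E) (Eu E) :=
    (hasFDerivAt_prodMk_right (0 : Eu E) y).fderiv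
  rw [h2] at h1
  rw [← h1]
  have hy' : 0 < ‖y‖ := norm_pos_iff.2 hy
  have hs : Sm (fun z : Eu E => ‖z‖⁻¹) y := by
    filter_upwards [isOpen_ne.mem_nhds hy] with z hz
    exact (contDiffAt_norm ℝ hz).inv (norm_ne_zero_iff.2 hz)
  have hu : Sm (fun z : Eu E => ‖z‖⁻¹ • WQ.frI (E := E) p z) y := by
    filter_upwards [hs] with z hz
    exact hz.smul (WQ.frI (E := E) p).contDiff.contDiffAt
  have h3 := B0_sphere F hD hB hdiam hl hJ hρ a
    (U := cc X v0 ∘ fun z : Eu E => ((0 : Eu E), z))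
    (u := fun z : Eu E => ‖z‖⁻¹ • WQ.frI (E := E) p z) hu ?_
  · refine h3.trans ?_
    rw [hJ.os.pb_smul a (f := WQ.frI (E := E) p) (r := fun z : Eu E => ‖z‖⁻¹)
      (WQ.frI (E := E) p).differentiableAt hs.differentiableAt ?_
      (inv_pos.2 hy')]
    · rfl
    · exact fun h => hy ((WQ.frI (E := E) p).map_eq_zero_iff.1 h)
  · filter_upwards [isOpen_ne.mem_nhds hy] with z hz
    have hz0 : ‖((0 : Eu E), z).1‖ < R := h0
    have h3 : ef e p ((0 : Eu E), z).1 = p := by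
      change e p (WQ.frI (E := E) p 0) = p
      rw [map_zero]
      exact exp_zero_eq F.isExp p
    have h4 : cc X v0 (0, z) = _ := cc_eq X v0 (z := ((0 : Eu E), z)) hz0 hz
    constructor
    · change foot (cc X v0 (0, z)) = p
      rw [h4]
      exact h3
    · change vec' (cc X v0 (0, z)) = _
      rw [h4]
      change (X.nr (0, z))⁻¹ • X.B 0 z = ‖z‖⁻¹ • fr p z
      have h5 : X.nr (0, z) = ‖z‖ := by
        change nm (ef e p ((0 : Eu E), z).1) (X.B 0 z) = ‖z‖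
        rw [h3, X.zero, nm_fr]
      rw [h5, X.zero]

end FF

end

end Vale.Agent.P231.FE
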