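import Vale.Agent.P231.FE.F
import Vale.Agent.P231.WE2.JJ

/-!
# P231, block S2-F (10): the planes of the directions with the same cut point form a spread
-/

set_option maxSynthPendingDepth 3
set_option linter.unusedSectionVars false

open Bundle Manifold Set Filter Module
open scoped ContDiff Manifold Topology

namespace Vale.Agent.P231.FE

noncomputable section

section Euclid

open Vale.Agent.P231.Fm

variable {V : Type*} [NormedAddCommGroup V] [NormedSpace ℝ V]
variable {T : Type*} [NormedAddCommGroup T] [InnerProductSpace ℝ T] [FiniteDimensional ℝ T]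
  {K : V → Submodule ℝ T} {x : V}

theorem gs_step {k : ℕ} {e : Fin k → V → T} (he : ∀ a, Sm (e a) x)
    (hon : ∀ᶠ y in 𝓝 x, Orthonormal ℝ fun a => e a y)
    (hK : ∀ᶠ y in 𝓝 x, ∀ a, e a y ∈ K y) {w : V → T} (hw : Sm w x)
    (hwK : ∀ᶠ y in 𝓝 x, w y ∈ K y) (hw1 : ‖w x‖ = 1)
    (hw2 : ∀ a, inner ℝ (e a x) (w x) = (0 : ℝ)) :
    ∃ f : V → T, Sm f x ∧ f x = w x ∧
      ∀ᶠ y in 𝓝 x, ‖f y‖ = 1 ∧ f y ∈ K y ∧ ∀ a, inner ℝ (e a y) (f y) = (0 : ℝ) := by
  let z : V → T := fun y => w y - ∑ a, (inner ℝ (e a y) (w y) : ℝ) • e a y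
  have hz : Sm z x := by
    have h1 : ∀ᶠ y in 𝓝 x, ∀ a, ContDiffAt ℝ ∞ (e a) y := Filter.eventually_all.2 he
    filter_upwards [hw, h1] with y hy1 hy2
    exact hy1.sub (ContDiffAt.sum fun a _ => ((hy2 a).inner ℝ hy1).smul (hy2 a))
  have hzx : z x = w x := by
    simp only [z]
    rw [Finset.sum_eq_zero fun a _ => by rw [hw2 a, zero_smul], sub_zero]
  have hz0 : z x ≠ 0 := by
    rw [hzx, ← norm_ne_zero_iff, hw1]
    exact one_ne_zero
  have hne : ∀ᶠ y in 𝓝 x, z y ≠ 0 := hz.continuousAt.eventually (isOpen_ne.mem_nhds hz0)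
  refine ⟨fun y => ‖z y‖⁻¹ • z y, ?_, ?_, ?_⟩
  · filter_upwards [hz, hne] with y h1 h2
    exact ((h1.norm ℝ h2).inv (norm_ne_zero_iff.2 h2)).smul h1
  · change ‖z x‖⁻¹ • z x = w x
    rw [hzx, hw1, inv_one, one_smul]
  · filter_upwards [hne, hon, hK, hwK] with y h1 h3 h4 h5
    have hn : ‖z y‖ ≠ 0 := norm_ne_zero_iff.2 h1
    refine ⟨?_, ?_, fun a => ?_⟩
    · rw [norm_smul, norm_inv, norm_norm, inv_mul_cancel₀ hn]
    · exact (K y).smul_mem _ ((K y).sub_mem h5
        ((K y).sum_mem fun a _ => (K y).smul_mem _ (h4 a)))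
    · rw [inner_smul_right]
      have h6 : inner ℝ (e a y) (z y) = (0 : ℝ) := by
        simp only [z, inner_sub_right, inner_sum, inner_smul_right]
        rw [Finset.sum_eq_single a]
        · rw [orthonormal_iff_ite.1 h3 a a, if_pos rfl, mul_one, sub_self]
        · intro b _ hb
          rw [orthonormal_iff_ite.1 h3 a b, if_neg (Ne.symm hb), mul_zero]
        · simp
      rw [h6, mul_zero]

/-- smooth local orthonormal frames from smooth local sections -/
theorem exists_gs (hsec : ∀ g ∈ K x, ‖g‖ = 1 → ∃ w : V → T, Sm w x ∧ w x = g ∧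
      ∀ᶠ y in 𝓝 x, w y ∈ K y) (k : ℕ) (g : Fin k → T) (hg : Orthonormal ℝ g)
    (hgK : ∀ a, g a ∈ K x) :
    ∃ e : Fin k → V → T, (∀ a, Sm (e a) x) ∧ (∀ᶠ y in 𝓝 x, Orthonormal ℝ fun a => e a y) ∧
      (∀ᶠ y in 𝓝 x, ∀ a, e a y ∈ K y) ∧ ∀ a, e a x = g a := by
  induction k with
  | zero =>
    refine ⟨fun a => a.elim0, fun a => a.elim0, Eventually.of_forall fun y => ?_,
      Eventually.of_forall fun y a => a.elim0, fun a => a.elim0⟩
    exact ⟨fun a => a.elim0, fun a => a.elim0⟩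
  | succ k ih =>
    obtain ⟨e, h2, h3, h4, h5⟩ := ih (fun a => g a.castSucc)
      (hg.comp _ (Fin.castSucc_injective _)) (fun a => hgK _)
    obtain ⟨w, w1, w2, w3⟩ := hsec (g (Fin.last k)) (hgK _) (hg.1 _)
    obtain ⟨f, k1, k2, k3⟩ := gs_step h2 h3 h4 w1 w3 (by rw [w2]; exact hg.1 _) (fun a => by
      rw [h5, w2]
      exact hg.2 (Fin.castSucc_lt_last a).ne)
    refine ⟨Fin.snoc (α := fun _ => V → T) e f, ?_, ?_, ?_, ?_⟩
    · intro a
      refine Fin.lastCases ?_ (fun a => ?_) a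
      · rw [Fin.snoc_last]
        exact k1
      · rw [Fin.snoc_castSucc]
        exact h2 a
    · filter_upwards [h3, k3] with y hy1 hy2
      have h6 := orthonormal_snoc hy1 hy2.1 hy2.2.2
      have h7 : (fun a => (Fin.snoc (α := fun _ => V → T) e f : Fin (k + 1) → V → T) a y) =
          Fin.snoc (α := fun _ => T) (fun a => e a y) (f y) := by
        funext a
        refine Fin.lastCases ?_ (fun a => ?_) a
        · simp
        · simp
      rw [h7]
      exact h6
    · filter_upwards [h4, k3] with y hy1 hy2 a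
      refine Fin.lastCases ?_ (fun a => ?_) a
      · rw [Fin.snoc_last]
        exact hy2.2.1
      · rw [Fin.snoc_castSucc]
        exact hy1 a
    · intro a
      refine Fin.lastCases ?_ (fun a => ?_) a
      · rw [Fin.snoc_last, k2, w2]
      · rw [Fin.snoc_castSucc]
        exact h5 a

/-- the projection in an orthonormal basis -/
theorem starProjection_eq_sum {P : Submodule ℝ T} {m : ℕ} (hP : finrank ℝ P = m) {g : Fin m → T}
    (hg : Orthonormal ℝ g) (hgP : ∀ a, g a ∈ P) :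
    P.starProjection = ∑ a, (innerSL ℝ (g a)).smulRight (g a) := by
  refine ContinuousLinearMap.ext fun w => ?_
  have h1 : P.starProjection w ∈ Submodule.span ℝ (Set.range g) := by
    rw [span_eq hP hg hgP]
    exact Submodule.starProjection_apply_mem _ _
  rw [← sum_of_mem_span hg h1, sum_apply]
  refine Finset.sum_congr rfl fun a _ => ?_
  rw [ContinuousLinearMap.smulRight_apply, innerSL_apply_apply,
    ← Submodule.inner_starProjection_left_eq_right,
    Submodule.starProjection_eq_self_iff.2 (hgP a)]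

theorem sm_proj {m : ℕ} (hrank : ∀ᶠ y in 𝓝 x, finrank ℝ (K y) = m)
    (hsec : ∀ g ∈ K x, ‖g‖ = 1 → ∃ w : V → T, Sm w x ∧ w x = g ∧ ∀ᶠ y in 𝓝 x, w y ∈ K y) :
    ContDiffAt ℝ ∞ (fun y => (K y).starProjection) x := by
  have hx := hrank.self_of_nhds
  let b := (stdOrthonormalBasis ℝ (K x)).reindex (finCongr hx)
  obtain ⟨e, h2, h3, h4, h5⟩ := exists_gs hsec m (fun a => (b a : T))
    (b.orthonormal.comp_linearIsometry (K x).subtypeₗᵢ) (fun a => (b a).2)
  have h6 : (fun y => (K y).starProjection) =ᶠ[𝓝 x] fun y =>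
      ∑ a, (innerSL ℝ (e a y)).smulRight (e a y) := by
    filter_upwards [hrank, h3, h4] with y k1 k2 k3 using starProjection_eq_sum k1 k2 k3
  refine ContDiffAt.congr_of_eventuallyEq ?_ h6
  refine ContDiffAt.sum fun a _ => ?_
  have h7 := (h2 a).self_of_nhds
  have h8 : ContDiffAt ℝ ∞ (fun y => innerSL ℝ (e a y)) x :=
    (innerSL ℝ).contDiff.contDiffAt.comp x h7
  exact h8.smulRight h7

end Euclid

open Vale.Agent.P234 Vale.Agent.P231 Vale.Agent.P231.H775 Vale.Agent.P231.WE2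

variable {E : Type*} [NormedAddCommGroup E] [NormedSpace ℝ E] [FiniteDimensional ℝ E]
  {M : Type*} [MetricSpace M] [ChartedSpace E M] [IsManifold 𝓘(ℝ, E) ∞ M]
  [RiemannianBundle (fun x : M => TangentSpace 𝓘(ℝ, E) x)]
  [IsContMDiffRiemannianBundle 𝓘(ℝ, E) ∞ E (fun x : M => TangentSpace 𝓘(ℝ, E) x)]
  {e : ∀ x : M, TangentSpace 𝓘(ℝ, E) x → M}

/-- the projection onto the plane of the directions at `p` with the same cut point as `u` -/
def PiP (e : ∀ x : M, TangentSpace 𝓘(ℝ, E) x → M) (D : ℝ) (p : M)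
    (u : TangentSpace 𝓘(ℝ, E) p) : TangentSpace 𝓘(ℝ, E) p →L[ℝ] TangentSpace 𝓘(ℝ, E) p :=
  (Pp e D p u).starProjection

variable [CompactSpace M] [ConnectedSpace M] [IsRiemannianManifold 𝓘(ℝ, E) M]

variable (F : Facts e) {D : ℝ} (hD : 0 < D) (hB : InjGE e D)
    (hdiam : ∀ p q : M, dist p q ≤ D) {l : ℕ}
    (hl : ∀ x y : M, dist x y = D → finrank ℝ (Pl e D x y) = l + 1)

include F hD hB hdiam hl

theorem PiP_smooth {p : M} {u : TangentSpace 𝓘(ℝ, E) p} (hu : u ≠ 0) :
    ContDiffAt ℝ ∞ (PiP e D p) u := by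
  have hne : ∀ᶠ s in 𝓝 u, s ≠ 0 := isOpen_compl_singleton.mem_nhds hu
  refine sm_proj (K := Pp e D p) (m := l + 1) ?_ ?_
  · filter_upwards [hne] with s hs
    exact hl _ _ (dist_hat F hD hB hs)
  · intro g hg hg1
    let q : TangentSpace 𝓘(ℝ, E) p → M := fun s => e p (D • hat s)
    have hg3 : g ∈ Lk e D (q u) p :=
      (mem_Lk_iff F hD hB hdiam (dist_hat F hD hB hu)).2 ⟨hg1, hg⟩
    have hhat : ∀ s : TangentSpace 𝓘(ℝ, E) p, s ≠ 0 → ContDiffAt ℝ ∞
        (fun s : TangentSpace 𝓘(ℝ, E) p => hat s) s := fun s hs =>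
      ((contDiffAt_norm ℝ hs).inv (norm_ne_zero_iff.2 hs)).smul contDiffAt_id
    have hq : ∀ᶠ s in 𝓝 u, ContMDiffAt 𝓘(ℝ, TangentSpace 𝓘(ℝ, E) p) 𝓘(ℝ, E) ∞ q s := by
      filter_upwards [hne] with s hs
      have h4 : ContDiffAt ℝ ∞ (fun s : TangentSpace 𝓘(ℝ, E) p => D • hat s) s :=
        (hhat s hs).const_smul D
      exact ((contMDiff_exp_fiber F.isExp p).contMDiffAt).comp s h4.contMDiffAt
    have hfg : ∀ᶠ s in 𝓝 u, dist p (q s) = D := by
      filter_upwards [hne] with s hs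
      rw [dist_comm]
      exact dist_hat F hD hB hs
    obtain ⟨w, hws, hw⟩ := exists_lift (V := TangentSpace 𝓘(ℝ, E) p) F hD hB hdiam (l := l)
      (f := fun _ => p) (g := q) hl (Eventually.of_forall fun s => contMDiffAt_const) hq hfg
      (u₀ := g) hg3
    refine ⟨w, ?_, hws, ?_⟩
    · filter_upwards [hw] with s hs using contDiffAt_of_smV hs.1
    · filter_upwards [hw] with s hs using Lk_subset_Pl D _ _ hs.2

/-- **the planes at `p` form a spread** -/
theorem spread (p : M) : Spread (l + 1) (PiP e D p) where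
  smooth u hu := PiP_smooth F hD hB hdiam hl hu
  idem u hu x := Submodule.starProjection_eq_self_iff.2 (Submodule.starProjection_apply_mem _ _)
  symm u hu x y := Submodule.inner_starProjection_left_eq_right _ _ _
  rank u hu := by
    have h1 : LinearMap.range (PiP e D p u : TangentSpace 𝓘(ℝ, E) p →ₗ[ℝ] _) = Pp e D p u := by
      ext w
      constructor
      · rintro ⟨v, rfl⟩
        exact Submodule.starProjection_apply_mem _ _
      · intro hw
        exact ⟨w, Submodule.starProjection_eq_self_iff.2 hw⟩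
    rw [h1]
    exact hl _ _ (dist_hat F hD hB hu)
  self u hu := Submodule.starProjection_eq_self_iff.2 (mem_Pp F hD hB hu)
  rel u w hu hw h := by
    have h1 : w ∈ Pp e D p u := Submodule.starProjection_eq_self_iff.1 h
    have h2 := Pp_eq F hD hB hdiam hu hw h1
    have h3 : Pp e D p w = Pp e D p u := by
      unfold Pp
      rw [h2]
    simp only [PiP, h3]

theorem cut_iff {p : M} {u w : TangentSpace 𝓘(ℝ, E) p} (hu : ‖u‖ = 1) (hw : ‖w‖ = 1) :
    e p (D • u) = e p (D • w) ↔ PiP e D p u w = w := by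
  have hu0 : u ≠ 0 := ne_zero_of_unit hu
  have hw0 : w ≠ 0 := ne_zero_of_unit hw
  have h0 : PiP e D p u w = w ↔ w ∈ Pp e D p u := Submodule.starProjection_eq_self_iff
  rw [h0]
  constructor
  · intro h
    have h1 : w ∈ Lk e D (e p (D • hat u)) p := ⟨hw, by rw [hat_unit hu, h]⟩
    exact Lk_subset_Pl D _ _ h1
  · intro h
    have h1 := Pp_eq F hD hB hdiam hu0 hw0 h
    rw [hat_unit hu, hat_unit hw] at h1
    exact h1.symm

end

end Vale.Agent.P231.FE
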