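import Vale.Agent.P231.FE.QPsi
import Vale.Agent.P231.TW.Main

/-!
# P231, block S2-F (16): the bound for the Weinstein number from the tower theorem
-/

set_option maxSynthPendingDepth 3
set_option linter.unusedSectionVars false
set_option linter.unusedVariables false

open Bundle Manifold Set Filter Module Topology MeasureTheory
open scoped ContDiff Manifold Topology

namespace Vale.Agent.P231.FE

open Vale.Agent.P234 Vale.Agent.P231 Vale.Agent.P231.Fm Vale.Agent.P231.W Vale.Agent.P231.WE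
  Vale.Agent.P231.WG Vale.Agent.P231.WR Vale.Agent.P231.H775 Vale.Agent.P231.WQ

noncomputable section

variable {E : Type*} [NormedAddCommGroup E] [NormedSpace ℝ E] [FiniteDimensional ℝ E]
  {M : Type*} [MetricSpace M] [ChartedSpace E M] [IsManifold 𝓘(ℝ, E) ∞ M]
  [RiemannianBundle (fun x : M => TangentSpace 𝓘(ℝ, E) x)]
  [IsContMDiffRiemannianBundle 𝓘(ℝ, E) ∞ E (fun x : M => TangentSpace 𝓘(ℝ, E) x)]
  {p : M} {n : ℕ}
  {Pi : TangentSpace 𝓘(ℝ, E) p → TangentSpace 𝓘(ℝ, E) p →L[ℝ] TangentSpace 𝓘(ℝ, E) p}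
  {o : TangentSpace 𝓘(ℝ, E) p → Fm.Lam (TangentSpace 𝓘(ℝ, E) p)}

/-- the angular form in the model space satisfies the hypotheses of the tower theorem -/
theorem tw_PsiE (h : OS n Pi o) (a : ℝ) :
    TW.Ang (2 * n + 2) (trP (WQ.frI p) Pi) (PsiE n a p Pi o) (kap n a) := by
  borelize (TangentSpace 𝓘(ℝ, E) p)
  exact ang_tr (h.ang a) (WQ.frI p)

theorem spread_E (h : OS n Pi o) : Spread (2 * n + 2) (trP (WQ.frI (E := E) p) Pi) := by
  borelize (TangentSpace 𝓘(ℝ, E) p)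
  exact h.sp.tr (WQ.frI p)

/-- **the number `q` divides `κ ^ N`** -/
theorem q_tower (h : OS n Pi o) (a : ℝ) (hn : 1 ≤ n) {N : ℕ} (hN : 0 < N)
    (hE : finrank ℝ E = (2 * n + 2) * N) {k : ℕ} (b : OrthonormalBasis (Fin k) ℝ (Eu E))
    {r : Eu E → ℝ} {K : Set (Eu E)} (hr : Q.Cut r K) :
    ∃ c : ℤ, |(c : ℝ)| * |Q.qv volume b r (PsiE n a p Pi o) (N - 1)| = kap n a ^ N := by
  have hE' : finrank ℝ (Eu E) = (2 * n + 2) * N := by
    rw [← hE]
    exact (WQ.frI (E := E) p).toLinearEquiv.finrank_eq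
  obtain ⟨c, hc⟩ := TW.tower (spread_E h) (by omega) (tw_PsiE h a) hN hE' b.toBasis hr
  refine ⟨c, ?_⟩
  have h1 : b.toBasis.addHaar = volume := b.addHaar_eq_volume
  rw [h1] at hc
  rw [← hc]
  rw [Q.qv, b.coe_toBasis]

/-- **the bound for the number `q`** -/
theorem q_le (h : OS n Pi o) {a : ℝ} (ha : a ≠ 0) (hn : 1 ≤ n) {N : ℕ} (hN : 0 < N)
    (hE : finrank ℝ E = (2 * n + 2) * N) {k : ℕ} (b : OrthonormalBasis (Fin k) ℝ (Eu E))
    {r : Eu E → ℝ} {K : Set (Eu E)} (hr : Q.Cut r K) :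
    |Q.qv volume b r (PsiE n a p Pi o) (N - 1)| ≤ kap n a ^ N ∧
      Q.qv volume b r (PsiE n a p Pi o) (N - 1) ≠ 0 := by
  have hE' : finrank ℝ (Eu E) = (2 * n + 2) * N := by
    rw [← hE]
    exact (WQ.frI (E := E) p).toLinearEquiv.finrank_eq
  have h2 := TW.abs_le_kappa_pow (spread_E h) (by omega) (tw_PsiE h a) hN hE' b.toBasis hr
    (kap_pos n ha).ne'
  have h1 : b.toBasis.addHaar = volume := b.addHaar_eq_volume
  rw [h1, b.coe_toBasis] at h2
  exact h2

end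

end Vale.Agent.P231.FE
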