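import Vale.Agent.P231.FE.Ops

/-!
# P231, block S2-F (2): the transgression formula for the Pfaffian, algebraic form
-/

set_option linter.unusedSectionVars false

open Module
open scoped ContDiff

namespace Vale.Agent.P231.FE

open Vale.Agent.P231.Fm

variable {V : Type*} [NormedAddCommGroup V] [NormedSpace ℝ V] [FiniteDimensional ℝ V]
variable {F : Type*} [NormedAddCommGroup F] [NormedSpace ℝ F] [FiniteDimensional ℝ F]

/-- a product of contractions with vertical vectors -/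
noncomputable def TTl (l : List F) : Module.End ℝ (Lam (V × F)) :=
  (l.map fun w => (iv w : Module.End ℝ (Lam (V × F)))).prod

theorem TTl_nil (η : Lam (V × F)) : TTl ([] : List F) η = η := rfl

theorem TTl_cons (w : F) (l : List F) (η : Lam (V × F)) :
    TTl (w :: l) η = iv w (TTl l η) := by
  rw [TTl, List.map_cons, List.prod_cons]
  rfl

theorem iv_mem (x y : Module.End ℝ (Lam (V × F)))
    (hx : x ∈ Set.range fun w : F => (iv w : Module.End ℝ (Lam (V × F))))
    (hy : y ∈ Set.range fun w : F => (iv w : Module.End ℝ (Lam (V × F)))) :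
    x * y = -(y * x) := by
  obtain ⟨v, rfl⟩ := hx
  obtain ⟨w, rfl⟩ := hy
  refine LinearMap.ext fun η => ?_
  exact iv_iv_swap v w η

theorem TTl_iv {l : List F} {w : F} (h : w ∈ l) (η : Lam (V × F)) : TTl l (iv w η) = 0 := by
  have h1 := prod_mul_eq_zero (S := Set.range fun w : F => (iv w : Module.End ℝ (Lam (V × F))))
    (by
      rintro x ⟨v, rfl⟩
      exact LinearMap.ext fun η => iv_iv v η)
    (fun x hx y hy => iv_mem x y hx hy)
    (l := l.map fun w => (iv w : Module.End ℝ (Lam (V × F))))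
    (by
      intro x hx
      obtain ⟨v, -, rfl⟩ := List.mem_map.1 hx
      exact ⟨v, rfl⟩) (b := iv w) (List.mem_map.2 ⟨w, h, rfl⟩)
  exact DFunLike.congr_fun h1 η

theorem TTl_eq_zero {l : List F} {w : F} (h : w ∈ l) {η : Lam (V × F)} (hη : iv w η = 0) :
    TTl l η = 0 := by
  obtain ⟨y, hy⟩ := exists_prod_eq
    (S := Set.range fun w : F => (iv w : Module.End ℝ (Lam (V × F))))
    (fun x hx y hy => iv_mem x y hx hy)
    (l := l.map fun w => (iv w : Module.End ℝ (Lam (V × F))))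
    (by
      intro x hx
      obtain ⟨v, -, rfl⟩ := List.mem_map.1 hx
      exact ⟨v, rfl⟩) (b := iv w) (List.mem_map.2 ⟨w, h, rfl⟩)
  rw [TTl, hy]
  change y (iv w η) = 0
  rw [hη, map_zero]

theorem diff_TTl {η : V → Lam (V × F)} {x : V} (hη : DifferentiableAt ℝ η x) (l : List F) :
    DifferentiableAt ℝ (fun y => TTl l (η y)) x :=
  (LinearMap.toContinuousLinearMap (TTl l)).differentiableAt.comp x hη

theorem TTl_dd {η : V → Lam (V × F)} {x : V} (hη : DifferentiableAt ℝ η x) (l : List F) :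
    TTl l (dd η x) = (-1 : ℝ) ^ l.length • dd (fun y => TTl l (η y)) x := by
  induction l with
  | nil => simp [TTl_nil]
  | cons w l ih =>
    rw [TTl_cons, ih, map_smul, iv_dd (diff_TTl hη l), List.length_cons, pow_succ', mul_smul,
      neg_one_smul, ← smul_neg]
    simp only [TTl_cons]

section Pow

/-- contraction of a power of an even element -/
theorem iv_pow {η : Lam (V × F)} (h : inv η = η) (w : F) (n : ℕ) :
    iv w (η ^ (n + 1)) = ((n : ℝ) + 1) • (iv w η * η ^ n) := by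
  induction n with
  | zero => simp
  | succ n ih =>
    have h2 : inv (η ^ (n + 1)) = η ^ (n + 1) := by rw [map_pow, h]
    rw [pow_succ η (n + 1), iv_mul, ih, h2, mul_comm_of_even h2, smul_mul_assoc, mul_assoc,
      ← pow_succ]
    push_cast
    module

end Pow

/-! ### frames -/

variable {m : ℕ}

/-- vertical coordinate one-forms -/
noncomputable def ff (a : Fin m) : Lam (V × (Fin m → ℝ)) := vt (ContinuousLinearMap.proj a)

/-- contraction with a vertical coordinate vector -/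
noncomputable def ii (a : Fin m) : Lam (V × (Fin m → ℝ)) →ₗ[ℝ] Lam (V × (Fin m → ℝ)) :=
  iv (Pi.single a 1)

/-- the list of coordinate vectors -/
def bl (m : ℕ) : List (Fin m → ℝ) := List.ofFn fun a : Fin m => Pi.single a 1

/-- contraction with all the coordinate vectors -/
noncomputable def TT : Module.End ℝ (Lam (V × (Fin m → ℝ))) := TTl (bl m)

theorem mem_bl (a : Fin m) : (Pi.single a 1 : Fin m → ℝ) ∈ bl m :=
  (List.mem_ofFn' _ _).2 ⟨a, rfl⟩

theorem TT_ii (a : Fin m) (η : Lam (V × (Fin m → ℝ))) : TT (ii a η) = 0 := TTl_iv (mem_bl a) η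

theorem TT_eq_zero {a : Fin m} {η : Lam (V × (Fin m → ℝ))} (h : ii a η = 0) : TT η = 0 :=
  TTl_eq_zero (mem_bl a) h

theorem TT_dd {η : V → Lam (V × (Fin m → ℝ))} {x : V} (hη : DifferentiableAt ℝ η x) :
    TT (dd η x) = (-1 : ℝ) ^ m • dd (fun y => TT (η y)) x := by
  have h := TTl_dd hη (bl m)
  rwa [bl, List.length_ofFn] at h

theorem ii_ff (a b : Fin m) : ii a (ff b : Lam (V × (Fin m → ℝ))) = if a = b then 1 else 0 := by
  rw [ii, ff, iv_vt]
  by_cases h : a = b
  · subst h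
    simp
  · rw [if_neg h]
    simp [Pi.single_eq_of_ne (Ne.symm h)]

theorem inv_ff (a : Fin m) : inv (ff a : Lam (V × (Fin m → ℝ))) = -ff a := inv_vt _

theorem ii_ff_mul (a b : Fin m) (η : Lam (V × (Fin m → ℝ))) :
    ii a (ff b * η) = (if a = b then η else 0) - ff b * ii a η := by
  rw [ii, iv_mul, ← ii, ii_ff, inv_ff, neg_mul, ← sub_eq_add_neg]
  congr 1
  split_ifs <;> simp

/-- the connection operator -/
noncomputable def NN (A : Fin m → Fin m → Lam V) (η : Lam (V × (Fin m → ℝ))) :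
    Lam (V × (Fin m → ℝ)) := ∑ a, ∑ b, hz (A a b) * ff a * ii b η

variable {A : Fin m → Fin m → Lam V}

theorem inv_hz_ff (hA : ∀ a b, inv (A a b) = -A a b) (a b c : Fin m) :
    inv (hz (A a b) * ff c : Lam (V × (Fin m → ℝ))) = hz (A a b) * ff c := by
  rw [map_mul, inv_hz, hA, inv_ff, map_neg, neg_mul_neg]

theorem NN_mul (hA : ∀ a b, inv (A a b) = -A a b) (η ζ : Lam (V × (Fin m → ℝ))) :
    NN A (η * ζ) = NN A η * ζ + inv η * NN A ζ := by
  simp only [NN, Finset.sum_mul, Finset.mul_sum, ← Finset.sum_add_distrib]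
  refine Finset.sum_congr rfl fun a _ => Finset.sum_congr rfl fun b _ => ?_
  rw [ii, iv_mul, mul_add, ← ii, mul_assoc, mul_assoc, mul_assoc, mul_assoc]
  congr 1
  rw [← mul_assoc (hz (A a b)), ← mul_assoc (hz (A a b) * ff a),
    mul_comm_of_even (inv_hz_ff hA a b a), mul_assoc, mul_assoc]

theorem NN_add (η ζ : Lam (V × (Fin m → ℝ))) : NN A (η + ζ) = NN A η + NN A ζ := by
  simp only [NN, map_add, mul_add, Finset.sum_add_distrib]

theorem NN_smul (c : ℝ) (η : Lam (V × (Fin m → ℝ))) : NN A (c • η) = c • NN A η := by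
  simp only [NN, map_smul, mul_smul_comm, Finset.smul_sum]

theorem NN_zero : NN A (0 : Lam (V × (Fin m → ℝ))) = 0 := by
  simp [NN]

theorem NN_sum {ι : Type*} (s : Finset ι) (η : ι → Lam (V × (Fin m → ℝ))) :
    NN A (∑ i ∈ s, η i) = ∑ i ∈ s, NN A (η i) := by
  classical
  induction s using Finset.induction_on with
  | empty => simp [NN_zero]
  | insert i s hi ih => rw [Finset.sum_insert hi, Finset.sum_insert hi, NN_add, ih]

theorem NN_hz (v : Lam V) : NN A (hz v) = 0 := by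
  simp [NN, ii, iv_hz]

theorem NN_ff (c : Fin m) : NN A (ff c) = ∑ a, hz (A a c) * ff a := by
  rw [NN]
  refine Finset.sum_congr rfl fun a _ => ?_
  simp only [ii_ff]
  simp

theorem TT_NN (hA : ∀ a, A a a = 0) (η : Lam (V × (Fin m → ℝ))) : TT (NN A η) = 0 := by
  rw [NN, map_sum]
  refine Finset.sum_eq_zero fun a _ => ?_
  rw [map_sum]
  refine Finset.sum_eq_zero fun b _ => ?_
  by_cases h : b = a
  · subst h
    rw [hA, map_zero, zero_mul, zero_mul, map_zero]
  · refine TT_eq_zero (a := b) ?_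
    rw [mul_assoc, ii, iv_hz_mul, ← ii, ii_ff_mul, if_neg h, zero_sub]
    have : ii b (ii b η) = 0 := iv_iv _ _
    rw [this, mul_zero, neg_zero, mul_zero]

/-- the covariant derivative -/
noncomputable def DD (A : Fin m → Fin m → Lam V) (η : V → Lam (V × (Fin m → ℝ))) (x : V) :
    Lam (V × (Fin m → ℝ)) := dd η x + NN A (η x)

theorem DD_add {η ζ : V → Lam (V × (Fin m → ℝ))} {x : V} (hη : DifferentiableAt ℝ η x)
    (hζ : DifferentiableAt ℝ ζ x) :
    DD A (fun y => η y + ζ y) x = DD A η x + DD A ζ x := by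
  rw [DD, dd_add hη hζ, NN_add, DD, DD]
  abel

theorem DD_mul (hA : ∀ a b, inv (A a b) = -A a b) {η ζ : V → Lam (V × (Fin m → ℝ))} {x : V}
    (hη : DifferentiableAt ℝ η x) (hζ : DifferentiableAt ℝ ζ x) :
    DD A (fun y => η y * ζ y) x = DD A η x * ζ x + inv (η x) * DD A ζ x := by
  rw [DD, dd_mul hη hζ, NN_mul hA, DD, DD]
  noncomm_ring

theorem DD_smul {η : V → Lam (V × (Fin m → ℝ))} {x : V} (c : ℝ) (hη : DifferentiableAt ℝ η x) :
    DD A (fun y => c • η y) x = c • DD A η x := by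
  rw [DD, dd_smul c hη, NN_smul, DD, smul_add]

theorem DD_sum {ι : Type*} (s : Finset ι) {η : ι → V → Lam (V × (Fin m → ℝ))} {x : V}
    (hη : ∀ i ∈ s, DifferentiableAt ℝ (η i) x) :
    DD A (fun y => ∑ i ∈ s, η i y) x = ∑ i ∈ s, DD A (η i) x := by
  rw [DD, dd_sum s hη, NN_sum, ← Finset.sum_add_distrib]
  rfl

theorem DD_pow (hA : ∀ a b, inv (A a b) = -A a b) {η : V → Lam (V × (Fin m → ℝ))} {x : V}
    (hη : DifferentiableAt ℝ η x) (he : inv (η x) = η x) (n : ℕ) :
    DD A (fun y => η y ^ (n + 1)) x = ((n : ℝ) + 1) • (DD A η x * η x ^ n) := by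
  induction n with
  | zero => simp
  | succ n ih =>
    have h2 : inv (η x ^ (n + 1)) = η x ^ (n + 1) := by rw [map_pow, he]
    have h3 : DifferentiableAt ℝ (fun y => η y ^ (n + 1)) x := hη.pow _
    have h4 : (fun y => η y ^ (n + 1 + 1)) = fun y => η y ^ (n + 1) * η y := by
      funext y
      rw [pow_succ]
    rw [h4, DD_mul hA h3 hη, ih, h2, mul_comm_of_even h2, smul_mul_assoc, mul_assoc, ← pow_succ]
    push_cast
    module

/-! ### transgression -/

variable {n : ℕ} {A : Fin (2 * n + 2) → Fin (2 * n + 2) → Lam V}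

/-- the structure equations at a point -/
structure SE (A : Fin (2 * n + 2) → Fin (2 * n + 2) → Lam V)
    (Θ W : V → Lam (V × (Fin (2 * n + 2) → ℝ))) (x : V) : Prop where
  odd : ∀ a b, inv (A a b) = -A a b
  diag : ∀ a, A a a = 0
  dΘ : DifferentiableAt ℝ Θ x
  dW : DifferentiableAt ℝ W x
  eΘ : inv (Θ x) = Θ x
  eW : inv (W x) = W x
  h0 : NN A (ff 0) = Θ x
  h1 : DD A Θ x = -ii 0 (W x)
  h2 : DD A W x = 0
  h3 : ii 0 (Θ x) = 0

/-- the coefficients -/
noncomputable def cf (n : ℕ) (a : ℝ) : ℕ → ℝ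
  | 0 => a
  | k + 1 => -(cf n a k * (2 * ((n : ℝ) - k) + 1) / (k + 1))

theorem TT_step {Θ W : V → Lam (V × (Fin (2 * n + 2) → ℝ))} {x : V} (h : SE A Θ W x) (j k : ℕ) :
    TT (DD A (fun y => ff 0 * Θ y ^ (j + 1) * W y ^ k) x) =
      TT (Θ x ^ (j + 2) * W x ^ k) +
        (((j : ℝ) + 1) / (k + 1)) • TT (Θ x ^ j * W x ^ (k + 1)) := by
  have e1 : DifferentiableAt ℝ (fun y => Θ y ^ (j + 1)) x := h.dΘ.pow _
  have e2 : DifferentiableAt ℝ (fun y => ff 0 * Θ y ^ (j + 1)) x :=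
    (differentiableAt_const _).mul e1
  have e3 : DifferentiableAt ℝ (fun y => W y ^ k) x := h.dW.pow _
  have e4 : DD A (fun y => W y ^ k) x = 0 := by
    cases k with
    | zero =>
      have : (fun y => W y ^ 0) = fun _ => (1 : Lam (V × (Fin (2 * n + 2) → ℝ))) := by
        funext y; rw [pow_zero]
      rw [this, DD, dd_const]
      have h5 := NN_hz (A := A) (1 : Lam V)
      rw [map_one] at h5
      rw [h5, add_zero]
    | succ k => rw [DD_pow h.odd h.dW h.eW, h.h2, zero_mul, smul_zero]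
  have e5 : DD A (fun _ => (ff 0 : Lam (V × (Fin (2 * n + 2) → ℝ)))) x = Θ x := by
    rw [DD, dd_const, zero_add, h.h0]
  have eΘj : inv (Θ x ^ j) = Θ x ^ j := by rw [map_pow, h.eΘ]
  rw [DD_mul h.odd e2 e3, e4, mul_zero, add_zero,
    DD_mul h.odd (differentiableAt_const _) e1, e5, DD_pow h.odd h.dΘ h.eΘ, h.h1, inv_ff]
  -- the vanishing of a total contraction
  have e6 := TT_ii 0 (ff 0 * (Θ x ^ j * W x ^ (k + 1)))
  have e7 : ii 0 (Θ x ^ j) = 0 := by
    cases j with
    | zero =>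
      have h5 := iv_hz (F := Fin (2 * n + 2) → ℝ) (Pi.single 0 1) (1 : Lam V)
      rw [map_one] at h5
      rw [pow_zero]
      exact h5
    | succ j =>
      have h6 := iv_pow h.eΘ (Pi.single 0 1) j
      rw [← ii, h.h3, zero_mul, smul_zero] at h6
      exact h6
  have e8 : ii 0 (W x ^ (k + 1)) = ((k : ℝ) + 1) • (ii 0 (W x) * W x ^ k) :=
    iv_pow h.eW (Pi.single 0 1) k
  have e9 : ii 0 (Θ x ^ j * W x ^ (k + 1)) =
      ((k : ℝ) + 1) • (ii 0 (W x) * Θ x ^ j * W x ^ k) := by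
    rw [ii, iv_mul, ← ii, e7, e8, zero_mul, zero_add, eΘj, mul_smul_comm, ← mul_assoc,
      mul_comm_of_even eΘj]
  rw [ii_ff_mul, if_pos rfl, e9, map_sub, mul_smul_comm, map_smul, sub_eq_zero] at e6
  have hk : ((k : ℝ) + 1) ≠ 0 := by positivity
  rw [e6, smul_smul, div_mul_cancel₀ _ hk]
  have e10 : (Θ x * Θ x ^ (j + 1) + -ff 0 * (((j : ℝ) + 1) • (-ii 0 (W x) * Θ x ^ j))) * W x ^ k =
      Θ x ^ (j + 2) * W x ^ k + ((j : ℝ) + 1) • (ff 0 * (ii 0 (W x) * Θ x ^ j * W x ^ k)) := by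
    rw [← pow_succ', add_mul]
    congr 1
    rw [mul_smul_comm, smul_mul_assoc]
    congr 1
    noncomm_ring
  rw [e10, map_add, map_smul]

/-- the transgression form in `Lam (V × ℝᵐ)` -/
noncomputable def Psi (a : ℝ) (Θ W : Lam (V × (Fin (2 * n + 2) → ℝ))) :
    Lam (V × (Fin (2 * n + 2) → ℝ)) :=
  ∑ k ∈ Finset.range (n + 1), cf n a k • (ff 0 * Θ ^ (2 * (n - k) + 1) * W ^ k)

/-- **transgression of the Pfaffian** -/
theorem TT_DD_Psi {Θ W : V → Lam (V × (Fin (2 * n + 2) → ℝ))} {x : V} (h : SE A Θ W x) (a : ℝ) :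
    TT (DD A (fun y => Psi a (Θ y) (W y)) x) = -(cf n a (n + 1)) • TT (W x ^ (n + 1)) := by
  have hd : ∀ k, DifferentiableAt ℝ (fun y => ff 0 * Θ y ^ (2 * (n - k) + 1) * W y ^ k) x :=
    fun k => ((differentiableAt_const _).mul (h.dΘ.pow _)).mul (h.dW.pow _)
  have h1 : ∀ k ∈ Finset.range (n + 1),
      TT (DD A (fun y => cf n a k • (ff 0 * Θ y ^ (2 * (n - k) + 1) * W y ^ k)) x) =
        cf n a k • TT (Θ x ^ (2 * (n + 1 - k)) * W x ^ k) -
          cf n a (k + 1) • TT (Θ x ^ (2 * (n + 1 - (k + 1))) * W x ^ (k + 1)) := by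
    intro k hk
    have hk' : k ≤ n := Nat.lt_succ_iff.1 (Finset.mem_range.1 hk)
    rw [DD_smul _ (hd k), map_smul, TT_step h, smul_add, smul_smul, sub_eq_add_neg, ← neg_smul]
    have e1 : 2 * (n - k) + 2 = 2 * (n + 1 - k) := by omega
    have e2 : n + 1 - (k + 1) = n - k := by omega
    rw [e1, e2]
    congr 2
    rw [cf]
    push_cast [Nat.cast_sub hk']
    ring
  have h2 : DD A (fun y => Psi a (Θ y) (W y)) x = ∑ k ∈ Finset.range (n + 1),
      DD A (fun y => cf n a k • (ff 0 * Θ y ^ (2 * (n - k) + 1) * W y ^ k)) x :=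
    DD_sum _ fun k _ => (hd k).fun_const_smul _
  rw [h2, map_sum, Finset.sum_congr rfl h1, Finset.sum_range_sub']
  have h3 : TT (Θ x ^ (2 * (n + 1 - 0)) * W x ^ 0) = 0 := by
    refine TT_eq_zero (a := 0) ?_
    have h6 := iv_pow h.eΘ (Pi.single 0 1) (2 * n + 1)
    rw [← ii, h.h3, zero_mul, smul_zero] at h6
    rw [pow_zero, mul_one]
    exact h6
  rw [h3, smul_zero, zero_sub, Nat.sub_self, mul_zero, pow_zero, one_mul, neg_smul]

/-- Berezin integral -/
noncomputable def bz (η : Lam (V × (Fin m → ℝ))) : Lam V := res (TT η)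

theorem extd_bz {η : V → Lam (V × (Fin m → ℝ))} {x : V} (hη : DifferentiableAt ℝ η x) :
    extd (fun y => bz (η y)) x = (-1 : ℝ) ^ m • bz (dd η x) := by
  have h1 := extd_res (diff_TTl hη (bl m))
  have h2 := TT_dd hη
  have h3 : extd (fun y => bz (η y)) x = res (dd (fun y => TT (η y)) x) := h1
  rw [h3, bz, h2, map_smul, smul_smul, ← mul_pow]
  simp

/-- **closedness identity** -/
theorem extd_bz_Psi {Θ W : V → Lam (V × (Fin (2 * n + 2) → ℝ))} {x : V} (h : SE A Θ W x) (a : ℝ) :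
    extd (fun y => bz (Psi a (Θ y) (W y))) x = -(cf n a (n + 1)) • bz (W x ^ (n + 1)) := by
  have hd : DifferentiableAt ℝ (fun y => Psi a (Θ y) (W y)) x := by
    have := DifferentiableAt.fun_sum (u := Finset.range (n + 1)) (x := x)
      (A := fun k y => cf n a k • (ff 0 * Θ y ^ (2 * (n - k) + 1) * W y ^ k)) fun k _ =>
      (((differentiableAt_const _).mul (h.dΘ.pow _)).mul (h.dW.pow _)).const_smul (cf n a k)
    exact this
  have h1 := TT_DD_Psi h a
  rw [DD, map_add, TT_NN h.diag, add_zero] at h1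
  rw [extd_bz hd, bz, h1, bz, map_smul]
  have h2 : (-1 : ℝ) ^ (2 * n + 2) = 1 := Even.neg_one_pow ⟨n + 1, by ring⟩
  rw [h2, one_smul]

end Vale.Agent.P231.FE
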